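import Mathlib

/-!
# Row 75 (ultraflat Littlewood polynomials): interface and proof sketches

A (O2, SPc, SPd). First derivative test (phi' monotone, |phi'| >= lam gives <= 1/lam, by parts); O2 = window
|phi'| <= sqrt mu plus two first derivative tests. Fresnel: int_{-T}^{T} e(u^2/2) du -> e(1/8) with error <= 2/T
(Gaussian integral with b = eps - i pi, eps -> 0). SPc(a): window |x-x0| <= W = |beta|^(-2/5): phase is quadratic up to
|beta| L W^3; outside the window the first derivative test gives 1/(|beta| c W). SPc(b): split [0,2z],[2z,1-2z],[1-2z,1];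
middle has |tau - t| >= c z, ends by O2. SPd: sum minus integral = O(beta^(2/5)): on the window |tau - t| <= beta^(-2/5)
compare termwise, outside use Kusmin-Landau (summation by parts, 1/(e(D)-1) = -1/2 - (i/2) cot(pi D)) and the
first derivative test.

B (Macro). delta0 small; segment s gets a time interval [t_s, t_s+T_s] inside [3 delta0, 1-delta0] and the profile
tau_s' = T'_s (1 + H (2x-1)^(2m)), T'_s = h/(kappa_s (1+delta1)), delta1 slightly above delta (choose H >> (card L)^2, then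
m >> H, z ~ 1/m, gap g tiny). k0 = floor(2 delta0 N), t_m = k0/N. On the cell of line l put theta = theta_l + n h x, x in [0,1];
group delay t_m + b_l(x): b_l rises from 0 to t_s - t_m on [0,g], is t_s - t_m + tau_s((x-g)/(1-2g)) on [g,1-g], falls to 0
on [1-g,1]; on the two gaps b_l is linear + eta x(g-x) with eta = O(1/N) chosen so that N n h int_0^g b has a prescribed
value mod 1 (fixing the phase to conj(A_l) e(-sgn/8)) and N n h int_0^1 b is an integer. U(theta) = e(k0 theta)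
prod_l e(N n h B_l(clamp x)) on [0,1/2], U(-theta) = conj U(theta), period 1; U = e(N Psi) with Psi' Lipschitz (constant
independent of N) and Psi' in [delta0, 1-delta0/2]. y_k = rho m(k) sqrt N hat U(k) with the trapezoid multiplier
m(k) = (1/b) #{(i,j): i<a, j<b, i+j=k}, kernel V = (1/b) D_a D_b: L1 norm <= sqrt(a/b), |V(u)| <= 1/(4 b u^2), so
V * U = U + o(1) uniformly (U(theta-u) ~ U(theta) e(-xi0 u), xi0 = round(N Psi'(theta))). Time side: at time t = k/N at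
most one segment is active (t - t_s in tau_s [z,1-z]); its lines give w * sum 2 Re(A e(theta k + n phi)) with a common
phi and w <= sqrt(1+delta1) by SPc(a); all other pieces are small by SPc(b) and O2.

C (Wave). sum_{n odd} r^n sin(n x)/n = Im artanh(r e^{ix}) is in [-pi/4, pi/4] and O(r); n^(-eta) = int t^(eta-1) e^(-n t) dt
/ Gamma(eta) (or: n^(-eta) convex, positive Fejer combination of mass <= 1+eta); truncate (absolutely convergent);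
power by sum 1/n^2 over odd n = pi^2/8.

D (Jit). Levels r = odd prime powers <= K, p = minFac r, distinct coordinates i(r), m_r = 1 mod K!, m_r^2 ~ p^(d+3+2 eta),
m_r <= p^d (d large), pi_r : Fin m_r -> (Fin d -> Fin p) injective, g_r : Fin m_r -> Z/r chosen by counting so that
|(1/m) sum_y e(n (pi(y).x + g(y))/r)| <= gamma' for all x and all n with r not dividing n (Hoeffding, r^(d+1) events).
Theta(k) = sum_r (pi_r(y_r).k + g_r(y_r))/r, y_r = k_{i(r)} mod m_r. For r | n the factor is 1; otherwise expand the indicator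
of y_r = y in characters eta/m_r and DROP eta = 0. J = pairs (n, (y_r, eta_r != 0)_{r not dividing n}),
zeta = sum n pi_r(y_r)/r + eta_r e_{i(r)}/m_r, |cf| = prod 1/m_r, s0 = prod_all m_r^(-2); prod_{r | n} p(r) = n (von Mangoldt).

E (Micro). Lambda = Sigma j, (Fin d -> Fin (nn j * B)); b_i = ceil(zeta_i M) + x_i, sigma_i = ceil(zeta_i M) - zeta_i M; profile
tau = delta + (1-3 delta) * ramp; c(x) = (nB)^(-1/2) e(1/8 - nB Psi((x+sigma)/(nB))); by SPd (conjugated) sum_x c(x) e((x+sigma) t) ~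
w(t) e(n B Phi(t)) with w, Phi independent of n, |w| <= (1-3 delta)^(-1/2), t = k_i/M. A = scale a n^(-1-eta) rho_n^(-1/2) cf prod c /(2i);
the sum is ~ scale W S(phi + B sum Phi(t_i) + Theta k), kappa = scale^2 a^2 s0/(4 B^d). Order of choices: eta,a,K; gamma; Jit; delta << 1/d;
H; degree of the ramp; B; M0.

F (Nibble). Alon-Spencer, Theorem 4.7.1 (or any proof): first delete vertices of degree > (1+delta')D.

G (Pack). Blocks beta in ZMod M (2 K! cells each), mirror beta -> -1-beta; a random template gives each mirror class a label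
(side, n) with probability mu_n/2, mu_n proportional to n * #{l : n l = n}. Candidates (j0,u,c) in (ZMod M)^(d+1) x Fin(2K!); line l sits in block
n j0 + b.u + floor(n c/(2K!)), slot c mod (2K!/n). Valid = all classes distinct, not the self mirror block, labels match. Vertices =
(class, slot). Expected degree D ~ 2 M^d P sum_n n s_n for every vertex, two lines are jointly uniform (independence hypothesis, M prime), so
variance and codegrees are O(1/M) relative; pick a template with small sum |deg - D| and apply the nibble.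

H (Spencer, Round). Partial colouring by pigeonhole with Kraft weights pi(0)=1-tau, pi(b)=tau 2^(-|b|)/2, tau ~ n/(400 m), buckets of width
C (m n)^(1/4); a fibre of size >= 2^(n-1) e^(-n/50) has two points at distance >= n/10; iterate. Round: d_k = 1-|y_k| truncated to J bits,
from the last bit up add chi_k 2^(-j) on the odd coordinates, replacing chi by -chi so that sum d does not grow (n_j <= delta N 2^j); test vectors cos, sin
on the grid of 3N points, sup over the circle <= sqrt 2 max over the grid via V = (1/N) D_N D_{2N}.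
-/

set_option autoImplicit false

open Finset

namespace Crest.Agent.R75

/-- `e(x) = exp(2 π i x)`. -/
noncomputable def ee (x : ℝ) : ℂ := Complex.exp (2 * Real.pi * Complex.I * x)

/-- Second derivative test. -/
def O2Stmt : Prop :=
  ∀ (φ φ' φ'' : ℝ → ℝ) (a b μ : ℝ), a ≤ b → 0 < μ →
    (∀ x, HasDerivAt φ (φ' x) x) → (∀ x, HasDerivAt φ' (φ'' x) x) → Continuous φ'' →
    ((∀ x ∈ Set.Icc a b, μ ≤ φ'' x) ∨ (∀ x ∈ Set.Icc a b, φ'' x ≤ -μ)) →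
    ‖∫ x in a..b, ee (φ x)‖ ≤ 4 / Real.sqrt μ

/-- A phase profile on `[0,1]`: `Ψ' = τ`, `τ' = τ'`, `τ' ≥ c`, Lipschitz, `≥ H` near the ends. -/
structure Prof (Ψ τ τ' : ℝ → ℝ) (c L H z : ℝ) : Prop where
  hΨ : ∀ x, HasDerivAt Ψ (τ x) x
  hτ : ∀ x, HasDerivAt τ (τ' x) x
  cont : Continuous τ'
  cpos : 0 < c
  Hpos : 0 < H
  zpos : 0 < z
  zle : z ≤ 1 / 4
  lip : ∀ x ∈ Set.Icc (0 : ℝ) 1, ∀ y ∈ Set.Icc (0 : ℝ) 1, |τ' x - τ' y| ≤ L * |x - y|
  lower : ∀ x ∈ Set.Icc (0 : ℝ) 1, c ≤ τ' x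
  ends : ∀ x ∈ Set.Icc (0 : ℝ) 1, (x ≤ 2 * z ∨ 1 - 2 * z ≤ x) → H ≤ τ' x

/-- The conclusion of stationary phase for a normalised quantity `I` at parameters `β, t`. -/
def SPConcl (Ψ τ τ' : ℝ → ℝ) (H z γ β t : ℝ) (I : ℂ) : Prop :=
  (∀ x₀ ∈ Set.Icc z (1 - z), τ x₀ = t →
      ‖I - ((Real.sqrt (τ' x₀))⁻¹ : ℝ) * ee (Real.sign β / 8 + β * (Ψ x₀ - t * x₀))‖ ≤ γ) ∧
  ((∀ x₀ ∈ Set.Icc z (1 - z), τ x₀ ≠ t) → ‖I‖ ≤ 20 / Real.sqrt H + γ)

/-- Uniform stationary phase, integrals. -/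
def SPcStmt : Prop :=
  ∀ (Ψ τ τ' : ℝ → ℝ) (c L H z : ℝ), Prof Ψ τ τ' c L H z → ∀ γ : ℝ, 0 < γ →
    ∃ β₀ : ℝ, ∀ β : ℝ, β₀ ≤ |β| → ∀ t : ℝ,
      SPConcl Ψ τ τ' H z γ β t
        ((Real.sqrt |β| : ℝ) * ∫ x in (0 : ℝ)..1, ee (β * (Ψ x - t * x)))

/-- Uniform stationary phase, sums over a shifted lattice. -/
def SPdStmt : Prop :=
  ∀ (Ψ τ τ' : ℝ → ℝ) (c L H z δ : ℝ), Prof Ψ τ τ' c L H z → 0 < δ →
    (∀ x ∈ Set.Icc (0 : ℝ) 1, δ ≤ τ x ∧ τ x ≤ 1 - δ) → ∀ γ : ℝ, 0 < γ →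
    ∃ β₀ : ℕ, ∀ β : ℕ, β₀ ≤ β → ∀ σ : ℝ, 0 ≤ σ → σ < 1 → ∀ t : ℝ, 0 ≤ t → t ≤ 1 →
      SPConcl Ψ τ τ' H z γ β t
        (((Real.sqrt β)⁻¹ : ℝ) *
          ∑ j ∈ range β, ee (β * (Ψ ((j + σ) / β) - t * ((j + σ) / β))))

/-- Macro lemma: a tiling of `[0,1/2]` by chirp lines gives an ultraflat real sequence in `[-1,1]`. -/
def MacroStmt : Prop :=
  ∀ (δ ε : ℝ), 0 < δ → δ ≤ 1 → 0 < ε →
  ∀ (S L : Type) [Fintype S] [Fintype L] [DecidableEq S] (seg : L → S) (κ : S → ℝ) (h : ℝ)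
    (θ : L → ℝ) (n : L → ℤ) (A : L → ℂ),
    0 < h → (∀ s, 0 < κ s) → (∀ l, n l ≠ 0) →
    (∀ l, ‖A l‖ ^ 2 = κ (seg l) * |(n l : ℝ)|) →
    (∀ l, Set.uIcc (θ l) (θ l + n l * h) ⊆ Set.Icc 0 (1 / 2)) →
    (∀ l l', l ≠ l' →
      Disjoint (Set.uIoo (θ l) (θ l + n l * h)) (Set.uIoo (θ l') (θ l' + n l' * h))) →
    (∀ x ∈ Set.Icc (0 : ℝ) (1 / 2), ∃ l, x ∈ Set.uIcc (θ l) (θ l + n l * h)) →
    (∀ (s : S) (k : ℤ) (φ : ℝ),
      |∑ l ∈ univ.filter (fun l => seg l = s), 2 * (A l * ee (θ l * k + n l * φ)).re| ≤ 1) →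
    ∑ s, h / κ s ≤ 1 + δ →
    ∃ N₀ : ℕ, ∀ N ≥ N₀, ∃ y : Fin N → ℝ, (∀ k, |y k| ≤ 1) ∧ ∀ x : ℝ,
      |‖∑ k : Fin N, (y k : ℂ) * ee ((k : ℕ) * x)‖ - Real.sqrt N| ≤ (δ + ε) * Real.sqrt N

/-- A smoothed square wave with multiplicative coefficients. -/
def WaveStmt : Prop :=
  ∀ ε : ℝ, 0 < ε → ∃ (η a : ℝ) (K : ℕ), 0 < η ∧ η ≤ 1 ∧ 0 < a ∧ a ≤ 2 ∧ 1 ≤ K ∧
    (∀ φ : ℝ, |∑ n ∈ (range (K + 1)).filter Odd,
        a * (n : ℝ) ^ (-(1 + η)) * Real.sin (2 * Real.pi * n * φ)| ≤ 1) ∧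
    1 - ε ≤ ∑ n ∈ (range (K + 1)).filter Odd, (a * (n : ℝ) ^ (-(1 + η))) ^ 2 / 2

/-- Torsion jitter: a phase `Θ` on `ℤ^d` whose `n`-th harmonic has a flat spectrum of prescribed level. -/
def JitStmt : Prop :=
  ∀ (K : ℕ) (η γ : ℝ), 1 ≤ K → 0 < η → η ≤ 1 → 0 < γ →
  ∃ (d : ℕ) (J : Type) (_ : Fintype J) (nn : J → ℕ) (ζ : J → Fin d → ℚ) (cf : J → ℂ)
    (ρ : ℕ → ℝ) (s₀ : ℝ) (Θ : (Fin d → ℤ) → ℝ),
    1 ≤ d ∧ 0 < s₀ ∧ (∀ n, |ρ n - 1| ≤ γ) ∧
    (∀ j, Odd (nn j) ∧ nn j ≤ K) ∧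
    (∀ n, Odd n → n ≤ K → ∀ k : Fin d → ℤ,
      ‖ee (n * Θ k) - ∑ j ∈ univ.filter (fun j => nn j = n),
        cf j * ee (∑ i, (ζ j i : ℝ) * k i)‖ ≤ γ) ∧
    (∀ j, ‖cf j‖ ^ 2 = ρ (nn j) * s₀ * (nn j : ℝ) ^ ((d : ℝ) + 3 + 2 * η)) ∧
    (∀ n, Odd n → n ≤ K → 1 - γ ≤ ∑ j ∈ univ.filter (fun j => nn j = n), ‖cf j‖ ^ 2) ∧
    (∀ j j', j ≠ j' → nn j = nn j' → ∃ i, ∀ w : ℤ, ζ j i - ζ j' i ≠ w) ∧
    (∀ j j', nn j ≠ nn j' → ∃ i, ∀ w : ℤ, nn j * ζ j' i - nn j' * ζ j i ≠ w)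

/-- Micro structure: a flat line system. -/
def MicroStmt : Prop :=
  ∀ ε : ℝ, 0 < ε → ∃ (K d : ℕ) (Λ : Type) (_ : Fintype Λ) (n : Λ → ℕ) (κ : ℝ),
    1 ≤ d ∧ 0 < κ ∧ (∀ l, 1 ≤ n l ∧ n l ≤ K) ∧ 1 - ε ≤ 2 * κ * ∑ l, (n l : ℝ) ∧
    ∃ M₀ : ℕ, ∀ M ≥ M₀, M.Prime → ∃ (b : Λ → Fin d → ℤ) (A : Λ → ℂ),
      (∀ l, ‖A l‖ ^ 2 = κ * n l) ∧
      (∀ k : Fin d → ℕ, (∀ i, k i < M) → ∀ φ : ℝ,
        |∑ l, 2 * (A l * ee ((∑ i, (b l i : ℝ) * k i) / M + n l * φ)).re| ≤ 1) ∧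
      (∀ l l', l ≠ l' → ∃ i, ¬ (M : ℤ) ∣ (n l : ℤ) * b l' i - (n l' : ℤ) * b l i)

/-- Pippenger / Frankl-Rödl near perfect matching theorem (multi-hypergraph form). -/
def NibbleStmt : Prop :=
  ∀ (s : ℕ) (K ε : ℝ), 1 ≤ s → 0 < ε → ∃ δ : ℝ, 0 < δ ∧
    ∀ (V E : Type) [Fintype V] [Fintype E] [DecidableEq V] (f : E → Finset V) (D : ℝ),
      1 ≤ δ * D → (∀ e, (f e).card = s) →
      (∀ v, ((univ.filter fun e => v ∈ f e).card : ℝ) ≤ K * D) →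
      (∑ v, |((univ.filter fun e => v ∈ f e).card : ℝ) - D| ≤ δ * D * Fintype.card V) →
      (∀ v w, v ≠ w → ((univ.filter fun e => v ∈ f e ∧ w ∈ f e).card : ℝ) ≤ δ * D) →
      ∃ T : Finset E, (∀ e ∈ T, ∀ e' ∈ T, e ≠ e' → Disjoint (f e) (f e')) ∧
        (1 - ε) * Fintype.card V ≤ s * T.card

/-- First cell (in units `1 / (2 K! M)`) of the interval swept by a line. -/
def start (K : ℕ) {d : ℕ} (n : ℕ) (b : Fin d → ℤ) (j₀ : ℤ) (u : Fin d → ℤ) (c : ℕ) : ℤ :=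
  (2 * K.factorial : ℕ) * ((n : ℤ) * j₀ + ∑ i, b i * u i) + (n : ℤ) * c

/-- Near perfect packing of the circle by affine images of a line pattern (and mirror images). -/
def PackStmt : Prop :=
  ∀ (ε : ℝ) (K d : ℕ) (Λ : Type) [Fintype Λ] [Nonempty Λ] (n : Λ → ℕ), 0 < ε → 1 ≤ d →
    (∀ l, 1 ≤ n l ∧ n l ≤ K) →
    ∃ M₀ : ℕ, ∀ M ≥ M₀, M.Prime → ∀ b : Λ → Fin d → ℤ,
      (∀ l l', l ≠ l' → ∃ i, ¬ (M : ℤ) ∣ (n l : ℤ) * b l' i - (n l' : ℤ) * b l i) →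
      ∃ (E : Type) (_ : Fintype E) (j₀ : E → ℤ) (u : E → Fin d → ℤ) (c : E → ℕ),
        (∀ (e e' : E) (l l' : Λ) (i i' : ℕ), i < n l → i' < n l' →
          (((2 * K.factorial * M : ℕ) : ℤ) ∣
              (start K (n l) (b l) (j₀ e) (u e) (c e) + i) -
                (start K (n l') (b l') (j₀ e') (u e') (c e') + i') →
            e = e' ∧ l = l' ∧ i = i') ∧
          ¬ (((2 * K.factorial * M : ℕ) : ℤ) ∣
              (start K (n l) (b l) (j₀ e) (u e) (c e) + i) +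
                (start K (n l') (b l') (j₀ e') (u e') (c e') + i') + 1)) ∧
        (1 - ε) * ((2 * K.factorial * M : ℕ) : ℝ) ≤ 2 * Fintype.card E * ∑ l, (n l : ℝ)

/-- Spencer type discrepancy bound in a crude form. -/
def SpencerStmt : Prop :=
  ∃ C : ℝ, 0 < C ∧ ∀ (ι μ : Type) [Fintype ι] [Fintype μ] (v : μ → ι → ℝ),
    Fintype.card ι ≤ Fintype.card μ → (∀ j i, |v j i| ≤ 1) →
    ∃ χ : ι → ℝ, (∀ i, χ i = 1 ∨ χ i = -1) ∧
      ∀ j, |∑ i, χ i * v j i| ≤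
        C * ((Fintype.card μ : ℝ) * Fintype.card ι) ^ ((1 : ℝ) / 4)

/-- Rounding a nearly `±1` vector to signs with small uniform error on the circle. -/
def RoundStmt : Prop :=
  ∀ ε : ℝ, 0 < ε → ∃ δ : ℝ, 0 < δ ∧ ∀ (N : ℕ) (y : Fin N → ℝ), (∀ k, |y k| ≤ 1) →
    ∑ k, (1 - |y k|) ≤ δ * N →
    ∃ c : Fin N → ℝ, (∀ k, c k = 1 ∨ c k = -1) ∧ ∀ x : ℝ,
      ‖∑ k : Fin N, ((c k - y k : ℝ) : ℂ) * ee ((k : ℕ) * x)‖ ≤ ε * Real.sqrt N

end Crest.Agent.R75
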