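import Crest.Agent.R75.Defs

set_option autoImplicit false

open Finset

namespace Crest.Agent.R75.Fin1

open Crest.Agent.R75

lemma ee_add (x y : ℝ) : ee (x + y) = ee x * ee y := by
  unfold ee; rw [← Complex.exp_add]; congr 1; push_cast; ring

lemma ee_int (m : ℤ) : ee m = 1 := by
  unfold ee
  have := Complex.exp_int_mul_two_pi_mul_I m
  rw [← this]; congr 1; push_cast; ring

lemma ee_congr {x y : ℝ} (m : ℤ) (h : x = y + m) : ee x = ee y := by
  rw [h, ee_add, ee_int, mul_one]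

lemma ee_neg (x : ℝ) : ee (-x) = (starRingEnd ℂ) (ee x) := by
  unfold ee; rw [← Complex.exp_conj]; congr 1
  simp only [map_mul, Complex.conj_ofReal, Complex.conj_I, map_ofNat]; push_cast; ring

lemma norm_ee (x : ℝ) : ‖ee x‖ = 1 := by
  unfold ee
  have : 2 * (Real.pi : ℂ) * Complex.I * x = ((2 * Real.pi * x : ℝ) : ℂ) * Complex.I := by
    push_cast; ring
  rw [this, Complex.norm_exp_ofReal_mul_I]

lemma continuous_ee : Continuous ee := by
  unfold ee; fun_prop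

lemma integral_ee (m : ℤ) : ∫ x in (0:ℝ)..1, ee (m * x) = if m = 0 then 1 else 0 := by
  split_ifs with h
  · subst h; simp [ee]
  · have hc : (2 * Real.pi * Complex.I * m : ℂ) ≠ 0 := by
      simp [h, Real.pi_ne_zero]
    have : (fun x : ℝ => ee (m * x)) = fun x : ℝ => Complex.exp ((2 * Real.pi * Complex.I * m) * x) := by
      funext x; unfold ee; congr 1; push_cast; ring
    rw [this, integral_exp_mul_complex hc]
    have h1 := ee_int m
    unfold ee at h1
    simp only [Complex.ofReal_one, mul_one, Complex.ofReal_zero, mul_zero, Complex.exp_zero]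
    push_cast at h1
    rw [h1]; simp

lemma parseval (N : ℕ) (y : Fin N → ℝ) :
    ∫ x in (0:ℝ)..1, ‖∑ k : Fin N, (y k : ℂ) * ee ((k : ℕ) * x)‖ ^ 2 = ∑ k, y k ^ 2 := by
  have key : ∀ x : ℝ, ((‖∑ k : Fin N, (y k : ℂ) * ee ((k : ℕ) * x)‖ ^ 2 : ℝ) : ℂ) =
      ∑ k : Fin N, ∑ l : Fin N, ((y k * y l : ℝ) : ℂ) * ee ((((k : ℕ) : ℤ) - ((l : ℕ) : ℤ) : ℤ) * x) := by
    intro x
    rw [← Complex.normSq_eq_norm_sq, ← Complex.mul_conj, map_sum, Finset.sum_mul_sum]
    refine sum_congr rfl fun k _ => sum_congr rfl fun l _ => ?_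
    rw [map_mul, Complex.conj_ofReal, ← ee_neg]
    have : ((((k : ℕ) : ℤ) - ((l : ℕ) : ℤ) : ℤ) : ℝ) * x = (k : ℕ) * x + -((l : ℕ) * x) := by
      push_cast; ring
    rw [this, ee_add]; push_cast; ring
  apply Complex.ofReal_injective
  rw [← intervalIntegral.integral_ofReal]
  simp_rw [key]
  have hc : ∀ (c : ℂ) (m : ℤ), Continuous fun x : ℝ => c * ee (m * x) := fun c m =>
    continuous_const.mul (continuous_ee.comp (continuous_const.mul continuous_id))
  rw [intervalIntegral.integral_finsetSum (fun k _ =>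
    (continuous_finsetSum _ fun l _ => hc _ _).intervalIntegrable _ _)]
  push_cast
  refine sum_congr rfl fun k _ => ?_
  have hc' := fun l : Fin N => hc (((y k * y l : ℝ) : ℂ)) (((k : ℕ) : ℤ) - ((l : ℕ) : ℤ))
  have := intervalIntegral.integral_finsetSum (μ := MeasureTheory.volume) (a := (0:ℝ)) (b := 1)
    (s := (univ : Finset (Fin N)))
    (f := fun l x => ((y k * y l : ℝ) : ℂ) * ee ((((k : ℕ) : ℤ) - ((l : ℕ) : ℤ) : ℤ) * x))
    (fun l _ => (hc' l).intervalIntegrable _ _)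
  push_cast at this
  rw [this]
  rw [Finset.sum_eq_single k]
  · have := integral_ee 0
    simp [intervalIntegral.integral_const_mul, ee, sq]
  · intro l _ hl
    rw [intervalIntegral.integral_const_mul]
    have h := integral_ee (((k : ℕ) : ℤ) - ((l : ℕ) : ℤ))
    rw [if_neg (by
      intro h0; apply hl; ext; omega)] at h
    push_cast at h
    rw [h, mul_zero]
  · simp

/-- The flat fractional sequence statement. -/
def FlatStmt : Prop :=
  ∀ ε : ℝ, 0 < ε → ∃ N₀ : ℕ, ∀ N ≥ N₀, ∃ y : Fin N → ℝ, (∀ k, |y k| ≤ 1) ∧ ∀ x : ℝ,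
      |‖∑ k : Fin N, (y k : ℂ) * ee ((k : ℕ) * x)‖ - Real.sqrt N| ≤ ε * Real.sqrt N

theorem final_of_flat (hF : FlatStmt) (hR : RoundStmt) (ε : ℝ) (hε : 0 < ε) :
    ∃ N₀ : ℕ, ∀ N ≥ N₀, ∃ c : Fin N → ℤˣ, ∀ z : ℂ, ‖z‖ = 1 →
      (1 - ε) * Real.sqrt N ≤ ‖∑ k : Fin N, ((c k : ℤ) : ℂ) * z ^ (k : ℕ)‖ ∧
        ‖∑ k : Fin N, ((c k : ℤ) : ℂ) * z ^ (k : ℕ)‖ ≤ (1 + ε) * Real.sqrt N := by
  obtain ⟨δ, hδ, hR⟩ := hR (ε / 2) (by positivity)
  set ε₁ := min (min (ε / 2) (δ / 2)) 1 with hε₁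
  have h1 : 0 < ε₁ := by positivity
  have h2 : ε₁ ≤ ε / 2 := (min_le_left _ _).trans (min_le_left _ _)
  have h3 : ε₁ ≤ δ / 2 := (min_le_left _ _).trans (min_le_right _ _)
  have h4 : ε₁ ≤ 1 := min_le_right _ _
  obtain ⟨N₀, hN⟩ := hF ε₁ h1
  refine ⟨N₀, fun N hNN => ?_⟩
  obtain ⟨y, hy, hY⟩ := hN N hNN
  have hs : 0 ≤ Real.sqrt N := Real.sqrt_nonneg _
  have hsq : Real.sqrt N ^ 2 = N := Real.sq_sqrt (Nat.cast_nonneg _)
  have hpow : (1 - ε₁) ^ 2 * N ≤ ∑ k, y k ^ 2 := by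
    rw [← parseval]
    have hc : Continuous fun x : ℝ => ‖∑ k : Fin N, (y k : ℂ) * ee ((k : ℕ) * x)‖ ^ 2 :=
      (continuous_finsetSum _ fun k _ =>
        continuous_const.mul (continuous_ee.comp (continuous_const.mul continuous_id))).norm.pow 2
    have := intervalIntegral.integral_mono_on (μ := MeasureTheory.volume) (a := (0:ℝ)) (b := 1)
      (f := fun _ => (1 - ε₁) ^ 2 * (N : ℝ)) zero_le_one (by simp) (hc.intervalIntegrable _ _)
      (fun x _ => by
        have h := (abs_le.1 (hY x)).1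
        have h0 : 0 ≤ (1 - ε₁) * Real.sqrt N := mul_nonneg (by linarith) hs
        have : (1 - ε₁) * Real.sqrt N ≤ ‖∑ k : Fin N, (y k : ℂ) * ee ((k : ℕ) * x)‖ := by
          linarith
        calc (1 - ε₁) ^ 2 * (N : ℝ) = ((1 - ε₁) * Real.sqrt N) ^ 2 := by rw [mul_pow, hsq]
          _ ≤ _ := pow_le_pow_left₀ h0 this 2)
    simpa using this
  have hsum : ∑ k, (1 - |y k|) ≤ δ * N := by
    have : ∑ k, (1 - |y k|) ≤ ∑ k, (1 - y k ^ 2) := sum_le_sum fun k _ => by
      have := hy k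
      have h0 := abs_nonneg (y k)
      rw [← sq_abs]; nlinarith
    rw [sum_sub_distrib] at this
    simp only [sum_const, card_univ, Fintype.card_fin, nsmul_eq_mul, mul_one] at this
    have hN0 : (0:ℝ) ≤ N := Nat.cast_nonneg _
    rw [sum_sub_distrib]
    simp only [sum_const, card_univ, Fintype.card_fin, nsmul_eq_mul, mul_one]
    rw [sum_sub_distrib] at this
    simp only [sum_const, card_univ, Fintype.card_fin, nsmul_eq_mul, mul_one] at this
    nlinarith [mul_nonneg hN0 (sq_nonneg ε₁), mul_nonneg hN0 (sub_nonneg.2 h3)]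
  obtain ⟨c, hc, hcy⟩ := hR N y hy hsum
  refine ⟨fun k => if c k = 1 then 1 else -1, fun z hz => ?_⟩
  have hz' : z = ee (Complex.arg z / (2 * Real.pi)) := by
    have := Complex.norm_mul_exp_arg_mul_I z
    rw [hz] at this
    unfold ee
    have hpi : (Real.pi : ℂ) ≠ 0 := by simp [Real.pi_ne_zero]
    have h2 : 2 * (Real.pi : ℂ) * Complex.I * ((Complex.arg z / (2 * Real.pi) : ℝ) : ℂ) =
        (Complex.arg z : ℂ) * Complex.I := by
      push_cast; field_simp
    rw [h2]; simpa using this.symm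
  set x := Complex.arg z / (2 * Real.pi)
  have hpw : ∀ k : ℕ, z ^ k = ee (k * x) := by
    intro k; rw [hz']; unfold ee; rw [← Complex.exp_nat_mul]; congr 1; push_cast; ring
  have heq : ∑ k : Fin N, ((((if c k = 1 then 1 else -1 : ℤˣ) : ℤ)) : ℂ) * z ^ (k : ℕ) =
      ∑ k : Fin N, (y k : ℂ) * ee ((k : ℕ) * x) +
        ∑ k : Fin N, ((c k - y k : ℝ) : ℂ) * ee ((k : ℕ) * x) := by
    rw [← sum_add_distrib]
    refine sum_congr rfl fun k _ => ?_
    rw [hpw]
    rcases hc k with h | h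
    · simp [h]; ring
    · have : c k ≠ 1 := by rw [h]; norm_num
      rw [if_neg this]; simp [h]; ring
  rw [heq]
  have hA := abs_le.1 (hY x)
  have hB := hcy x
  constructor
  · have := norm_sub_norm_le (∑ k : Fin N, (y k : ℂ) * ee ((k : ℕ) * x))
      (-(∑ k : Fin N, ((c k - y k : ℝ) : ℂ) * ee ((k : ℕ) * x)))
    rw [norm_neg, sub_neg_eq_add] at this
    nlinarith [mul_nonneg hs (sub_nonneg.2 h2)]
  · have := norm_add_le (∑ k : Fin N, (y k : ℂ) * ee ((k : ℕ) * x))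
      (∑ k : Fin N, ((c k - y k : ℝ) : ℂ) * ee ((k : ℕ) * x))
    nlinarith [mul_nonneg hs (sub_nonneg.2 h2)]

end Crest.Agent.R75.Fin1
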