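import Crest.Agent.R75.Fin1

set_option autoImplicit false

open Finset

namespace Crest.Agent.R75.Fin1

open Crest.Agent.R75

lemma cells {L : Type} (Gh : ℕ) (hG : 0 < Gh) (h : ℝ) (hh : h = 1 / (2 * Gh)) (a len : L → ℕ)
    (θ : L → ℝ) (n : L → ℤ) (hle : ∀ l, a l + len l ≤ Gh)
    (hθ : ∀ l, (θ l = a l * h ∧ n l = len l) ∨ (θ l = (a l + len l) * h ∧ n l = -(len l : ℤ)))
    (hcov : ∀ c < Gh, ∃ l, a l ≤ c ∧ c < a l + len l)
    (huniq : ∀ l l' c, a l ≤ c → c < a l + len l → a l' ≤ c → c < a l' + len l' → l = l') :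
    (∀ l, Set.uIcc (θ l) (θ l + n l * h) ⊆ Set.Icc 0 (1 / 2)) ∧
    (∀ l l', l ≠ l' →
      Disjoint (Set.uIoo (θ l) (θ l + n l * h)) (Set.uIoo (θ l') (θ l' + n l' * h))) ∧
    (∀ x ∈ Set.Icc (0 : ℝ) (1 / 2), ∃ l, x ∈ Set.uIcc (θ l) (θ l + n l * h)) := by
  have hGr : (0:ℝ) < Gh := by exact_mod_cast hG
  have h0 : 0 < h := by rw [hh]; positivity
  have hGh : Gh * h = 1 / 2 := by rw [hh]; field_simp
  have hmono : ∀ l, (a l : ℝ) * h ≤ (a l + len l) * h := fun l =>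
    mul_le_mul_of_nonneg_right (by linarith [(Nat.cast_nonneg (len l) : (0:ℝ) ≤ _)]) h0.le
  have hI : ∀ l, Set.uIcc (θ l) (θ l + n l * h) = Set.Icc (a l * h) ((a l + len l) * h) := by
    intro l
    rcases hθ l with ⟨h1, h2⟩ | ⟨h1, h2⟩
    · rw [h1, h2, show (a l : ℝ) * h + ((len l : ℤ) : ℝ) * h = (a l + len l) * h by push_cast; ring,
        Set.uIcc_of_le (hmono l)]
    · rw [h1, h2, show ((a l : ℝ) + len l) * h + ((-(len l : ℤ) : ℤ) : ℝ) * h = a l * h by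
        push_cast; ring, Set.uIcc_of_ge (hmono l)]
  have hO : ∀ l, Set.uIoo (θ l) (θ l + n l * h) = Set.Ioo (a l * h) ((a l + len l) * h) := by
    intro l
    rcases hθ l with ⟨h1, h2⟩ | ⟨h1, h2⟩
    · rw [h1, h2, show (a l : ℝ) * h + ((len l : ℤ) : ℝ) * h = (a l + len l) * h by push_cast; ring,
        Set.uIoo_of_le (hmono l)]
    · rw [h1, h2, show ((a l : ℝ) + len l) * h + ((-(len l : ℤ) : ℤ) : ℝ) * h = a l * h by
        push_cast; ring, Set.uIoo_of_ge (hmono l)]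
  refine ⟨fun l => ?_, fun l l' hl => ?_, fun x hx => ?_⟩
  · rw [hI]
    refine Set.Icc_subset_Icc (by positivity) ?_
    rw [← hGh]
    refine mul_le_mul_of_nonneg_right ?_ h0.le
    exact_mod_cast hle l
  · rw [hO, hO, Set.disjoint_left]
    rintro x ⟨h1, h2⟩ ⟨h3, h4⟩
    have hx0 : 0 ≤ x / h := by
      have : 0 ≤ (a l : ℝ) * h := by positivity
      exact div_nonneg (by linarith) h0.le
    apply hl
    refine huniq l l' ⌊x / h⌋₊ ?_ ?_ ?_ ?_
    · exact Nat.le_floor (by rw [le_div_iff₀ h0]; exact h1.le)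
    · rw [Nat.floor_lt hx0, div_lt_iff₀ h0]; push_cast; exact h2
    · exact Nat.le_floor (by rw [le_div_iff₀ h0]; exact h3.le)
    · rw [Nat.floor_lt hx0, div_lt_iff₀ h0]; push_cast; exact h4
  · have hx0 : 0 ≤ x / h := div_nonneg hx.1 h0.le
    obtain ⟨l, h1, h2⟩ := hcov (min ⌊x / h⌋₊ (Gh - 1)) (by omega)
    refine ⟨l, ?_⟩
    rw [hI]
    constructor
    · rw [← le_div_iff₀ h0]
      have : a l ≤ ⌊x / h⌋₊ := by omega
      exact (Nat.le_floor_iff hx0).1 this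
    · rcases le_total ⌊x / h⌋₊ (Gh - 1) with h3 | h3
      · have h4 : ⌊x / h⌋₊ < a l + len l := by omega
        rw [Nat.floor_lt hx0, div_lt_iff₀ h0] at h4
        push_cast at h4; exact h4.le
      · have h4 : Gh ≤ a l + len l := by omega
        have h5 : (Gh : ℝ) ≤ a l + len l := by exact_mod_cast h4
        have := mul_le_mul_of_nonneg_right h5 h0.le
        linarith [hx.2]

/-- Normalising a run of cells modulo `2 Gh` and the mirror symmetry. -/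
lemma normalise (Gh n : ℕ) (hG : 0 < Gh) (z : ℤ)
    (hm : ∀ i i' : ℕ, i < n → i' < n → ¬ ((2 * Gh : ℕ) : ℤ) ∣ (z + i) + (z + i') + 1) :
    ∃ a : ℕ, a + n ≤ Gh ∧ ((((2 * Gh : ℕ) : ℤ) ∣ z - a) ∨ (((2 * Gh : ℕ) : ℤ) ∣ z + (a + n))) := by
  have hG2 : (0:ℤ) < ((2 * Gh : ℕ) : ℤ) := by exact_mod_cast (by omega : 0 < 2 * Gh)
  have h1 := Int.emod_nonneg z hG2.ne'
  have h2 := Int.emod_lt_of_pos z hG2
  have h3 : ((2 * Gh : ℕ) : ℤ) ∣ z - z % ((2 * Gh : ℕ) : ℤ) := Int.dvd_self_sub_emod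
  obtain ⟨w, hw⟩ := Int.eq_ofNat_of_zero_le h1
  rw [hw] at h2 h3
  have hw2 : w < 2 * Gh := by exact_mod_cast h2
  obtain ⟨q, hq⟩ := h3
  by_cases hlow : w + n ≤ Gh
  · exact ⟨w, hlow, Or.inl ⟨q, hq⟩⟩
  · have hA : Gh ≤ w := by
      by_contra hc
      refine hm (Gh - 1 - w) (Gh - w) (by omega) (by omega) ⟨2 * q + 1, ?_⟩
      have e1 : ((Gh - 1 - w : ℕ) : ℤ) = Gh - 1 - w := by omega
      have e2 : ((Gh - w : ℕ) : ℤ) = Gh - w := by omega
      rw [e1, e2]; push_cast at hq ⊢; linear_combination 2 * hq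
    have hB : w + n ≤ 2 * Gh := by
      by_contra hc
      refine hm (2 * Gh - 1 - w) (2 * Gh - w) (by omega) (by omega) ⟨2 * q + 2, ?_⟩
      have e1 : ((2 * Gh - 1 - w : ℕ) : ℤ) = 2 * Gh - 1 - w := by omega
      have e2 : ((2 * Gh - w : ℕ) : ℤ) = 2 * Gh - w := by omega
      rw [e1, e2]; push_cast at hq ⊢; linear_combination 2 * hq
    refine ⟨2 * Gh - w - n, by omega, Or.inr ⟨q + 1, ?_⟩⟩
    have e1 : ((2 * Gh - w - n : ℕ) : ℤ) = 2 * Gh - w - n := by omega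
    rw [e1]; push_cast at hq ⊢; linear_combination hq

end Crest.Agent.R75.Fin1
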