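import Crest.Agent.R75.Fin2

set_option autoImplicit false

open Finset

namespace Crest.Agent.R75.Fin1

open Crest.Agent.R75

lemma seg_bound {K d M : ℕ} (hM : 0 < M) {Λ : Type} [Fintype Λ] (n : Λ → ℕ) (b : Λ → Fin d → ℤ)
    (A : Λ → ℂ)
    (hsup : ∀ k : Fin d → ℕ, (∀ i, k i < M) → ∀ φ : ℝ,
        |∑ l, 2 * (A l * ee ((∑ i, (b l i : ℝ) * k i) / M + n l * φ)).re| ≤ 1)
    (j₀ : ℤ) (u : Fin d → ℤ) (c : ℕ) (k : ℤ) (φ : ℝ) :
    |∑ l, 2 * (A l * ee ((start K (n l) (b l) j₀ u c : ℝ) / ((2 * K.factorial * M : ℕ) : ℝ) * k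
      + n l * φ)).re| ≤ 1 := by
  have hMz : (0:ℤ) < M := by exact_mod_cast hM
  have hMr : (0:ℝ) < M := by exact_mod_cast hM
  have hK : (0:ℝ) < K.factorial := by exact_mod_cast K.factorial_pos
  have h := hsup (fun i => ((u i * k) % M).toNat) (fun i => by
    have h1 := Int.emod_nonneg (u i * k) hMz.ne'
    have h2 := Int.emod_lt_of_pos (u i * k) hMz
    omega) (φ + k * j₀ / M + k * c / ((2 * K.factorial * M : ℕ) : ℝ))
  convert h using 4 with l
  congr 2
  refine ee_congr (∑ i, b l i * ((u i * k) / M)) ?_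
  have e : ∀ i, ((((u i * k) % M).toNat : ℕ) : ℝ) = u i * k - M * (((u i * k) / M : ℤ) : ℝ) := by
    intro i
    have h1 := Int.emod_nonneg (u i * k) hMz.ne'
    have h2 : ((((u i * k) % M).toNat : ℕ) : ℤ) = u i * k - M * ((u i * k) / M) := by
      rw [Int.toNat_of_nonneg h1, Int.emod_def]
    exact_mod_cast h2
  simp only [e, start]
  push_cast
  have e2 : ∑ i, (b l i : ℝ) * (u i * k - M * (((u i * k) / M : ℤ) : ℝ)) =
      (∑ i, (b l i : ℝ) * u i) * k - M * ∑ i, (b l i : ℝ) * (((u i * k) / M : ℤ) : ℝ) := by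
    rw [sum_mul, mul_sum, ← sum_sub_distrib]; exact sum_congr rfl fun i _ => by ring
  rw [e2]
  field_simp
  ring

theorem flat_of (hMac : MacroStmt) (hMic : MicroStmt) (hP : PackStmt) : FlatStmt := by
  classical
  intro ε hε
  set ε₁ := min (ε / 5) (1 / 10) with hε₁
  have e0 : 0 < ε₁ := by positivity
  have e1 : ε₁ ≤ ε / 5 := min_le_left _ _
  have e2 : ε₁ ≤ 1 / 10 := min_le_right _ _
  obtain ⟨K, d, Λ, _, n, κ, hd, hκ, hn, hpow, M₀, hM₀⟩ := hMic ε₁ e0
  have : Nonempty Λ := by
    by_contra hne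
    rw [not_nonempty_iff] at hne
    simp at hpow; linarith
  obtain ⟨M₁, hM₁⟩ := hP ε₁ K d Λ n e0 hd hn
  obtain ⟨M, hMge, hMp⟩ := Nat.exists_infinite_primes (max M₀ M₁)
  obtain ⟨b, A, hA, hsup, hind⟩ := hM₀ M (le_of_max_le_left hMge) hMp
  obtain ⟨E, _, j₀, u, c, hinj, hcount⟩ := hM₁ M (le_of_max_le_right hMge) hMp b hind
  set Gh := K.factorial * M with hGh
  have hG : 0 < Gh := Nat.mul_pos K.factorial_pos hMp.pos
  have hGG : 2 * K.factorial * M = 2 * Gh := by rw [hGh, mul_assoc]
  have hseg := fun e k φ => seg_bound (K := K) hMp.pos n b A hsup (j₀ e) (u e) (c e) k φ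
  rw [hGG] at hinj hcount hseg
  set z : E × Λ → ℤ := fun p => start K (n p.2) (b p.2) (j₀ p.1) (u p.1) (c p.1) with hz
  have hnorm : ∀ p : E × Λ, ∃ a : ℕ, a + n p.2 ≤ Gh ∧
      ((((2 * Gh : ℕ) : ℤ) ∣ z p - a) ∨ (((2 * Gh : ℕ) : ℤ) ∣ z p + (a + n p.2))) := fun p =>
    normalise Gh (n p.2) hG (z p) fun i i' hi hi' => (hinj p.1 p.1 p.2 p.2 i i' hi hi').2
  choose a ha1 ha2 using hnorm
  have hcell : ∀ p x, a p ≤ x → x < a p + n p.2 → ∃ i : ℕ, i < n p.2 ∧
      ((((2 * Gh : ℕ) : ℤ) ∣ (z p + i) - x) ∨ (((2 * Gh : ℕ) : ℤ) ∣ (z p + i) + x + 1)) := by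
    intro p x h1 h2
    rcases ha2 p with h | h
    · refine ⟨x - a p, by omega, Or.inl ?_⟩
      convert h using 1
      rw [Nat.cast_sub h1]; ring
    · refine ⟨a p + n p.2 - 1 - x, by omega, Or.inr ?_⟩
      convert h using 1
      have : ((a p + n p.2 - 1 - x : ℕ) : ℤ) = a p + n p.2 - 1 - x := by omega
      rw [this]; ring
  have huniq : ∀ p p' x, a p ≤ x → x < a p + n p.2 → a p' ≤ x → x < a p' + n p'.2 → p = p' := by
    intro p p' x h1 h2 h3 h4
    obtain ⟨i, hi, h5⟩ := hcell p x h1 h2
    obtain ⟨i', hi', h6⟩ := hcell p' x h3 h4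
    have hI : (((2 * Gh : ℕ) : ℤ) ∣ (z p + i) - (z p' + i') → p.1 = p'.1 ∧ p.2 = p'.2 ∧ i = i') ∧
        ¬ (((2 * Gh : ℕ) : ℤ) ∣ (z p + i) + (z p' + i') + 1) := hinj p.1 p'.1 p.2 p'.2 i i' hi hi'
    rcases h5 with h5 | h5 <;> rcases h6 with h6 | h6
    · have := hI.1 (by
        have h7 := dvd_sub h5 h6
        rwa [show z p + i - x - (z p' + i' - x) = z p + i - (z p' + i') by ring] at h7)
      exact Prod.ext this.1 this.2.1
    · refine absurd ?_ hI.2
      have h7 := dvd_add h5 h6
      rwa [show z p + i - x + (z p' + i' + x + 1) = z p + i + (z p' + i') + 1 by ring] at h7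
    · refine absurd ?_ hI.2
      have h7 := dvd_add h5 h6
      rwa [show z p + i + x + 1 + (z p' + i' - x) = z p + i + (z p' + i') + 1 by ring] at h7
    · have := hI.1 (by
        have h7 := dvd_sub h5 h6
        rwa [show z p + i + x + 1 - (z p' + i' + x + 1) = z p + i - (z p' + i') by ring] at h7)
      exact Prod.ext this.1 this.2.1
  set Cov : Finset ℕ := univ.biUnion fun p : E × Λ => Ico (a p) (a p + n p.2) with hCov
  have hCovcard : (Cov.card : ℝ) = Fintype.card E * ∑ l, (n l : ℝ) := by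
    rw [hCov, card_biUnion (by
      intro p _ p' _ hpp
      rw [Function.onFun, disjoint_left]
      intro x h1 h2
      rw [mem_Ico] at h1 h2
      exact hpp (huniq p p' x h1.1 h1.2 h2.1 h2.2))]
    simp [Fintype.sum_prod_type]
  have hCovsub : Cov ⊆ range Gh := by
    intro x hx
    simp only [hCov, mem_biUnion, mem_Ico] at hx
    obtain ⟨p, -, -, h⟩ := hx
    have := ha1 p
    rw [mem_range]; omega
  set F := range Gh \ Cov with hF
  have hFcard : (F.card : ℝ) = Gh - Fintype.card E * ∑ l, (n l : ℝ) := by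
    rw [hF, card_sdiff_of_subset hCovsub, Nat.cast_sub (card_le_card hCovsub), hCovcard]; simp
  have hGr : (0:ℝ) < Gh := by exact_mod_cast hG
  set h : ℝ := 1 / (2 * Gh) with hh
  have h0 : 0 < h := by positivity
  let pos : E × Λ → Prop := fun p => ((2 * Gh : ℕ) : ℤ) ∣ z p - a p
  let aa : (E × Λ) ⊕ F → ℕ := Sum.elim a fun x => x.1
  let len : (E × Λ) ⊕ F → ℕ := Sum.elim (fun p => n p.2) fun _ => 1
  let θ : (E × Λ) ⊕ F → ℝ := Sum.elim
    (fun p => if pos p then a p * h else (a p + n p.2) * h) fun x => x.1 * h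
  let nn : (E × Λ) ⊕ F → ℤ := Sum.elim
    (fun p => if pos p then n p.2 else -(n p.2 : ℤ)) fun _ => 1
  let AA : (E × Λ) ⊕ F → ℂ := Sum.elim
    (fun p => if pos p then A p.2 else (starRingEnd ℂ) (A p.2)) fun _ => 1 / 2
  have hFm : ∀ x : F, x.1 < Gh ∧ ∀ p, ¬ (a p ≤ x.1 ∧ x.1 < a p + n p.2) := by
    intro x
    have := x.2
    simp only [hF, mem_sdiff, mem_range, hCov, mem_biUnion, mem_Ico, mem_univ, true_and,
      not_exists] at this
    exact this
  obtain ⟨g1, g2, g3⟩ := cells Gh hG h hh aa len θ nn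
    (by rintro (p | x)
        · exact ha1 p
        · exact (hFm x).1)
    (by rintro (p | x)
        · by_cases hp : pos p <;> simp [θ, nn, aa, len, hp]
        · left; simp [θ, nn, aa, len])
    (by intro x hx
        by_cases hc : x ∈ Cov
        · simp only [hCov, mem_biUnion, mem_Ico, mem_univ, true_and] at hc
          obtain ⟨p, hp⟩ := hc
          exact ⟨Sum.inl p, hp⟩
        · exact ⟨Sum.inr ⟨x, by simp [hF, hx, hc]⟩, by simp [aa, len]⟩)
    (by rintro (p | x) (p' | x') y h1 h2 h3 h4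
        · rw [huniq p p' y h1 h2 h3 h4]
        · simp only [aa, len, Sum.elim_inl, Sum.elim_inr] at h1 h2 h3 h4
          exact absurd ⟨by omega, by omega⟩ ((hFm x').2 p)
        · simp only [aa, len, Sum.elim_inl, Sum.elim_inr] at h1 h2 h3 h4
          exact absurd ⟨by omega, by omega⟩ ((hFm x).2 p')
        · simp only [aa, len, Sum.elim_inr] at h1 h2 h3 h4
          congr 1; ext; omega)
  obtain ⟨N₀, hN⟩ := hMac (4 * ε₁) ε₁ (by positivity) (by linarith) e0 (E ⊕ F) ((E × Λ) ⊕ F)
    (Sum.map Prod.fst id) (Sum.elim (fun _ => κ) fun _ => 1 / 4) h θ nn AA h0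
    (by rintro (e | x) <;> simp [hκ])
    (by rintro (p | x)
        · have := (hn p.2).1
          by_cases hp : pos p <;> simp [nn, hp] <;> omega
        · simp [nn])
    (by rintro (p | x)
        · by_cases hp : pos p <;> simp [nn, AA, hp, hA]
        · simp [nn, AA]; norm_num)
    g1 g2 g3
    (by rintro (e | x) k φ
        · have hs := hseg e k φ
          convert hs using 2
          rw [sum_filter, Fintype.sum_sum_type, Fintype.sum_prod_type]
          simp only [Sum.map_inl, Sum.map_inr, Sum.inl.injEq, reduceCtorEq, if_false,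
            sum_const_zero, add_zero]
          rw [sum_comm]
          refine sum_congr rfl fun l _ => ?_
          rw [sum_ite_eq' univ e]
          simp only [mem_univ, if_true]
          have hG2 : ((2 * Gh : ℕ) : ℝ) ≠ 0 := by positivity
          by_cases hp : pos (e, l)
          · obtain ⟨q, hq⟩ := hp
            have hp' : pos (e, l) := ⟨q, hq⟩
            simp only [θ, nn, AA, Sum.elim_inl, if_pos hp']
            congr 3
            refine (ee_congr (q * k) ?_).symm
            have hq' : (z (e, l) : ℝ) = a (e, l) + 2 * Gh * q := by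
              have : z (e, l) = a (e, l) + 2 * Gh * q := by push_cast at hq; linarith
              exact_mod_cast this
            simp only [hz] at hq'
            rw [hq', hh]; push_cast; field_simp; ring
          · obtain ⟨q, hq⟩ := (ha2 (e, l)).resolve_left hp
            simp only [θ, nn, AA, Sum.elim_inl, if_neg hp]
            congr 1
            rw [← Complex.conj_re, map_mul, Complex.conj_conj, ← ee_neg]
            congr 2
            refine (ee_congr (q * k) ?_).symm
            have hq' : (z (e, l) : ℝ) = -(a (e, l) + n l) + 2 * Gh * q := by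
              have : z (e, l) = -(a (e, l) + n l) + 2 * Gh * q := by push_cast at hq; linarith
              exact_mod_cast this
            simp only [hz] at hq'
            rw [hq', hh]; push_cast; field_simp; ring
        · rw [sum_filter, Fintype.sum_sum_type]
          simp only [Sum.map_inl, Sum.map_inr, Sum.inr.injEq, reduceCtorEq, if_false,
            sum_const_zero, zero_add, id]
          rw [sum_ite_eq' univ x]
          simp only [mem_univ, if_true, AA, Sum.elim_inr]
          have := Complex.abs_re_le_norm (ee (θ (Sum.inr x) * k + nn (Sum.inr x) * φ))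
          rw [norm_ee] at this
          convert this using 2
          simp [Complex.mul_re])
    (by rw [Fintype.sum_sum_type]
        simp only [Sum.elim_inl, Sum.elim_inr, sum_const, card_univ, nsmul_eq_mul,
          Fintype.card_coe]
        have hF0 : (0:ℝ) ≤ F.card := Nat.cast_nonneg _
        push_cast at hcount
        have hE0 : (0:ℝ) ≤ Fintype.card E := Nat.cast_nonneg _
        have t1 : (F.card : ℝ) * (h / (1 / 4)) ≤ 2 * ε₁ := by
          rw [hh]
          have : (F.card : ℝ) ≤ ε₁ * Gh := by rw [hFcard]; nlinarith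
          calc (F.card : ℝ) * (1 / (2 * Gh) / (1 / 4)) = 2 * (F.card / Gh) := by field_simp; ring
            _ ≤ 2 * ε₁ := by
              have : (F.card : ℝ) / Gh ≤ ε₁ := by rw [div_le_iff₀ hGr]; exact this
              linarith
        have t2 : (Fintype.card E : ℝ) * (h / κ) ≤ 1 + 2 * ε₁ := by
          rw [hh]
          have hb : (Fintype.card E : ℝ) * ∑ l, (n l : ℝ) ≤ Gh := by linarith
          have hc : (Fintype.card E : ℝ) * (1 - ε₁) ≤ 2 * κ * Gh := by
            calc (Fintype.card E : ℝ) * (1 - ε₁) ≤ Fintype.card E * (2 * κ * ∑ l, (n l : ℝ)) :=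
                  mul_le_mul_of_nonneg_left hpow hE0
              _ = 2 * κ * (Fintype.card E * ∑ l, (n l : ℝ)) := by ring
              _ ≤ _ := mul_le_mul_of_nonneg_left hb (by positivity)
          have : (Fintype.card E : ℝ) * (1 / (2 * Gh) / κ) = Fintype.card E / (2 * κ * Gh) := by
            field_simp
          rw [this, div_le_iff₀ (by positivity)]
          have h7 : 0 < 2 * κ * Gh := by positivity
          nlinarith [mul_nonneg hE0 (mul_nonneg e0.le (by linarith : (0:ℝ) ≤ 1 - 2 * ε₁)),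
            mul_le_mul_of_nonneg_left hc (by linarith : (0:ℝ) ≤ 1 + 2 * ε₁)]
        linarith)
  refine ⟨N₀, fun N hNN => ?_⟩
  obtain ⟨y, hy, hY⟩ := hN N hNN
  refine ⟨y, hy, fun x => (hY x).trans ?_⟩
  exact mul_le_mul_of_nonneg_right (by linarith) (Real.sqrt_nonneg _)

end Crest.Agent.R75.Fin1
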