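import Crest.Agent.R75.JitD

set_option autoImplicit false

open Finset

namespace Crest.Agent.R75

open Crest.Agent.R75.G Crest.Agent.R75.Fin1 Crest.Agent.R75.D

theorem jit : JitStmt := by
  intro K η γ hK hη hη1 hγ
  obtain ⟨γ', g0, g1, g2⟩ := pow_small K hγ
  have hev : ∀ᶠ d in Filter.atTop, ∀ r : Fin (K + 1), ∃ m π g,
      IsPrimePow (r : ℕ) ∧ Odd (r : ℕ) → Level K d r η γ' m π g := by
    rw [Filter.eventually_all]
    intro r
    by_cases h : IsPrimePow (r : ℕ) ∧ Odd (r : ℕ)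
    · filter_upwards [level K r h.1.two_le hη hη1 g0 g1] with d ⟨m, π, g, hl⟩
      exact ⟨m, π, g, fun _ => hl⟩
    · exact Filter.Eventually.of_forall fun d => ⟨0, 0, 0, fun h' => absurd h' h⟩
  obtain ⟨d, hd, hL⟩ := ((Filter.eventually_ge_atTop (K + 1)).and hev).exists
  choose m π g hL using hL
  have hm : ∀ r : Fin (K + 1), IsPrimePow (r : ℕ) ∧ Odd (r : ℕ) → (0:ℝ) < m r := by
    intro r h
    have hb := (hL r h).big
    rcases Nat.eq_zero_or_pos (m r) with h0 | h0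
    · rw [h0] at hb; norm_num at hb
    · exact_mod_cast h0
  let N := (range (K + 1)).filter Odd
  have hN : ∀ n, n ∈ N ↔ Odd n ∧ n ≤ K := by
    intro n; simp only [N, mem_filter, mem_range]; rw [and_comm, Nat.lt_succ_iff]
  let Φ : ℕ → Finset (Fin (K + 1) → ℕ × ℕ) := fun n => Fintype.piFinset (SS m n)
  let ρ : ℕ → ℝ := fun n => ∏ r ∈ univ.filter (fun r : Fin (K + 1) =>
    (IsPrimePow (r : ℕ) ∧ Odd (r : ℕ)) ∧ (r : ℕ) ∣ n),
    (m r : ℝ) ^ 2 / ((r : ℕ).minFac : ℝ) ^ ((d : ℝ) + 3 + 2 * η)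
  have hj : ∀ j : ↥(N.sigma Φ), (Odd j.1.1 ∧ j.1.1 ≤ K) ∧ j.1.2 ∈ Φ j.1.1 := fun j => by
    have := mem_sigma.1 j.2
    exact ⟨(hN _).1 this.1, this.2⟩
  refine ⟨d, ↥(N.sigma Φ), inferInstance, fun j => j.1.1,
    fun j i => z1 π j.1.1 j.1.2 i + z2 hd m j.1.1 j.1.2 i, fun j => cf m g j.1.1 j.1.2, ρ,
    ∏ r ∈ univ.filter (fun r : Fin (K + 1) => IsPrimePow (r : ℕ) ∧ Odd (r : ℕ)), ((m r : ℝ) ^ 2)⁻¹,
    Th hd m π g, by omega, prod_pos fun r hr => ?_, fun n => ?_, fun j => (hj j).1,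
    fun n h1 h2 k => ?_, fun j => ?_, fun n h1 h2 => ?_, fun j j' hne he => ?_, fun j j' hne => ?_⟩
  · have := hm r (mem_filter.1 hr).2
    positivity
  · have := prod_close (univ.filter (fun r : Fin (K + 1) =>
      (IsPrimePow (r : ℕ) ∧ Odd (r : ℕ)) ∧ (r : ℕ) ∣ n)) (fun _ => (1:ℝ)) (fun r =>
      (m r : ℝ) ^ 2 / ((r : ℕ).minFac : ℝ) ^ ((d : ℝ) + 3 + 2 * η)) g0.le (fun _ _ => by simp)
      (fun r hr => by
        rw [Real.norm_eq_abs, abs_sub_comm]; exact (hL r (mem_filter.1 hr).2.1).size)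
    rw [prod_const_one, Real.norm_eq_abs, abs_sub_comm] at this
    exact this.trans (g2 _ ((card_le_univ _).trans (by simp)))
  · rw [fiber_sum N Φ (fun x => cf m g x.1 x.2 *
      ee (∑ i, ((z1 π x.1 x.2 i + z2 hd m x.1 x.2 i : ℚ) : ℝ) * k i)) n ((hN n).2 ⟨h1, h2⟩)]
    exact (approx hd m π g g0.le hL n k).trans (g2 _ le_rfl)
  · obtain ⟨⟨h1, h2⟩, -⟩ := hj j
    simp only
    generalize j.1.2 = a
    generalize j.1.1 = n at h1 h2 ⊢
    rw [norm_cf, ← prod_filter_mul_prod_filter_not (univ.filter (fun r : Fin (K + 1) =>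
      IsPrimePow (r : ℕ) ∧ Odd (r : ℕ))) (fun r => (r : ℕ) ∣ n), filter_filter, filter_filter,
      ← prod_minFac K n h1 h2, ← Real.finsetProd_rpow _ _ (fun _ _ => by positivity),
      mul_comm (∏ _ ∈ _, _) (∏ _ ∈ _, _), mul_left_comm, mul_assoc, ← prod_mul_distrib,
      ← prod_mul_distrib]
    rw [prod_congr rfl (g := fun _ => 1) (s₂ := univ.filter (fun r : Fin (K + 1) =>
      (IsPrimePow (r : ℕ) ∧ Odd (r : ℕ)) ∧ (r : ℕ) ∣ n)) (fun r hr => ?_), prod_const_one, mul_one]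
    · rfl
    · have := hm r (mem_filter.1 hr).2.1
      have : (0:ℝ) < ((r : ℕ).minFac : ℝ) := by exact_mod_cast (r : ℕ).minFac_pos
      field_simp
  · rw [fiber_sum N Φ (fun x => ‖cf m g x.1 x.2‖ ^ 2) n ((hN n).2 ⟨h1, h2⟩)]
    have := mass m π g g0.le hL n
    have := g2 _ le_rfl
    linarith
  · by_contra hc
    push Not at hc
    obtain ⟨⟨n, a⟩, ha⟩ := j
    obtain ⟨⟨n', a'⟩, ha'⟩ := j'
    simp only at he hc
    subst he
    obtain ⟨⟨h1, -⟩, h3⟩ := hj ⟨_, ha⟩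
    obtain ⟨-, h4⟩ := hj ⟨_, ha'⟩
    have := inj_same hd m π g hL (by rintro rfl; simp at h1) h3 h4 hc
    subst this
    exact hne rfl
  · obtain ⟨⟨h1, h2⟩, h3⟩ := hj j
    obtain ⟨⟨h4, h5⟩, h6⟩ := hj j'
    by_cases h : j.1.1 ∣ j'.1.1
    · obtain ⟨i, hi⟩ := inj_diff hd m π g hL h4 h5 (fun h' => hne (Nat.dvd_antisymm h h')) j'.1.2 h3
      refine ⟨i, fun w hw => hi (-w) ?_⟩
      rw [Int.cast_neg, ← hw]; ring
    · exact inj_diff hd m π g hL h1 h2 h j.1.2 h6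

end Crest.Agent.R75
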