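import Crest.Agent.R75.PackA
import Crest.Agent.R75.Fin1

set_option autoImplicit false

open Finset

namespace Crest.Agent.R75.D

open Crest.Agent.R75.G Crest.Agent.R75.Fin1

lemma ee_pow (x : ℝ) (k : ℕ) : ee x ^ k = ee (k * x) := by
  unfold ee; rw [← Complex.exp_nat_mul]; congr 1; push_cast; ring

lemma ee_zero : ee 0 = 1 := by simp [ee]

lemma ee_sum {ι : Type*} (s : Finset ι) (f : ι → ℝ) : ee (∑ i ∈ s, f i) = ∏ i ∈ s, ee (f i) := by
  classical
  induction s using Finset.induction_on with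
  | empty => simp [ee_zero]
  | insert a s ha ih => rw [sum_insert ha, prod_insert ha, ee_add, ih]

lemma sum_ee (m : ℕ) (hm : 0 < m) (a : ℤ) :
    ∑ j ∈ range m, ee (j * (a / m)) = if (m : ℤ) ∣ a then (m : ℂ) else 0 := by
  have hm' : (m : ℝ) ≠ 0 := by positivity
  split_ifs with h
  · obtain ⟨c, rfl⟩ := h
    rw [sum_congr rfl (g := fun _ => 1) fun j _ => by
      rw [← ee_int (j * c)]; congr 1; push_cast; field_simp]
    simp
  · simp only [← ee_pow]
    have h1 : ee (a / m) ≠ 1 := by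
      intro h1
      unfold ee at h1
      obtain ⟨c, hc⟩ := Complex.exp_eq_one_iff.1 h1
      apply h
      refine ⟨c, ?_⟩
      have h2 : (2 * Real.pi * Complex.I : ℂ) ≠ 0 := by simp [Real.pi_ne_zero]
      have h3 : (((a : ℝ) / m : ℝ) : ℂ) = c := mul_left_cancel₀ h2 (by rw [hc]; ring)
      have h4 : (a : ℝ) / m = c := by exact_mod_cast h3
      rw [div_eq_iff hm'] at h4
      have : a = c * m := by exact_mod_cast h4
      rw [this, mul_comm]
    rw [geom_sum_eq h1, ee_pow, show (m : ℝ) * (a / m) = a by field_simp, ee_int]; simp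

lemma prod_close {𝕜 ι : Type*} [NormedField 𝕜] (s : Finset ι) (u v : ι → 𝕜) {γ : ℝ} (hγ : 0 ≤ γ)
    (hu : ∀ i ∈ s, ‖u i‖ ≤ 1) (huv : ∀ i ∈ s, ‖u i - v i‖ ≤ γ) :
    ‖∏ i ∈ s, u i - ∏ i ∈ s, v i‖ ≤ (1 + γ) ^ s.card - 1 := by
  classical
  induction s using Finset.induction_on with
  | empty => simp
  | insert a s ha ih =>
    rw [prod_insert ha, prod_insert ha, card_insert_of_notMem ha, pow_succ]
    have h1 := ih (fun i hi => hu i (mem_insert_of_mem hi)) fun i hi => huv i (mem_insert_of_mem hi)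
    have h2 := hu a (mem_insert_self _ _)
    have h3 := huv a (mem_insert_self _ _)
    have h4 : ‖∏ i ∈ s, u i‖ ≤ 1 := by
      rw [norm_prod]
      exact prod_le_one (fun _ _ => norm_nonneg _) fun i hi => hu i (mem_insert_of_mem hi)
    have h5 : ‖v a‖ ≤ 1 + γ := by
      have := norm_sub_norm_le (v a) (u a)
      rw [norm_sub_rev] at this; linarith
    calc _ = ‖(u a - v a) * ∏ i ∈ s, u i + v a * (∏ i ∈ s, u i - ∏ i ∈ s, v i)‖ := by
          congr 1; ring
      _ ≤ γ * 1 + (1 + γ) * ((1 + γ) ^ s.card - 1) := by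
          refine (norm_add_le _ _).trans ?_
          rw [norm_mul, norm_mul]
          gcongr
      _ = _ := by ring

lemma twist {W : Type*} [Fintype W] (r m : ℕ) (hr : 0 < r) (a : W → ℕ → ℂ)
    (ha : ∀ w y, ‖a w y‖ ≤ 1) (ν : W → ℤ) {γ : ℝ} (hγ : 0 < γ)
    (hc : 4 * Fintype.card W * Real.exp (-(γ ^ 2 * m / 8)) < 1) :
    ∃ g : ℕ → ℤ, ∀ w, ¬ (r : ℤ) ∣ ν w →
      ‖∑ y ∈ range m, a w y * ee (g y * (ν w / r))‖ ≤ γ * m := by
  classical
  have : Nonempty (Fin r) := ⟨⟨0, hr⟩⟩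
  let c : Fin 4 → ℂ := ![1, -1, Complex.I, -Complex.I]
  have hcn : ∀ i, ‖c i‖ = 1 := by intro i; fin_cases i <;> simp [c]
  let Z : W × Fin 4 → Fin m → Fin r → ℝ := fun w y s =>
    if (r : ℤ) ∣ ν w.1 then 0 else (c w.2 * (a w.1 y * ee ((s : ℕ) * (ν w.1 / r)))).re
  have hZ : ∀ w y s, |Z w y s| ≤ 1 := by
    intro w y s
    simp only [Z]
    split_ifs
    · simp
    · refine (Complex.abs_re_le_norm _).trans ?_
      rw [norm_mul, norm_mul, hcn, norm_ee]; simpa using ha _ _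
  have hZ0 : ∀ w y, Ex (Z w y) = 0 := by
    intro w y
    unfold Ex
    simp only [Z]
    split_ifs with h
    · simp
    · rw [← Complex.re_sum, ← mul_sum, ← mul_sum,
        Fin.sum_univ_eq_sum_range (fun s => ee ((s : ℕ) * (ν w.1 / r))), sum_ee r hr, if_neg h]
      simp
  set l := γ / 2 with hl
  have hE : ∀ w y, Ex (fun s => Real.exp (l * Z w y s)) ≤ Real.exp (l ^ 2 / 2) := by
    intro w y
    calc _ ≤ Ex (fun s => Real.sinh l * Z w y s + Real.cosh l * 1) := Ex_mono fun s => by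
          have h := abs_le.1 (hZ w y s)
          have := convexOn_exp.2 (Set.mem_univ l) (Set.mem_univ (-l))
            (show 0 ≤ (1 + Z w y s) / 2 by linarith) (show 0 ≤ (1 - Z w y s) / 2 by linarith)
            (by ring)
          simp only [smul_eq_mul] at this
          rw [show (1 + Z w y s) / 2 * l + (1 - Z w y s) / 2 * -l = l * Z w y s by ring] at this
          rw [Real.sinh_eq, Real.cosh_eq]; linarith
      _ ≤ _ := by
          rw [Ex_lin, hZ0, Ex_const]; simpa using Real.cosh_le_exp_half_sq l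
  obtain ⟨g, hg⟩ := exists_le_Ex fun g : Fin m → Fin r =>
    ∑ w, Real.exp (-(l * (γ * m / 2))) * ∏ y, Real.exp (l * Z w y (g y))
  have hb : Ex (fun g : Fin m → Fin r =>
      ∑ w, Real.exp (-(l * (γ * m / 2))) * ∏ y, Real.exp (l * Z w y (g y))) < 1 := by
    rw [Ex_sum]
    refine lt_of_le_of_lt (sum_le_sum (g := fun _ => Real.exp (-(γ ^ 2 * m / 8))) fun w _ => ?_) ?_
    · have h1 := Ex_lin (fun g : Fin m → Fin r => ∏ y, Real.exp (l * Z w y (g y))) (fun _ => 0)
        (Real.exp (-(l * (γ * m / 2)))) 0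
      simp only [mul_zero, add_zero, zero_mul] at h1
      rw [h1, Ex_prod univ (fun y => y) (fun _ _ _ _ h => h) (fun y s => Real.exp (l * Z w y s))]
      have h2 : ∏ y : Fin m, Ex (fun s => Real.exp (l * Z w y s)) ≤ ∏ y : Fin m, Real.exp (l ^ 2 / 2) :=
        prod_le_prod (fun y _ => by unfold Ex; positivity) fun y _ => hE w y
      refine (mul_le_mul_of_nonneg_left h2 (Real.exp_nonneg _)).trans (le_of_eq ?_)
      rw [prod_const, card_univ, Fintype.card_fin, ← Real.exp_nat_mul, ← Real.exp_add, hl]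
      congr 1; ring
    · simpa [mul_comm, mul_left_comm, mul_assoc] using hc
  refine ⟨fun y => if h : y < m then (g ⟨y, h⟩ : ℕ) else 0, fun w hw => ?_⟩
  set A := ∑ y ∈ range m, a w y * ee (((if h : y < m then ((g ⟨y, h⟩ : ℕ) : ℤ) else 0 : ℤ) : ℝ) *
    (ν w / r)) with hA
  have key : ∀ i, (c i * A).re ≤ γ * m / 2 := by
    intro i
    have h1 := (single_le_sum (f := fun w => Real.exp (-(l * (γ * m / 2))) *
      ∏ y, Real.exp (l * Z w y (g y))) (fun _ _ => by positivity) (mem_univ (w, i))).trans_lt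
      (hg.trans_lt hb)
    rw [← Real.exp_sum, ← Real.exp_add, Real.exp_lt_one_iff, ← mul_sum] at h1
    have h2 : ∑ y, Z (w, i) y (g y) = (c i * A).re := by
      simp only [Z, if_neg hw]
      rw [← Complex.re_sum, ← mul_sum, hA, ← Fin.sum_univ_eq_sum_range]
      congr 2
      refine sum_congr rfl fun y _ => ?_
      simp
    rw [h2] at h1
    have : 0 < l := by positivity
    nlinarith
  have k0 := key 0
  have k1 := key 1
  have k2 := key 2
  have k3 := key 3
  simp [c] at k0 k1 k2 k3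
  refine (Complex.norm_le_abs_re_add_abs_im A).trans ?_
  have : |A.re| ≤ γ * m / 2 := abs_le.2 ⟨by linarith, k0⟩
  have : |A.im| ≤ γ * m / 2 := abs_le.2 ⟨by linarith, k3⟩
  linarith

lemma digits {ι : Type*} (K n : ℕ) (hn : n ≠ 0) (A : Finset ι) (r : ι → ℕ) (hr : Function.Injective r)
    (hA : ∀ a ∈ A, IsPrimePow (r a) ∧ r a ≤ K ∧ ¬ r a ∣ n) (δ : ι → ℤ) (w : ℤ)
    (hδ : ∀ a ∈ A, δ a ≠ 0 → ¬ ((r a).minFac : ℤ) ∣ δ a)
    (h : ∑ a ∈ A, (n : ℚ) * δ a / r a = w) : ∀ a ∈ A, δ a = 0 := by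
  classical
  by_contra hc
  push Not at hc
  obtain ⟨a, ha, hmax⟩ := exists_max_image (A.filter fun a => δ a ≠ 0) r (by
    obtain ⟨a, h1, h2⟩ := hc; exact ⟨a, mem_filter.2 ⟨h1, h2⟩⟩)
  obtain ⟨ha, ha0⟩ := mem_filter.1 ha
  obtain ⟨hpp, hK, hnd⟩ := hA a ha
  obtain ⟨p, j, hp, hj, hpj⟩ := (isPrimePow_nat_iff _).1 hpp
  obtain ⟨i, n', hn', rfl⟩ := Nat.exists_eq_pow_mul_and_not_dvd hn p hp.ne_one
  obtain ⟨e, B, hB, hKB⟩ := Nat.exists_eq_pow_mul_and_not_dvd (Nat.factorial_ne_zero K) p hp.ne_one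
  have hij : i < j := by
    by_contra hh
    exact hnd (hpj ▸ (pow_dvd_pow p (by omega)).mul_right _)
  obtain ⟨k, rfl⟩ := Nat.exists_eq_add_of_lt hij
  have hp0 : (p : ℚ) ≠ 0 := by exact_mod_cast hp.ne_zero
  have hint : ∀ a' ∈ A.erase a, ∃ z : ℤ,
      ((p ^ i * n' : ℕ) : ℚ) * δ a' / r a' * (p ^ k * B) = z := by
    intro a' ha'
    obtain ⟨hne, ha'⟩ := mem_erase.1 ha'
    by_cases h0 : δ a' = 0
    · exact ⟨0, by simp [h0]⟩
    obtain ⟨hpp', hK', -⟩ := hA a' ha'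
    have hdv : r a' ∣ p ^ (i + k) * B := by
      obtain ⟨q, j', hq, hj', hqj⟩ := (isPrimePow_nat_iff _).1 hpp'
      by_cases hpq : q = p
      · subst hpq
        have h1 := hmax a' (mem_filter.2 ⟨ha', h0⟩)
        have h2 : r a' ≠ r a := fun e => hne (hr e)
        rw [← hqj, ← hpj] at h1 h2
        have h3 : j' < i + k + 1 := (Nat.pow_lt_pow_iff_right hq.one_lt).1 (lt_of_le_of_ne h1 h2)
        rw [← hqj]; exact (pow_dvd_pow q (by omega)).mul_right _
      · have h1 : r a' ∣ p ^ e * B := hKB ▸ Nat.dvd_factorial hpp'.pos hK'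
        have h2 : (r a').Coprime (p ^ e) := by
          rw [← hqj]; exact Nat.Coprime.pow _ _ ((Nat.coprime_primes hq hp).2 hpq)
        exact (h2.dvd_of_dvd_mul_left h1).mul_left _
    obtain ⟨c, hc⟩ := hdv
    refine ⟨n' * δ a' * c, ?_⟩
    have h1 : (r a' : ℚ) ≠ 0 := by exact_mod_cast hpp'.ne_zero
    have h2 : (p : ℚ) ^ (i + k) * B = r a' * c := by exact_mod_cast hc
    push_cast
    rw [div_mul_eq_mul_div, div_eq_iff h1]
    rw [pow_add] at h2
    linear_combination (n' * δ a' : ℚ) * h2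
  choose! z hz using hint
  rw [← add_sum_erase A _ ha] at h
  have h1 := congrArg (· * ((p : ℚ) ^ k * B)) h
  simp only [add_mul, sum_mul] at h1
  rw [sum_congr rfl hz, ← hpj] at h1
  have h2 : (n' * δ a * B : ℚ) = p * (w * (p ^ k * B) - ∑ a' ∈ A.erase a, (z a' : ℚ)) := by
    rw [← h1]; push_cast; field_simp; ring
  have h3 : (p : ℤ) ∣ n' * δ a * B :=
    ⟨w * (p ^ k * B) - ∑ a' ∈ A.erase a, z a', by exact_mod_cast h2⟩
  have hpz := Nat.prime_iff_prime_int.1 hp
  rcases hpz.dvd_or_dvd h3 with h4 | h4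
  · rcases hpz.dvd_or_dvd h4 with h5 | h5
    · exact hn' (by exact_mod_cast h5)
    · refine hδ a ha ha0 ?_
      rw [← hpj, hp.pow_minFac (by omega)]; exact h5
  · exact hB (by exact_mod_cast h4)

end Crest.Agent.R75.D
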