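import Crest.Agent.R75.JitA

set_option autoImplicit false

open Finset

namespace Crest.Agent.R75.D

open Crest.Agent.R75.G Crest.Agent.R75.Fin1

structure Level (K d r : ℕ) (η γ : ℝ) (m : ℕ) (π : ℕ → Fin d → ℤ) (g : ℕ → ℤ) : Prop where
  cop : m.Coprime K.factorial
  big : 1 ≤ γ * m
  size : |(m : ℝ) ^ 2 / (r.minFac : ℝ) ^ ((d : ℝ) + 3 + 2 * η) - 1| ≤ γ
  dig : ∀ y i, 0 ≤ π y i ∧ π y i < r.minFac
  inj : ∀ y < m, ∀ y' < m, π y = π y' → y = y'
  tw : ∀ (x : Fin d → ℤ) (n : ℕ), ¬ r ∣ n →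
    ‖∑ y ∈ range m, ee (n * ((∑ i, π y i * x i + g y : ℤ) / r))‖ ≤ γ * m

lemma level (K r : ℕ) (hr : 2 ≤ r) {η γ : ℝ} (hη : 0 < η) (hη1 : η ≤ 1) (hγ : 0 < γ) (hγ1 : γ ≤ 1) :
    ∀ᶠ d in Filter.atTop, ∃ m π g, Level K d r η γ m π g := by
  set p := r.minFac with hp
  have hp2 : 2 ≤ p := (Nat.minFac_prime (by omega)).two_le
  have hpr : (2:ℝ) ≤ p := by exact_mod_cast hp2
  set s : ℝ := (2:ℝ) ^ (1 / 2 : ℝ) with hs
  have hs1 : 1 < s := Real.one_lt_rpow one_lt_two (by norm_num)
  have hF : (1:ℝ) ≤ K.factorial := by exact_mod_cast K.factorial_pos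
  have hlr : 0 < Real.log (4 * r) := Real.log_pos (by
    have : (2:ℝ) ≤ r := by exact_mod_cast hr
    linarith)
  filter_upwards [Filter.eventually_ge_atTop 7,
    (tendsto_pow_atTop_atTop_of_one_lt hs1).eventually_ge_atTop (3 * K.factorial / γ),
    (tendsto_pow_const_div_const_pow_of_one_lt 1 hs1).eventually
      (gt_mem_nhds (show 0 < γ ^ 2 / 16 / (2 * Real.log (4 * r)) by positivity))] with d h7 hA1 hA2
  set A : ℝ := (p : ℝ) ^ (((d : ℝ) + 3 + 2 * η) / 2) with hA
  have hd7 : (7:ℝ) ≤ d := by exact_mod_cast h7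
  have hsA : s ^ d ≤ A := by
    rw [hs, ← Real.rpow_natCast, ← Real.rpow_mul zero_le_two]
    exact (Real.rpow_le_rpow zero_le_two hpr (by positivity)).trans
      (Real.rpow_le_rpow_of_exponent_le (by linarith) (by linarith))
  have hA3 : 3 * K.factorial ≤ γ * A := by
    have := hA1.trans hsA
    rwa [div_le_iff₀' hγ] at this
  have hA0 : 0 < A := by positivity
  have hAp : A ≤ (p : ℝ) ^ (d - 1) := by
    rw [← Real.rpow_natCast, Nat.cast_sub (by omega)]
    exact Real.rpow_le_rpow_of_exponent_le (by linarith) (by push_cast; linarith)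
  set m := K.factorial * ⌊A / K.factorial⌋₊ + 1 with hm
  have hm1 : (m : ℝ) ≤ A + 1 := by
    have := Nat.floor_le (show 0 ≤ A / K.factorial by positivity)
    rw [le_div_iff₀' (by positivity)] at this
    rw [hm]; push_cast; linarith
  have hm2 : A - K.factorial ≤ m := by
    have := Nat.lt_floor_add_one (A / K.factorial)
    rw [div_lt_iff₀' (by positivity)] at this
    rw [hm]; push_cast; linarith
  have hγA : γ * A ≤ A := mul_le_of_le_one_left hA0.le hγ1
  have hmp : m ≤ p ^ d := by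
    have h1 : (1:ℝ) ≤ (p : ℝ) ^ (d - 1) := one_le_pow₀ (by linarith)
    have h2 : (p : ℝ) ^ d = (p : ℝ) ^ (d - 1) * p := by rw [← pow_succ]; congr 1; omega
    have : (m : ℝ) ≤ (p : ℝ) ^ d := by nlinarith
    exact_mod_cast this
  let π : ℕ → Fin d → ℤ := fun y i =>
    if h : y < p ^ d then ((finFunctionFinEquiv.symm ⟨y, h⟩ i : ℕ) : ℤ) else 0
  obtain ⟨g, hg⟩ := twist (W := (Fin d → Fin r) × Fin r) r m (by omega)
    (fun w y => ee ((w.2 : ℕ) * ((∑ i, π y i * (w.1 i : ℕ) : ℤ) / r))) (fun _ _ => (norm_ee _).le)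
    (fun w => (w.2 : ℕ)) hγ (by
      simp only [Fintype.card_prod, Fintype.card_pi, Fintype.card_fin, prod_const, card_univ]
      push_cast
      rw [Real.exp_neg, ← div_eq_mul_inv, div_lt_one (Real.exp_pos _)]
      have hr0 : (0:ℝ) < r := by positivity
      calc 4 * ((r : ℝ) ^ d * r) ≤ (4 * r) ^ (2 * d) := by
            rw [mul_pow, ← pow_succ]
            refine mul_le_mul (le_self_pow₀ (by norm_num) (by omega))
              (pow_le_pow_right₀ (by exact_mod_cast (by omega : 1 ≤ r)) (by omega))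
              (by positivity) (by positivity)
        _ = Real.exp ((2 * d : ℕ) * Real.log (4 * r)) := by
            rw [Real.exp_nat_mul, Real.exp_log (by positivity)]
        _ < _ := by
            rw [Real.exp_lt_exp]
            rw [pow_one, div_lt_div_iff₀ (by positivity) (by positivity)] at hA2
            push_cast
            have : γ ^ 2 / 16 * s ^ d ≤ γ ^ 2 / 16 * (2 * m) :=
              mul_le_mul_of_nonneg_left (by linarith) (by positivity)
            linarith)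
  refine ⟨m, π, g, ⟨?_, by nlinarith, ?_, ?_, ?_, ?_⟩⟩
  · rw [hm, add_comm, mul_comm]; simp
  · rw [← hp, show (p : ℝ) ^ ((d : ℝ) + 3 + 2 * η) = A ^ 2 by
      rw [hA, ← Real.rpow_natCast, ← Real.rpow_mul (by positivity)]; congr 1; push_cast; ring,
      ← div_pow]
    have h1 : (m : ℝ) / A ≤ 1 + γ / 3 := by rw [div_le_iff₀ hA0]; linarith
    have h2 : 1 - γ / 3 ≤ (m : ℝ) / A := by rw [le_div_iff₀ hA0]; linarith
    rw [abs_le]; constructor <;> nlinarith
  · intro y i
    simp only [π]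
    split_ifs with h
    · exact ⟨Int.natCast_nonneg _, by exact_mod_cast (finFunctionFinEquiv.symm ⟨y, h⟩ i).2⟩
    · exact ⟨le_rfl, by exact_mod_cast (by omega : 0 < p)⟩
  · intro y hy y' hy' e
    have h1 : y < p ^ d := by omega
    have h2 : y' < p ^ d := by omega
    have : finFunctionFinEquiv.symm ⟨y, h1⟩ = finFunctionFinEquiv.symm ⟨y', h2⟩ := by
      funext i
      have := congrFun e i
      simp only [π, dif_pos h1, dif_pos h2] at this
      exact Fin.ext (by exact_mod_cast this)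
    simpa using finFunctionFinEquiv.symm.injective this
  · intro x n hn
    have hrz : (0:ℤ) < r := by exact_mod_cast (by omega : 0 < r)
    have hr0 : (r:ℝ) ≠ 0 := by positivity
    have hx : ∀ i, (x i % r).toNat < r := fun i => by
      have := Int.emod_nonneg (x i) hrz.ne'
      have := Int.emod_lt_of_pos (x i) hrz
      omega
    have := hg (fun i => ⟨_, hx i⟩, ⟨n % r, Nat.mod_lt _ (by omega)⟩) (by
      simp only
      rw [Int.natCast_dvd_natCast, Nat.dvd_mod_iff dvd_rfl]; exact hn)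
    convert this using 3 with y hy
    rw [← ee_add]
    refine ee_congr ((n / r : ℕ) * (∑ i, π y i * x i + g y) +
      (n % r : ℕ) * ∑ i, π y i * (x i / r)) ?_
    have e1 : ∀ i, (((x i % r).toNat : ℕ) : ℤ) = x i - r * (x i / r) := fun i => by
      rw [Int.toNat_of_nonneg (Int.emod_nonneg _ hrz.ne'), Int.emod_def]
    simp only [e1]
    have e2 : ∑ i, π y i * (x i - r * (x i / r)) =
        ∑ i, π y i * x i - r * ∑ i, π y i * (x i / r) := by
      rw [mul_sum, ← sum_sub_distrib]; exact sum_congr rfl fun i _ => by ring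
    rw [e2]
    have e3 : (n : ℝ) = r * (n / r : ℕ) + (n % r : ℕ) := by exact_mod_cast (Nat.div_add_mod n r).symm
    generalize ∑ i, π y i * x i = U
    generalize ∑ i, π y i * (x i / r) = V
    generalize n % r = a at e3 ⊢
    generalize n / r = b at e3 ⊢
    rw [e3]; push_cast; field_simp; ring

/-- One level: dropping the trivial character. -/
lemma Level.expand {K d r : ℕ} {η γ : ℝ} {m : ℕ} {π : ℕ → Fin d → ℤ} {g : ℕ → ℤ}
    (h : Level K d r η γ m π g) (k : Fin d → ℤ) (c : ℤ) (n : ℕ) (hn : ¬ r ∣ n) :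
    ‖ee (n * ((∑ i, π (c % m).toNat i * k i + g (c % m).toNat : ℤ) / r)) -
      ∑ a ∈ range m ×ˢ Ico 1 m, (m : ℂ)⁻¹ * ee (a.2 * ((c - a.1 : ℤ) / m)) *
        ee (n * ((∑ i, π a.1 i * k i + g a.1 : ℤ) / r))‖ ≤ γ := by
  have hm : 0 < m := by
    rcases Nat.eq_zero_or_pos m with h0 | h0
    · have := h.big; rw [h0] at this; norm_num at this
    · exact h0
  have hmz : (0:ℤ) < m := by exact_mod_cast hm
  have hmr : (0:ℝ) < m := by exact_mod_cast hm
  set u : ℕ → ℂ := fun y => ee (n * ((∑ i, π y i * k i + g y : ℤ) / r)) with hu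
  have h1 := Int.emod_nonneg c hmz.ne'
  have h2 := Int.emod_lt_of_pos c hmz
  have e1 : ∑ a ∈ range m ×ˢ range m, (m : ℂ)⁻¹ * ee (a.2 * ((c - a.1 : ℤ) / m)) * u a.1 =
      u (c % m).toNat := by
    rw [sum_product, sum_eq_single (c % m).toNat]
    · simp only [← sum_mul, ← mul_sum]
      rw [sum_ee m hm, if_pos, inv_mul_cancel₀ (by exact_mod_cast hm.ne'), one_mul]
      rw [Int.toNat_of_nonneg h1]; exact Int.dvd_self_sub_emod
    · intro y hy hne
      simp only [← sum_mul, ← mul_sum]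
      rw [sum_ee m hm, if_neg, mul_zero, zero_mul]
      intro hd
      apply hne
      have : c % m = (y:ℤ) % m :=
        Int.emod_eq_emod_iff_emod_sub_eq_zero.2 (Int.emod_eq_zero_of_dvd hd)
      have h3 : (y : ℤ) % m = y := Int.emod_eq_of_lt (by omega) (by have := mem_range.1 hy; omega)
      omega
    · intro hh; exact absurd (mem_range.2 (by omega)) hh
  have e2 : ∑ a ∈ range m ×ˢ range m, (m : ℂ)⁻¹ * ee (a.2 * ((c - a.1 : ℤ) / m)) * u a.1 =
      (m : ℂ)⁻¹ * ∑ y ∈ range m, u y +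
      ∑ a ∈ range m ×ˢ Ico 1 m, (m : ℂ)⁻¹ * ee (a.2 * ((c - a.1 : ℤ) / m)) * u a.1 := by
    rw [sum_product, sum_product, mul_sum, ← sum_add_distrib]
    refine sum_congr rfl fun y _ => ?_
    rw [range_eq_Ico, sum_eq_sum_Ico_succ_bot hm]
    simp [ee_zero]
  change ‖u (c % m).toNat - ∑ a ∈ range m ×ˢ Ico 1 m,
    (m : ℂ)⁻¹ * ee (a.2 * ((c - a.1 : ℤ) / m)) * u a.1‖ ≤ γ
  rw [← e1, e2, add_sub_cancel_right, norm_mul, norm_inv, Complex.norm_natCast,
    inv_mul_le_iff₀ hmr, mul_comm]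
  exact h.tw k n hn

end Crest.Agent.R75.D
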