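import Crest.Agent.R75.JitB

set_option autoImplicit false

open Finset

namespace Crest.Agent.R75.D

open Crest.Agent.R75.G Crest.Agent.R75.Fin1

lemma fiber_sum {β M : Type} [AddCommMonoid M] (N : Finset ℕ) (Φ : ℕ → Finset β)
    (F : (Σ _ : ℕ, β) → M) (n : ℕ) (hn : n ∈ N) :
    ∑ j ∈ univ.filter (fun j : ↥(N.sigma Φ) => j.1.1 = n), F j = ∑ a ∈ Φ n, F ⟨n, a⟩ := by
  rw [sum_filter, sum_coe_sort (N.sigma Φ) (fun x => if x.1 = n then F x else 0), sum_sigma,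
    sum_eq_single n]
  · simp
  · intro b _ hb; simp [hb]
  · intro h; exact absurd hn h

lemma pow_small (K : ℕ) {γ : ℝ} (hγ : 0 < γ) :
    ∃ γ' : ℝ, 0 < γ' ∧ γ' ≤ 1 ∧ ∀ k ≤ K + 1, (1 + γ') ^ k - 1 ≤ γ := by
  have h0 : 0 < min γ 1 := lt_min hγ one_pos
  have h1 : min γ 1 ≤ 1 := min_le_right _ _
  have h2 : min γ 1 ≤ γ := min_le_left _ _
  have hK : (1:ℝ) ≤ (K + 1 : ℕ) := by exact_mod_cast Nat.succ_pos K
  refine ⟨min γ 1 / (2 * (K + 1 : ℕ)), by positivity, ?_, fun k hk => ?_⟩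
  · rw [div_le_one (by positivity)]; linarith
  · have hp : 0 < min γ 1 / (2 * (K + 1 : ℕ)) := by positivity
    have e1 : (1 + min γ 1 / (2 * (K + 1 : ℕ))) ^ k ≤ Real.exp (min γ 1 / 2) := by
      calc _ ≤ (1 + min γ 1 / (2 * (K + 1 : ℕ))) ^ (K + 1) := pow_le_pow_right₀ (by linarith) hk
        _ ≤ Real.exp (min γ 1 / (2 * (K + 1 : ℕ))) ^ (K + 1) :=
          pow_le_pow_left₀ (by linarith) (by rw [add_comm]; exact Real.add_one_le_exp _) _
        _ = _ := by rw [← Real.exp_nat_mul]; congr 1; field_simp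
    have e2 := Real.abs_exp_sub_one_le (x := min γ 1 / 2) (by rw [abs_of_pos (by positivity)]; linarith)
    rw [abs_of_pos (show 0 < min γ 1 / 2 by positivity)] at e2
    have := (abs_le.1 e2).2
    linarith

lemma prod_minFac (K n : ℕ) (hn : Odd n) (hK : n ≤ K) :
    ∏ r ∈ univ.filter (fun r : Fin (K + 1) => (IsPrimePow (r : ℕ) ∧ Odd (r : ℕ)) ∧ (r : ℕ) ∣ n),
      ((r : ℕ).minFac : ℝ) = n := by
  have hn0 : n ≠ 0 := by rintro rfl; simp at hn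
  have h1 := ArithmeticFunction.vonMangoldt_sum (n := n)
  rw [← Real.exp_log (show (0:ℝ) < n by positivity), ← h1, Real.exp_sum, prod_filter,
    Fin.prod_univ_eq_prod_range (fun r : ℕ => if (IsPrimePow r ∧ Odd r) ∧ r ∣ n then (r.minFac : ℝ)
      else 1)]
  symm
  refine prod_subset_one_on_sdiff (fun r hr => ?_) (fun r hr => ?_) fun r hr => ?_
  · have := Nat.divisor_le hr; exact mem_range.2 (by omega)
  · rw [if_neg]
    intro h; exact (mem_sdiff.1 hr).2 (Nat.mem_divisors.2 ⟨h.2, hn0⟩)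
  · have hd := Nat.dvd_of_mem_divisors hr
    rw [ArithmeticFunction.vonMangoldt_apply]
    by_cases h : IsPrimePow r
    · rw [if_pos h, if_pos ⟨⟨h, hn.of_dvd_nat hd⟩, hd⟩,
        Real.exp_log (by exact_mod_cast r.minFac_pos)]
    · rw [if_neg h, if_neg (fun hh => h hh.1.1), Real.exp_zero]

lemma exists_pp {n n' : ℕ} (h : ¬ n ∣ n') : ∃ r, IsPrimePow r ∧ r ∣ n ∧ ¬ r ∣ n' := by
  by_contra hc
  push Not at hc
  refine h ((Nat.dvd_iff_prime_pow_dvd_dvd n' n).2 fun p k hp hk => ?_)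
  rcases Nat.eq_zero_or_pos k with rfl | hk0
  · simp
  · exact hc _ ((isPrimePow_nat_iff _).2 ⟨p, k, hp, hk0, rfl⟩) hk

section
variable {K d : ℕ} (hd : K + 1 ≤ d) (m : Fin (K + 1) → ℕ) (π : Fin (K + 1) → ℕ → Fin d → ℤ)

/-- active levels -/
def act (K n : ℕ) : Finset (Fin (K + 1)) :=
  univ.filter fun r => (IsPrimePow (r : ℕ) ∧ Odd (r : ℕ)) ∧ ¬ (r : ℕ) ∣ n

def z1 (n : ℕ) (a : Fin (K + 1) → ℕ × ℕ) (i : Fin d) : ℚ :=
  ∑ r ∈ act K n, (n : ℚ) * (π r (a r).1 i : ℤ) / (r : ℕ)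

def z2 (n : ℕ) (a : Fin (K + 1) → ℕ × ℕ) (i : Fin d) : ℚ :=
  ∑ r ∈ act K n, if i = Fin.castLE hd r then ((a r).2 : ℚ) / m r else 0

lemma z2_co (n : ℕ) (a : Fin (K + 1) → ℕ × ℕ) (r : Fin (K + 1)) :
    z2 hd m n a (Fin.castLE hd r) = if r ∈ act K n then ((a r).2 : ℚ) / m r else 0 := by
  unfold z2
  simp only [Fin.castLE_inj]
  rw [sum_ite_eq]

lemma z1_int (n : ℕ) (a : Fin (K + 1) → ℕ × ℕ) (i : Fin d) :
    ∃ z : ℤ, (K.factorial : ℚ) * z1 π n a i = z := by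
  refine ⟨∑ r ∈ act K n, n * π r (a r).1 i * (K.factorial / (r : ℕ) : ℕ), ?_⟩
  unfold z1
  rw [mul_sum, Int.cast_sum]
  refine sum_congr rfl fun r hr => ?_
  have h1 := (mem_filter.1 hr).2.1.1.pos
  have h2 : (r : ℕ) ∣ K.factorial := Nat.dvd_factorial h1 (by omega)
  have h3 : ((r : ℕ) : ℚ) ≠ 0 := by positivity
  rw [Int.cast_mul, Int.cast_natCast, Nat.cast_div h2 h3]
  push_cast; ring

lemma z_dot (n : ℕ) (a : Fin (K + 1) → ℕ × ℕ) (k : Fin d → ℤ) :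
    ∑ i, ((z1 π n a i + z2 hd m n a i : ℚ) : ℝ) * k i =
      ∑ r ∈ act K n, ((a r).2 * ((k (Fin.castLE hd r) : ℝ) / m r) +
        n * ((∑ i, π r (a r).1 i * k i : ℤ) / (r : ℕ))) := by
  unfold z1 z2
  push_cast
  simp only [← sum_add_distrib, sum_mul]
  rw [sum_comm]
  refine sum_congr rfl fun r _ => ?_
  simp only [add_mul, sum_add_distrib, apply_ite (fun q : ℚ => (q : ℝ)), ite_mul,
    Rat.cast_zero, zero_mul]
  rw [sum_ite_eq', if_pos (mem_univ _), add_comm, sum_div, mul_sum]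
  push_cast
  congr 1
  · ring
  · exact sum_congr rfl fun i _ => by ring

end

end Crest.Agent.R75.D
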