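import Crest.Agent.R75.JitC

set_option autoImplicit false

open Finset

namespace Crest.Agent.R75.D

open Crest.Agent.R75.G Crest.Agent.R75.Fin1

variable {K d : ℕ} (hd : K + 1 ≤ d) (m : Fin (K + 1) → ℕ) (π : Fin (K + 1) → ℕ → Fin d → ℤ)
  (g : Fin (K + 1) → ℕ → ℤ) {η γ : ℝ}

def SS (n : ℕ) (r : Fin (K + 1)) : Finset (ℕ × ℕ) :=
  if r ∈ act K n then range (m r) ×ˢ Ico 1 (m r) else {(0, 0)}

lemma mem_SS {n : ℕ} {a : Fin (K + 1) → ℕ × ℕ} (ha : a ∈ Fintype.piFinset (SS m n))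
    {r : Fin (K + 1)} (hr : r ∈ act K n) : (a r).1 < m r ∧ 1 ≤ (a r).2 ∧ (a r).2 < m r := by
  have := Fintype.mem_piFinset.1 ha r
  simp only [SS, if_pos hr, mem_product, mem_range, mem_Ico] at this
  exact ⟨this.1, this.2.1, this.2.2⟩

lemma inj_same (hL : ∀ r : Fin (K + 1), IsPrimePow (r : ℕ) ∧ Odd (r : ℕ) →
      Level K d r η γ (m r) (π r) (g r)) {n : ℕ} (hn : n ≠ 0) {a a' : Fin (K + 1) → ℕ × ℕ}
    (ha : a ∈ Fintype.piFinset (SS m n)) (ha' : a' ∈ Fintype.piFinset (SS m n))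
    (h : ∀ i, ∃ w : ℤ, (z1 π n a i + z2 hd m n a i) - (z1 π n a' i + z2 hd m n a' i) = w) :
    a = a' := by
  have h2 : ∀ r ∈ act K n, (a r).2 = (a' r).2 := by
    intro r hr
    have hl := hL r (mem_filter.1 hr).2.1
    obtain ⟨w, hw⟩ := h (Fin.castLE hd r)
    obtain ⟨z, hz⟩ := z1_int π n a (Fin.castLE hd r)
    obtain ⟨z', hz'⟩ := z1_int π n a' (Fin.castLE hd r)
    rw [z2_co, z2_co, if_pos hr, if_pos hr] at hw
    obtain ⟨-, b1, b2⟩ := mem_SS m ha hr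
    obtain ⟨-, b3, b4⟩ := mem_SS m ha' hr
    have hm : (m r : ℚ) ≠ 0 := by exact_mod_cast (by omega : m r ≠ 0)
    have e : (K.factorial : ℚ) * ((a r).2 - (a' r).2) = m r * (K.factorial * w - z + z') := by
      rw [← hw, ← hz, ← hz']; field_simp; ring
    have e' : (m r : ℤ) ∣ K.factorial * (((a r).2 : ℤ) - (a' r).2) :=
      ⟨K.factorial * w - z + z', by exact_mod_cast e⟩
    have e'' := (Nat.isCoprime_iff_coprime.2 hl.cop).dvd_of_dvd_mul_left e'
    have := Int.eq_zero_of_abs_lt_dvd e'' (by rw [abs_lt]; omega)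
    omega
  have h3 : ∀ i, z2 hd m n a i = z2 hd m n a' i := fun i =>
    sum_congr rfl fun r hr => by rw [h2 r hr]
  have h1 : ∀ i, ∀ r ∈ act K n, π r (a r).1 i - π r (a' r).1 i = 0 := by
    intro i
    obtain ⟨w, hw⟩ := h i
    refine digits K n hn (act K n) (fun r => (r : ℕ)) Fin.val_injective (fun r hr => ?_)
      (fun r => π r (a r).1 i - π r (a' r).1 i) w (fun r hr h0 hdv => ?_) ?_
    · have := (mem_filter.1 hr).2
      exact ⟨this.1.1, by omega, this.2⟩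
    · have hl := hL r (mem_filter.1 hr).2.1
      have b1 := hl.dig (a r).1 i
      have b2 := hl.dig (a' r).1 i
      exact h0 (Int.eq_zero_of_abs_lt_dvd hdv (by rw [abs_lt]; omega))
    · rw [← hw, h3, add_sub_add_right_eq_sub, z1, z1, ← sum_sub_distrib]
      refine sum_congr rfl fun r _ => ?_
      push_cast; ring
  funext r
  by_cases hr : r ∈ act K n
  · refine Prod.ext ((hL r (mem_filter.1 hr).2.1).inj _ (mem_SS m ha hr).1 _ (mem_SS m ha' hr).1 ?_)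
      (h2 r hr)
    funext i; exact sub_eq_zero.1 (h1 i r hr)
  · have b1 := Fintype.mem_piFinset.1 ha r
    have b2 := Fintype.mem_piFinset.1 ha' r
    simp only [SS, if_neg hr, mem_singleton] at b1 b2
    rw [b1, b2]

lemma inj_diff (hL : ∀ r : Fin (K + 1), IsPrimePow (r : ℕ) ∧ Odd (r : ℕ) →
      Level K d r η γ (m r) (π r) (g r)) {n n' : ℕ} (hn : Odd n) (hnK : n ≤ K)
    (hnn : ¬ n ∣ n') (a : Fin (K + 1) → ℕ × ℕ) {a' : Fin (K + 1) → ℕ × ℕ}
    (ha' : a' ∈ Fintype.piFinset (SS m n')) :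
    ∃ i, ∀ w : ℤ, n * (z1 π n' a' i + z2 hd m n' a' i) - n' * (z1 π n a i + z2 hd m n a i) ≠ w := by
  have hn0 : n ≠ 0 := by rintro rfl; simp at hn
  obtain ⟨r₀, h1, h2, h3⟩ := exists_pp hnn
  have := Nat.le_of_dvd (by omega) h2
  let r : Fin (K + 1) := ⟨r₀, by omega⟩
  have hlev : IsPrimePow (r : ℕ) ∧ Odd (r : ℕ) := ⟨h1, hn.of_dvd_nat h2⟩
  have hr' : r ∈ act K n' := mem_filter.2 ⟨mem_univ _, hlev, h3⟩
  have hr : r ∉ act K n := fun h => (mem_filter.1 h).2.2 h2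
  have hl := hL r hlev
  refine ⟨Fin.castLE hd r, fun w hw => ?_⟩
  obtain ⟨z, hz⟩ := z1_int π n a (Fin.castLE hd r)
  obtain ⟨z', hz'⟩ := z1_int π n' a' (Fin.castLE hd r)
  rw [z2_co, z2_co, if_pos hr', if_neg hr] at hw
  obtain ⟨-, b3, b4⟩ := mem_SS m ha' hr'
  have hm : (m r : ℚ) ≠ 0 := by exact_mod_cast (by omega : m r ≠ 0)
  have e : (K.factorial : ℚ) * (n * (a' r).2) = m r * (K.factorial * w + n' * z - n * z') := by
    rw [← hw, ← hz, ← hz']; field_simp; ring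
  have e' : (m r : ℤ) ∣ K.factorial * ((n : ℤ) * (a' r).2) :=
    ⟨K.factorial * w + n' * z - n * z', by exact_mod_cast e⟩
  have c1 := Nat.isCoprime_iff_coprime.2 hl.cop
  have c2 := Nat.isCoprime_iff_coprime.2
    (hl.cop.coprime_dvd_right (Nat.dvd_factorial (by omega) hnK))
  have e'' := c2.dvd_of_dvd_mul_left (c1.dvd_of_dvd_mul_left e')
  have := Int.eq_zero_of_abs_lt_dvd e'' (by rw [abs_lt]; omega)
  omega

noncomputable def cf (n : ℕ) (a : Fin (K + 1) → ℕ × ℕ) : ℂ :=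
  ∏ r ∈ act K n, ((m r : ℂ)⁻¹ * ee (-((a r).2 * (((a r).1 : ℝ) / m r)) +
    n * ((g r (a r).1 : ℝ) / (r : ℕ))))

lemma norm_cf (n : ℕ) (a : Fin (K + 1) → ℕ × ℕ) :
    ‖cf m g n a‖ ^ 2 = ∏ r ∈ act K n, ((m r : ℝ) ^ 2)⁻¹ := by
  rw [cf, norm_prod, ← prod_pow]
  refine prod_congr rfl fun r _ => ?_
  rw [norm_mul, norm_ee, mul_one, norm_inv, Complex.norm_natCast, inv_pow]

noncomputable def Th (k : Fin d → ℤ) : ℝ :=
  ∑ r ∈ univ.filter (fun r : Fin (K + 1) => IsPrimePow (r : ℕ) ∧ Odd (r : ℕ)),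
    ((∑ i, π r (k (Fin.castLE hd r) % m r).toNat i * k i +
      g r (k (Fin.castLE hd r) % m r).toNat : ℤ) : ℝ) / (r : ℕ)

lemma approx (hγ : 0 ≤ γ) (hL : ∀ r : Fin (K + 1), IsPrimePow (r : ℕ) ∧ Odd (r : ℕ) →
      Level K d r η γ (m r) (π r) (g r)) (n : ℕ) (k : Fin d → ℤ) :
    ‖ee (n * Th hd m π g k) - ∑ a ∈ Fintype.piFinset (SS m n), cf m g n a *
      ee (∑ i, ((z1 π n a i + z2 hd m n a i : ℚ) : ℝ) * k i)‖ ≤ (1 + γ) ^ (K + 1) - 1 := by
  let u : Fin (K + 1) → ℂ := fun r => if r ∈ act K n then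
    ee (n * ((∑ i, π r (k (Fin.castLE hd r) % m r).toNat i * k i +
      g r (k (Fin.castLE hd r) % m r).toNat : ℤ) / (r : ℕ))) else 1
  let F : Fin (K + 1) → ℕ × ℕ → ℂ := fun r a => if r ∈ act K n then
    (m r : ℂ)⁻¹ * ee (a.2 * ((k (Fin.castLE hd r) - a.1 : ℤ) / m r)) *
        ee (n * ((∑ i, π r a.1 i * k i + g r a.1 : ℤ) / (r : ℕ))) else 1
  have e1 : ee (n * Th hd m π g k) = ∏ r, u r := by
    rw [Th, mul_sum, ee_sum, prod_filter]
    refine prod_congr rfl fun r _ => ?_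
    simp only [u, act, mem_filter, mem_univ, true_and]
    by_cases h1 : IsPrimePow (r : ℕ) ∧ Odd (r : ℕ)
    · by_cases h2 : (r : ℕ) ∣ n
      · rw [if_pos h1, if_neg (fun h => h.2 h2)]
        obtain ⟨c, hc⟩ := h2
        generalize (∑ i, π r (k (Fin.castLE hd r) % m r).toNat i * k i +
          g r (k (Fin.castLE hd r) % m r).toNat : ℤ) = U
        have h3 : ((r : ℕ) : ℝ) ≠ 0 := by have := h1.1.pos; positivity
        rw [← ee_int (c * U)]; congr 1
        rw [hc]; push_cast; field_simp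
      · rw [if_pos h1, if_pos ⟨h1, h2⟩]
    · rw [if_neg h1, if_neg (fun h => h1 h.1)]
  have e2 : ∑ a ∈ Fintype.piFinset (SS m n), cf m g n a *
      ee (∑ i, ((z1 π n a i + z2 hd m n a i : ℚ) : ℝ) * k i) = ∏ r, ∑ a ∈ SS m n r, F r a := by
    rw [prod_univ_sum]
    refine sum_congr rfl fun a _ => ?_
    rw [z_dot, ee_sum, cf, ← prod_mul_distrib]
    simp only [F]
    rw [prod_ite_mem, univ_inter]
    refine prod_congr rfl fun r _ => ?_
    rw [mul_assoc, mul_assoc, ← ee_add, ← ee_add]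
    congr 2; push_cast; ring
  rw [e1, e2]
  have := prod_close univ u (fun r => ∑ a ∈ SS m n r, F r a) hγ (fun r _ => by
    simp only [u]; split_ifs <;> simp [norm_ee]) (fun r _ => by
    simp only [u, F, SS]
    split_ifs with h
    · exact (hL r (mem_filter.1 h).2.1).expand k _ n (mem_filter.1 h).2.2
    · simpa using hγ)
  simpa using this

lemma mass (hγ : 0 ≤ γ) (hL : ∀ r : Fin (K + 1), IsPrimePow (r : ℕ) ∧ Odd (r : ℕ) →
      Level K d r η γ (m r) (π r) (g r)) (n : ℕ) :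
    1 - ((1 + γ) ^ (K + 1) - 1) ≤ ∑ a ∈ Fintype.piFinset (SS m n), ‖cf m g n a‖ ^ 2 := by
  simp only [norm_cf]
  rw [sum_const, Fintype.card_piFinset, nsmul_eq_mul, ← univ_inter (act K n), ← prod_ite_mem,
    Nat.cast_prod, ← prod_mul_distrib]
  have := prod_close univ (fun _ => (1:ℝ)) (fun r : Fin (K + 1) => ((SS m n r).card : ℝ) *
    if r ∈ act K n then ((m r : ℝ) ^ 2)⁻¹ else 1) hγ (fun r _ => by simp) (fun r _ => by
    simp only [SS]
    split_ifs with h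
    · have hb := (hL r (mem_filter.1 h).2.1).big
      have hm : 0 < m r := by
        rcases Nat.eq_zero_or_pos (m r) with h0 | h0
        · rw [h0] at hb; norm_num at hb
        · exact h0
      have hmr : (0:ℝ) < m r := by exact_mod_cast hm
      rw [card_product, card_range, Nat.card_Ico, Nat.cast_mul, Nat.cast_sub hm,
        show (1:ℝ) - m r * (m r - (1 : ℕ)) * ((m r : ℝ) ^ 2)⁻¹ = 1 / m r by
          field_simp; push_cast; ring,
        Real.norm_of_nonneg (by positivity), div_le_iff₀ hmr]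
      exact hb
    · simpa using hγ)
  rw [prod_const_one, card_univ, Fintype.card_fin, Real.norm_eq_abs] at this
  linarith [(abs_le.1 this).2]

end Crest.Agent.R75.D
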