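import Crest.Agent.R75.Macro2

/-! The macro lemma. -/

set_option autoImplicit false
open Finset ComplexConjugate MeasureTheory

namespace Crest.Agent.R75.B

lemma mem_uIoo_iff {a c y : ℝ} (hc : c ≠ 0) :
    (y - a) / c ∈ Set.Ioo (0 : ℝ) 1 ↔ y ∈ Set.uIoo a (a + c) := by
  rcases lt_or_gt_of_ne hc with h | h
  · rw [Set.uIoo_of_ge (by linarith), Set.mem_Ioo, Set.mem_Ioo, div_lt_one_of_neg h,
      lt_div_iff_of_neg h]
    constructor <;> rintro ⟨h1, h2⟩ <;> constructor <;> linarith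
  · rw [Set.uIoo_of_le (by linarith), Set.mem_Ioo, Set.mem_Ioo, div_lt_one h, lt_div_iff₀ h]
    constructor <;> rintro ⟨h1, h2⟩ <;> constructor <;> linarith

lemma integral_uIoo (F : ℝ → ℂ) (a : ℝ) {c : ℝ} (hc : c ≠ 0) :
    ∫ x in Set.uIoo a (a + c), F x = (|c| : ℝ) * ∫ x in (0 : ℝ)..1, F (a + c * x) := by
  have := intervalIntegral.integral_comp_add_mul (a := 0) (b := 1) F hc a
  rw [mul_zero, add_zero, mul_one, eq_inv_smul_iff₀ hc, Complex.real_smul] at this
  rcases lt_or_gt_of_ne hc with h | h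
  · rw [Set.uIoo_of_ge (by linarith), ← integral_Ioc_eq_integral_Ioo,
      ← intervalIntegral.integral_of_le (by linarith), intervalIntegral.integral_symm, ← this,
      abs_of_neg h]
    push_cast; ring
  · rw [Set.uIoo_of_le (by linarith), ← integral_Ioc_eq_integral_Ioo,
      ← intervalIntegral.integral_of_le (by linarith), ← this, abs_of_pos h]

lemma tiling {L : Type} [Fintype L] (θ c : L → ℝ) (hc : ∀ l, c l ≠ 0)
    (h1 : ∀ l, Set.uIcc (θ l) (θ l + c l) ⊆ Set.Icc 0 (1 / 2))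
    (h2 : ∀ l l', l ≠ l' → Disjoint (Set.uIoo (θ l) (θ l + c l)) (Set.uIoo (θ l') (θ l' + c l')))
    (h3 : ∀ x ∈ Set.Icc (0 : ℝ) (1 / 2), ∃ l, x ∈ Set.uIcc (θ l) (θ l + c l))
    (F : ℝ → ℂ) (hF : Continuous F) :
    ∫ x in (0 : ℝ)..(1 / 2), F x = ∑ l, (|c l| : ℝ) * ∫ x in (0 : ℝ)..1, F (θ l + c l * x) := by
  have hae : Set.Ioc (0 : ℝ) (1 / 2) =ᵐ[volume] ⋃ l, Set.uIoo (θ l) (θ l + c l) := by
    have hfin : ({0} ∪ (Set.range θ ∪ Set.range fun l => θ l + c l) : Set ℝ).Finite :=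
      (Set.finite_singleton _).union ((Set.finite_range _).union (Set.finite_range _))
    filter_upwards [hfin.countable.ae_notMem volume] with x hx
    simp only [Set.mem_union, Set.mem_singleton_iff, Set.mem_range, not_or, not_exists] at hx
    apply propext
    constructor
    · intro h
      obtain ⟨l, hl⟩ := h3 x ⟨h.1.le, h.2⟩
      refine Set.mem_iUnion.2 ⟨l, ?_⟩
      have a1 := hx.2.1 l
      have a2 := hx.2.2 l
      rcases Set.mem_uIcc.1 hl with h | h
      · exact Set.mem_uIoo_of_lt (lt_of_le_of_ne h.1 a1) (lt_of_le_of_ne h.2 (Ne.symm a2))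
      · exact Set.mem_uIoo_of_gt (lt_of_le_of_ne h.1 a2) (lt_of_le_of_ne h.2 (Ne.symm a1))
    · intro h
      obtain ⟨l, hl⟩ := Set.mem_iUnion.1 h
      have := h1 l (Set.uIoo_subset_uIcc_self hl)
      exact ⟨lt_of_le_of_ne this.1 (Ne.symm hx.1), this.2⟩
  rw [intervalIntegral.integral_of_le (by norm_num), setIntegral_congr_set hae,
    integral_iUnion_fintype (s := fun l => Set.uIoo (θ l) (θ l + c l))
      (fun l => measurableSet_Ioo) h2 fun l =>
      (hF.continuousOn.integrableOn_compact isCompact_uIcc).mono_set Set.uIoo_subset_uIcc_self]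
  exact Finset.sum_congr rfl fun l _ => integral_uIoo F _ (hc l)

lemma exists_place {S : Type} [Fintype S] (len : S → ℝ) (h : ∀ s, 0 ≤ len s) :
    ∃ t : S → ℝ, (∀ s, 0 ≤ t s ∧ t s + len s ≤ ∑ s, len s) ∧
      ∀ s s', s ≠ s' → t s + len s ≤ t s' ∨ t s' + len s' ≤ t s := by
  classical
  let e := Fintype.equivFin S
  have key : ∀ (s : S) (A : Finset S), s ∈ A → (∀ u, e u < e s → u ∈ A) →
      ∑ u ∈ univ.filter (fun u => e u < e s), len u + len s ≤ ∑ u ∈ A, len u := by
    intro s A h1 h2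
    rw [add_comm, ← Finset.sum_insert (by simp)]
    refine Finset.sum_le_sum_of_subset_of_nonneg ?_ fun u _ _ => h u
    intro u hu
    rcases mem_insert.1 hu with rfl | hu
    · exact h1
    · exact h2 u (mem_filter.1 hu).2
  refine ⟨fun s => ∑ u ∈ univ.filter (fun u => e u < e s), len u, fun s =>
    ⟨sum_nonneg fun u _ => h u, key s _ (mem_univ _) fun _ _ => mem_univ _⟩, fun s s' hs => ?_⟩
  rcases lt_or_gt_of_ne (e.injective.ne hs) with h1 | h1
  · exact Or.inl (key s _ (by simpa using h1) fun u hu => by simpa using hu.trans h1)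
  · exact Or.inr (key s' _ (by simpa using h1) fun u hu => by simpa using hu.trans h1)

lemma line_est {N a g δ₀ ε : ℝ} {I J E : ℂ} (hN : 0 < N) (ha : 0 < a) (ha1 : a ≤ 1) (hg : 0 < g)
    (hg1 : g ≤ 1 / 4) (hδ : 0 < δ₀) (hε : 0 < ε) (hg2 : g ≤ δ₀ * ε ^ 2 / 128)
    (h : ‖I - ((1 - 2 * g : ℝ) : ℂ) * E * J‖ ≤ 8 / √(N * a * (δ₀ / (2 * g)))) :
    ‖((√N * a : ℝ) : ℂ) * I - ((√(a * (1 - 2 * g)) : ℝ) : ℂ) * E *
      (((√(N * a * (1 - 2 * g)) : ℝ) : ℂ) * J)‖ ≤ ε := by
  have hG : 0 < 1 - 2 * g := by linarith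
  have e : √(a * (1 - 2 * g)) * √(N * a * (1 - 2 * g)) = √N * a * (1 - 2 * g) := by
    rw [mul_assoc N, Real.sqrt_mul hN.le, mul_left_comm, Real.mul_self_sqrt (by positivity),
      mul_assoc]
  have e' : ((√N * a : ℝ) : ℂ) * I - ((√(a * (1 - 2 * g)) : ℝ) : ℂ) * E *
      (((√(N * a * (1 - 2 * g)) : ℝ) : ℂ) * J) =
      ((√N * a : ℝ) : ℂ) * (I - ((1 - 2 * g : ℝ) : ℂ) * E * J) := by
    have := congrArg (fun x : ℝ => (x : ℂ)) e
    simp only [Complex.ofReal_mul] at this ⊢
    linear_combination (-E * J) * this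
  rw [e', norm_mul, Complex.norm_real, Real.norm_of_nonneg (by positivity)]
  refine (mul_le_mul_of_nonneg_left h (by positivity)).trans ?_
  rw [← mul_div_assoc, div_le_iff₀ (by positivity)]
  refine abs_le_of_sq_le_sq' ?_ (by positivity) |>.2
  rw [mul_pow, mul_pow, mul_pow, Real.sq_sqrt hN.le, Real.sq_sqrt (by positivity)]
  have h1 : a * 64 ≤ ε ^ 2 * (δ₀ / (2 * g)) := by
    rw [← mul_div_assoc, le_div_iff₀ (by positivity)]
    nlinarith
  nlinarith [mul_le_mul_of_nonneg_left h1 (mul_pos hN ha).le]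

lemma ee_arg (A : ℂ) : (‖A‖ : ℂ) * ee (-(A.arg / (2 * Real.pi))) = conj A := by
  rw [ee_neg, ← Complex.conj_ofReal, ← map_mul]
  congr 1
  rw [ee]
  nth_rewrite 3 [← Complex.norm_mul_exp_arg_mul_I A]
  have : (Real.pi : ℂ) ≠ 0 := by exact_mod_cast Real.pi_ne_zero
  push_cast
  congr 2
  field_simp

lemma ee_sum {L : Type} (s : Finset L) (f : L → ℝ) : ee (∑ l ∈ s, f l) = ∏ l ∈ s, ee (f l) := by
  classical
  induction s using Finset.induction_on with
  | empty => simp
  | insert a s ha ih => rw [sum_insert ha, prod_insert ha, ee_add, ih]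

end Crest.Agent.R75.B

namespace Crest.Agent.R75
open B

set_option maxHeartbeats 1600000 in
theorem macro_of (h2 : O2Stmt) (hc : SPcStmt) : MacroStmt := by
  intro δ ε hδ hδ1 hε S L _ _ _ seg κ h θ n A hh hκ hn hA hin hdis hcov hsum htot
  classical
  set δ₀ := δ / 12 with hδ₀
  have hδ0 : 0 < δ₀ := by positivity
  set ω := δ / (8 * (Fintype.card S + 1)) with hω
  have hω0 : 0 < ω := by positivity
  set ε₂ := ε / (12 * (Fintype.card L + 1)) with hε₂
  have hε2 : 0 < ε₂ := by positivity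
  set g := min (1 / 4) (δ₀ * ε₂ ^ 2 / 128) with hgd
  have hg : 0 < g := by positivity
  have hg1 : g ≤ 1 / 4 := min_le_left _ _
  have hg2 : g ≤ δ₀ * ε₂ ^ 2 / 128 := min_le_right _ _
  have hG : 0 < 1 - 2 * g := by linarith
  clear_value g
  let T : S → ℝ := fun s => h / (κ s * (1 + δ) ^ 2)
  have hT : ∀ s, 0 < T s := fun s => by have := hκ s; positivity
  obtain ⟨t₀, ht1, ht2⟩ := exists_place (fun s => T s + 2 * ω) fun s => by
    have := hT s; positivity
  have hlen : ∑ s, (T s + 2 * ω) ≤ 1 - 3 * δ₀ := by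
    have a1 : ∑ s, T s = (∑ s, h / κ s) / (1 + δ) ^ 2 := by
      rw [Finset.sum_div]
      exact Finset.sum_congr rfl fun s _ => by simp only [T]; rw [div_div]
    have a2 : (∑ s, h / κ s) / (1 + δ) ^ 2 ≤ 1 - δ / 2 := by
      rw [div_le_iff₀ (by positivity)]
      nlinarith [mul_nonneg hδ.le (sub_nonneg.2 hδ1), mul_nonneg (mul_nonneg hδ.le hδ.le)
        (sub_nonneg.2 hδ1)]
    have a3 : (Fintype.card S : ℝ) * (2 * ω) ≤ δ / 4 := by
      rw [hω, mul_div_assoc', mul_div_assoc', div_le_div_iff₀ (by positivity) (by positivity)]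
      nlinarith
    rw [Finset.sum_add_distrib, a1, Finset.sum_const, card_univ, nsmul_eq_mul]
    linarith
  choose Ψ τ τ' Lp z K hP hK hτ0 hτ1 hm hl using fun s =>
    exists_prof (H := (20 / ε₂) ^ 2) (2 * δ₀ + t₀ s) (hT s) (by positivity) hω0
  choose β₀ hβ using fun s => hc _ _ _ _ _ _ _ (hP s) ε₂ hε2
  have hτc : ∀ s, Continuous (τ s) := fun s =>
    continuous_iff_continuousAt.2 fun x => ((hP s).hτ x).continuousAt
  have hτ1' : ∀ s, τ s 1 ≤ 1 - δ₀ := fun s => by linarith [hτ1 s, (ht1 s).2]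
  set Λ := ∑ l, (4 / g + 2 * K (seg l)) / h with hΛ
  have hΛ0 : 0 ≤ Λ := sum_nonneg fun l _ => by have := hK (seg l); positivity
  obtain ⟨N₁, hN₁⟩ := freq hδ0 (by linarith) hΛ0 (half_pos hε)
  refine ⟨max N₁ ⌈12 / (g * δ₀) / h + ∑ s, 2 * |β₀ s| / h⌉₊, fun N hN => ?_⟩
  have hN1 : 12 / (g * δ₀) / h + ∑ s, 2 * |β₀ s| / h ≤ N :=
    (Nat.le_ceil _).trans (by exact_mod_cast le_of_max_le_right hN)
  have hs0 : 0 ≤ ∑ s, 2 * |β₀ s| / h := sum_nonneg fun s _ => by positivity
  have hp0 : 0 < 12 / (g * δ₀) / h := by positivity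
  have hNpos : (0 : ℝ) < N := by linarith
  have hN2 : 12 / (g * δ₀) ≤ N * h := (div_le_iff₀ hh).1 (by linarith)
  have hN3 : ∀ s, 2 * |β₀ s| ≤ N * h := fun s => (div_le_iff₀ hh).1 (by
    have := single_le_sum (f := fun s => 2 * |β₀ s| / h) (fun s _ => by positivity) (mem_univ s)
    linarith)
  set k₀ := ⌊δ₀ * N⌋₊ with hk₀
  have hk1 : (k₀ : ℝ) ≤ δ₀ * N := Nat.floor_le (by positivity)
  have hk2 : (k₀ : ℝ) / N ≤ δ₀ := (div_le_iff₀ hNpos).2 hk1
  have hk3 : 0 ≤ (k₀ : ℝ) / N := by positivity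
  let c : L → ℝ := fun l => n l * h
  have hn1 : ∀ l, (1 : ℝ) ≤ |(n l : ℝ)| := fun l => by exact_mod_cast Int.one_le_abs (hn l)
  have hca : ∀ l, |c l| = |(n l : ℝ)| * h := fun l => by
    simp only [c]; rw [abs_mul, abs_of_pos hh]
  have hc1 : ∀ l, h ≤ |c l| := fun l => by rw [hca]; nlinarith [hn1 l]
  have hc0 : ∀ l, c l ≠ 0 := fun l => abs_pos.1 (hh.trans_le (hc1 l))
  have hc2 : ∀ l, |c l| ≤ 1 := fun l => by
    have a1 := hin l Set.left_mem_uIcc
    have a2 := hin l Set.right_mem_uIcc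
    exact abs_le.2 ⟨by linarith [a1.2, a2.1], by linarith [a1.1, a2.2]⟩
  have hα : ∀ l, |N * c l| = N * |c l| := fun l => by rw [abs_mul, abs_of_pos hNpos]
  choose B b hB hb1 hb2 hb3 hb4 using fun l => cell h2 (tm := k₀ / N) (α := N * c l)
    (hP (seg l)).hΨ (hτc _) (hK _) (hm _) (hl _) hg hg1 hδ0
    (by rw [hτ0]; linarith [(ht1 (seg l)).1]) (by linarith [hτ1' (seg l)])
    (by rw [hα]; exact hN2.trans (by gcongr; exact hc1 l))
    (-((A l).arg / (2 * Real.pi)) - Real.sign (N * c l * (1 - 2 * g)) / 8 - k₀ * θ l)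
  let Φ : ℝ → ℝ := fun y => k₀ * y + ∑ l, N * c l * B l ((y - θ l) / c l)
  let G : ℝ → ℝ := fun y => k₀ + ∑ l, N * b l ((y - θ l) / c l)
  have hΦ : ∀ y, HasDerivAt Φ (G y) y := by
    intro y
    refine (((hasDerivAt_id y).const_mul (k₀ : ℝ)).add (HasDerivAt.fun_sum fun l _ =>
      (((hB l _).comp y (((hasDerivAt_id y).sub_const (θ l)).div_const (c l))).const_mul
        (N * c l)))).congr_deriv ?_
    simp only [G, mul_one, id]
    congr 1
    refine Finset.sum_congr rfl fun l _ => ?_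
    have := hc0 l
    field_simp
  have hΦc : Continuous Φ := continuous_iff_continuousAt.2 fun x => (hΦ x).continuousAt
  have hGl : ∀ x y, |G x - G y| ≤ Λ * N * |x - y| := by
    intro x y
    simp only [G]
    rw [add_sub_add_left_eq_sub, ← Finset.sum_sub_distrib, hΛ, Finset.sum_mul, Finset.sum_mul]
    refine (Finset.abs_sum_le_sum_abs _ _).trans (Finset.sum_le_sum fun l _ => ?_)
    rw [← mul_sub, abs_mul, abs_of_pos hNpos]
    have a1 := hb1 l ((x - θ l) / c l) ((y - θ l) / c l)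
    rw [← sub_div, sub_sub_sub_cancel_right, abs_div] at a1
    have a2 : |x - y| / |c l| ≤ |x - y| / h := by gcongr; exact hc1 l
    have := hK (seg l)
    calc _ ≤ N * ((4 / g + 2 * K (seg l)) * (|x - y| / h)) := by
          gcongr
          exact a1.trans (by gcongr)
      _ = _ := by ring
  have hone : ∀ y l l', l' ≠ l → (y - θ l) / c l ∈ Set.Ioo (0 : ℝ) 1 →
      (y - θ l') / c l' ∉ Set.Ioo (0 : ℝ) 1 := by
    intro y l l' hne a1 a2
    exact Set.disjoint_left.1 (hdis l' l hne) ((mem_uIoo_iff (hc0 l')).1 a2)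
      ((mem_uIoo_iff (hc0 l)).1 a1)
  have hGr : ∀ x ∈ Set.Icc (0 : ℝ) (1 / 2), (k₀ : ℝ) ≤ G x ∧ G x ≤ N * (1 - δ₀) := by
    intro x _
    refine ⟨le_add_of_nonneg_right (sum_nonneg fun l _ => mul_nonneg hNpos.le (hb2 l _).1), ?_⟩
    simp only [G]
    by_cases hx : ∃ l, (x - θ l) / c l ∈ Set.Ioo (0 : ℝ) 1
    · obtain ⟨l, hl⟩ := hx
      rw [Finset.sum_eq_single l (fun l' _ hne => by rw [(hb3 l' _ (hone x l l' hne hl)).1,
        mul_zero]) (by simp)]
      have a1 := mul_le_mul_of_nonneg_left ((hb2 l ((x - θ l) / c l)).2.trans (hτ1' _)) hNpos.le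
      rwa [mul_add, mul_div_cancel₀ _ hNpos.ne'] at a1
    · rw [Finset.sum_eq_zero fun l _ => by rw [(hb3 l _ fun a => hx ⟨l, a⟩).1, mul_zero]]
      nlinarith
  have hout : ∀ y, y ∉ Set.Ioo (0 : ℝ) (1 / 2) → ee (Φ y) = ee (k₀ * y) := by
    intro y hy
    simp only [Φ]
    rw [ee_add, ee_sum, Finset.prod_eq_one fun l _ => (hb3 l _ fun a => hy ?_).2, mul_one]
    exact Set.uIoo_subset_Ioo (hin l Set.left_mem_uIcc) (hin l Set.right_mem_uIcc)
      ((mem_uIoo_iff (hc0 l)).1 a)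
  obtain ⟨m, hm1, hm2⟩ := hN₁ N (le_of_max_le_left hN) Φ G hΦ hGl hGr
    (by rw [hout 0 (by simp)]; simp) (by
      rw [two_mul, ee_add, hout _ (by simp), ← ee_add, ← ee_int k₀]
      congr 1; push_cast; ring)
  have hcell : ∀ l, ∀ x ∈ Set.Ioo (0 : ℝ) 1,
      ee (Φ (θ l + c l * x)) = ee (k₀ * (θ l + c l * x) + N * c l * B l x) := by
    intro l x hx
    have e : (θ l + c l * x - θ l) / c l = x := by
      rw [add_sub_cancel_left, mul_div_cancel_left₀ _ (hc0 l)]
    simp only [Φ]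
    rw [ee_add, ee_add, ee_sum, Finset.prod_eq_single l
      (fun l' _ hne => (hb3 l' _ (hone _ l l' hne (by rwa [e]))).2) (by simp), e]
  -- time side
  have htime : ∀ k : ℕ, |√N * (2 * (∫ y in (0 : ℝ)..(1 / 2), ee (Φ y - k * y)).re)| ≤
      1 + δ + ε / 2 := by
    intro k
    let M : L → ℂ := fun l => ((√|N * c l * (1 - 2 * g)| : ℝ) : ℂ) *
      ∫ x in (0 : ℝ)..1, ee (N * c l * (1 - 2 * g) * (Ψ (seg l) x - k / N * x))
    let E : L → ℂ := fun l => ee ((k₀ - k) * θ l) * (((√(|c l| * (1 - 2 * g)) : ℝ) : ℂ) *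
      ee (-((A l).arg / (2 * Real.pi)) - Real.sign (N * c l * (1 - 2 * g)) / 8 - k₀ * θ l -
        N * c l * (k / N) * g))
    have hE : ∀ l, ‖E l‖ ≤ 1 := fun l => by
      simp only [E, norm_mul, norm_ee, one_mul, mul_one, Complex.norm_real]
      rw [Real.norm_of_nonneg (Real.sqrt_nonneg _), Real.sqrt_le_iff, one_pow]
      refine ⟨zero_le_one, ?_⟩
      exact mul_le_one₀ (hc2 l) hG.le (by linarith)
    let X : L → ℂ := fun l => ((√N * |c l| : ℝ) : ℂ) *
      ∫ x in (0 : ℝ)..1, ee (Φ (θ l + c l * x) - k * (θ l + c l * x))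
    have hX : (√N : ℝ) * ∫ y in (0 : ℝ)..(1 / 2), ee (Φ y - k * y) = ∑ l, X l := by
      rw [tiling θ c hc0 hin hdis hcov _ (by fun_prop), Finset.mul_sum]
      refine Finset.sum_congr rfl fun l _ => ?_
      simp only [X]; push_cast; ring
    have hXM : ∀ l, ‖X l - E l * M l‖ ≤ ε₂ := by
      intro l
      have a1 := hb4 l (k / N)
      rw [hα] at a1
      have a2 := line_est hNpos (abs_pos.2 (hc0 l)) (hc2 l) hg hg1 hδ0 hε2 hg2 a1
      have a3 : ∫ x in (0 : ℝ)..1, ee (Φ (θ l + c l * x) - k * (θ l + c l * x)) =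
          ee ((k₀ - k) * θ l) * ∫ x in (0 : ℝ)..1, ee (N * c l * (B l x - (k / N - k₀ / N) * x)) := by
        rw [← intervalIntegral.integral_const_mul]
        refine intervalIntegral.integral_congr_Ioo_of_le zero_le_one fun x hx => ?_
        rw [sub_eq_add_neg, ee_add, hcell l x hx, ← ee_add, ← ee_add]
        congr 1
        field_simp
        ring
      have a4 : ∀ Z : ℂ, ‖Z‖ = ‖ee ((k₀ - k) * θ l) * Z‖ := fun Z => by
        rw [norm_mul, norm_ee, one_mul]
      rw [a4] at a2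
      refine le_trans (le_of_eq ?_) a2
      congr 1
      simp only [X, E, M]
      rw [a3, abs_mul (N * c l), hα, abs_of_pos hG]
      ring
    have hβ' := fun l => hβ (seg l) (N * c l * (1 - 2 * g)) (by
      rw [abs_mul, hα, abs_of_pos hG]
      have a1 := hN3 (seg l)
      have a2 := mul_le_mul_of_nonneg_left (hc1 l) hNpos.le
      have a3 : N * |c l| * (1 / 2) ≤ N * |c l| * (1 - 2 * g) := by
        gcongr; linarith
      linarith [le_abs_self (β₀ (seg l))]) (k / N)
    have hsmall : ∀ l, (∀ x₀ ∈ Set.Icc (z (seg l)) (1 - z (seg l)), τ (seg l) x₀ ≠ k / N) →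
        ‖X l‖ ≤ 3 * ε₂ := by
      intro l hl
      have a1 : ‖M l‖ ≤ _ := (hβ' l).2 hl
      rw [Real.sqrt_sq (by positivity), div_div_cancel₀ (by norm_num)] at a1
      have a2 := norm_add_le (X l - E l * M l) (E l * M l)
      rw [sub_add_cancel, norm_mul (E l)] at a2
      have a3 := mul_le_mul (hE l) a1 (norm_nonneg _) zero_le_one
      linarith [hXM l]
    obtain ⟨Y, hY1, hY2⟩ : ∃ Y : L → ℂ, (∀ l, ‖X l - Y l‖ ≤ 3 * ε₂) ∧
        |2 * (∑ l, Y l).re| ≤ 1 + δ := by
      by_cases hact : ∃ s, ∃ x₀ ∈ Set.Icc (z s) (1 - z s), τ s x₀ = k / N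
      · obtain ⟨s, x₀, hx₀, hx₁⟩ := hact
        have hI : ∀ s, ∀ x ∈ Set.Icc (z s) (1 - z s), x ∈ Set.Icc (0 : ℝ) 1 := fun s x hx =>
          ⟨(hP s).zpos.le.trans hx.1, hx.2.trans (by linarith [(hP s).zpos])⟩
        have hτ' : T s ≤ τ' s x₀ := (hP s).lower x₀ (hI s x₀ hx₀)
        have hτp : 0 < τ' s x₀ := (hT s).trans_le hτ'
        set w := √(h * (1 - 2 * g) / (κ s * τ' s x₀)) with hw
        set φ := h * k * g - N * h * (1 - 2 * g) * (Ψ s x₀ - k / N * x₀) with hφ
        refine ⟨fun l => if seg l = s then (w : ℂ) * conj (A l * ee (θ l * (k : ℤ) + n l * φ))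
          else 0, fun l => ?_, ?_⟩
        · simp only
          split_ifs with hs
          · subst hs
            have a1 : ‖M l - _‖ ≤ _ := (hβ' l).1 x₀ hx₀ hx₁
            have a2 : √(|c l| * (1 - 2 * g)) * (√(τ' (seg l) x₀))⁻¹ = w * ‖A l‖ := by
              have := hκ (seg l)
              rw [← Real.sqrt_sq (norm_nonneg (A l)), hA, hw, ← Real.sqrt_inv,
                ← Real.sqrt_mul (by positivity), ← Real.sqrt_mul (by positivity), hca]
              congr 1
              field_simp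
            have a3 : (w : ℂ) * conj (A l * ee (θ l * (k : ℤ) + n l * φ)) =
                E l * ((((√(τ' (seg l) x₀))⁻¹ : ℝ) : ℂ) * ee (Real.sign (N * c l * (1 - 2 * g)) / 8 +
                  N * c l * (1 - 2 * g) * (Ψ (seg l) x₀ - k / N * x₀))) := by
              have a4 := congrArg (fun x : ℝ => (x : ℂ)) a2
              simp only [Complex.ofReal_mul] at a4
              have a5 : ee ((k₀ - k) * θ l) * ee (-((A l).arg / (2 * Real.pi)) -
                  Real.sign (N * c l * (1 - 2 * g)) / 8 - k₀ * θ l - N * c l * (k / N) * g) *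
                  ee (Real.sign (N * c l * (1 - 2 * g)) / 8 +
                  N * c l * (1 - 2 * g) * (Ψ (seg l) x₀ - k / N * x₀)) =
                  ee (-((A l).arg / (2 * Real.pi))) * ee (-(θ l * (k : ℤ) + n l * φ)) := by
                rw [← ee_add, ← ee_add, ← ee_add, hφ]
                congr 1
                simp only [c]
                push_cast
                field_simp
                ring
              rw [map_mul, ← ee_neg, ← ee_arg]
              simp only [E]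
              linear_combination (-(w : ℂ) * ‖A l‖) * a5 - (ee ((k₀ - k) * θ l) *
                ee (-((A l).arg / (2 * Real.pi)) - Real.sign (N * c l * (1 - 2 * g)) / 8 -
                k₀ * θ l - N * c l * (k / N) * g) * ee (Real.sign (N * c l * (1 - 2 * g)) / 8 +
                N * c l * (1 - 2 * g) * (Ψ (seg l) x₀ - k / N * x₀))) * a4
            rw [a3, ← sub_add_sub_cancel _ (E l * M l), ← mul_sub]
            refine (norm_add_le _ _).trans ?_
            rw [norm_mul]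
            have a6 := mul_le_mul (hE l) a1 (norm_nonneg _) zero_le_one
            linarith [hXM l]
          · rw [sub_zero]
            refine hsmall l fun x hx hx' => ?_
            have a1 := hm (seg l) x (hI _ x hx)
            have a2 := hm s x₀ (hI _ x₀ hx₀)
            have a3 := hτ0 s
            have a4 := hτ0 (seg l)
            have a5 := hτ1 s
            have a6 := hτ1 (seg l)
            rcases ht2 _ _ hs with a7 | a7 <;> linarith [a1.1, a1.2, a2.1, a2.2]
        · have a1 := hsum s k φ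
          have a2 : 2 * (∑ l, if seg l = s then (w : ℂ) *
              conj (A l * ee (θ l * (k : ℤ) + n l * φ)) else 0).re =
              w * ∑ l ∈ univ.filter (fun l => seg l = s),
                2 * (A l * ee (θ l * (k : ℤ) + n l * φ)).re := by
            rw [← Finset.sum_filter, Complex.re_sum, Finset.mul_sum, Finset.mul_sum]
            refine Finset.sum_congr rfl fun l _ => ?_
            rw [Complex.re_ofReal_mul, Complex.conj_re]
            ring
          have a3 : w ≤ 1 + δ := by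
            have := hκ s
            rw [hw, Real.sqrt_le_iff, div_le_iff₀ (by positivity)]
            refine ⟨by positivity, ?_⟩
            simp only [T] at hτ'
            rw [div_le_iff₀ (by positivity)] at hτ'
            nlinarith [mul_pos hh hg]
          rw [a2, abs_mul, abs_of_nonneg (Real.sqrt_nonneg _)]
          nlinarith [Real.sqrt_nonneg (h * (1 - 2 * g) / (κ s * τ' s x₀)), abs_nonneg
            (∑ l ∈ univ.filter (fun l => seg l = s), 2 * (A l * ee (θ l * (k : ℤ) + n l * φ)).re)]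
      · refine ⟨0, fun l => ?_, by simp; positivity⟩
        rw [Pi.zero_apply, sub_zero]
        exact hsmall l fun x hx hx' => hact ⟨_, x, hx, hx'⟩
    have a1 : √N * (2 * (∫ y in (0 : ℝ)..(1 / 2), ee (Φ y - k * y)).re) =
        2 * (∑ l, Y l).re + 2 * (∑ l, (X l - Y l)).re := by
      rw [mul_left_comm, ← Complex.re_ofReal_mul, hX, Finset.sum_sub_distrib, Complex.sub_re]
      ring
    have a2 : |(∑ l, (X l - Y l)).re| ≤ ε / 4 := by
      refine (Complex.abs_re_le_norm _).trans ((norm_sum_le _ _).trans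
        ((Finset.sum_le_card_nsmul _ _ _ fun l _ => hY1 l).trans ?_))
      rw [card_univ, nsmul_eq_mul, hε₂, mul_div_assoc', mul_div_assoc',
        div_le_div_iff₀ (by positivity) (by positivity)]
      nlinarith
    rw [a1]
    refine (abs_add_le _ _).trans ?_
    rw [abs_mul 2 (∑ l, (X l - Y l)).re, abs_two]
    linarith
  have hD : 0 < 1 + δ + ε / 2 := by positivity
  refine ⟨fun k => (1 + δ + ε / 2)⁻¹ * √N *
    (m k * (2 * (∫ y in (0 : ℝ)..(1 / 2), ee (Φ y - (k : ℕ) * y)).re)), fun k => ?_, fun x => ?_⟩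
  · simp only
    rw [mul_assoc, mul_left_comm (√N), abs_mul, abs_mul, abs_of_pos (inv_pos.2 hD),
      abs_of_nonneg (hm1 k).1, inv_mul_le_iff₀ hD, mul_one]
    exact (mul_le_of_le_one_left (abs_nonneg _) (hm1 k).2).trans (htime k)
  · have a1 := hm2 x
    rw [← Fin.sum_univ_eq_sum_range (fun k => ((m k * (2 * (∫ y in (0 : ℝ)..(1 / 2),
      ee (Φ y - k * y)).re) : ℝ) : ℂ) * ee (k * x))] at a1
    simp only [Complex.ofReal_mul ((1 + δ + ε / 2)⁻¹ * √N), mul_assoc (((1 + δ + ε / 2)⁻¹ * √N : ℝ) : ℂ)]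
    rw [← Finset.mul_sum, norm_mul, Complex.norm_real, Real.norm_of_nonneg (by positivity)]
    generalize ‖∑ k : Fin N, ((m k * (2 * (∫ y in (0 : ℝ)..(1 / 2),
      ee (Φ y - (k : ℕ) * y)).re) : ℝ) : ℂ) * ee ((k : ℕ) * x)‖ = r at a1 ⊢
    rw [show (1 + δ + ε / 2)⁻¹ * √N * r - √N = ((1 + δ + ε / 2)⁻¹ * (r - (1 + δ + ε / 2))) * √N by
      field_simp, abs_mul, abs_of_nonneg (Real.sqrt_nonneg _)]
    gcongr
    rw [abs_mul, abs_of_pos (inv_pos.2 hD), inv_mul_le_iff₀ hD]
    rw [abs_le] at a1 ⊢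
    constructor <;> nlinarith [a1.1, a1.2, mul_pos (add_pos hδ hε) (add_pos hδ (half_pos hε))]

end Crest.Agent.R75
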