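import Crest.Agent.R75.Defs

/-! Macro lemma, frequency side: truncating the Fourier series of a slowly varying chirp. -/

set_option autoImplicit false
open Finset ComplexConjugate

namespace Crest.Agent.R75.B

lemma ee_add (x y : ℝ) : ee (x + y) = ee x * ee y := by
  rw [ee, ee, ee, ← Complex.exp_add]; push_cast; congr 1; ring

lemma ee_eq (x : ℝ) : ee x = Complex.exp (Complex.I * (2 * Real.pi * x : ℝ)) := by
  rw [ee]; push_cast; congr 1; ring

@[simp] lemma norm_ee (x : ℝ) : ‖ee x‖ = 1 := by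
  rw [ee_eq, mul_comm, Complex.norm_exp_ofReal_mul_I]

@[simp] lemma ee_zero : ee 0 = 1 := by simp [ee]

lemma ee_int (k : ℤ) : ee k = 1 := by
  rw [ee, ← Complex.exp_int_mul_two_pi_mul_I k]; push_cast; congr 1; ring

lemma ee_neg (x : ℝ) : ee (-x) = conj (ee x) := by
  rw [ee_eq, ee_eq, ← Complex.exp_conj, map_mul, Complex.conj_ofReal, Complex.conj_I]
  push_cast; congr 1; ring

@[fun_prop] lemma continuous_ee : Continuous ee := by unfold ee; fun_prop

lemma norm_ee_sub (x y : ℝ) : ‖ee x - ee y‖ ≤ 7 * |x - y| := by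
  have : ee x - ee y = ee y * (ee (x - y) - 1) := by
    rw [mul_sub, ← ee_add]; simp
  rw [this, norm_mul, norm_ee, one_mul, ee_eq]
  refine Real.norm_exp_I_mul_ofReal_sub_one_le.trans ?_
  rw [Real.norm_eq_abs, abs_mul, abs_of_pos Real.two_pi_pos]
  gcongr
  linarith [Real.pi_lt_d2]

lemma ee_nat_mul (i : ℕ) (u : ℝ) : ee (i * u) = ee u ^ i := by
  rw [ee, ee, ← Complex.exp_nat_mul]; push_cast; congr 1; ring

lemma norm_dir_le (a : ℕ) (u : ℝ) : ‖∑ i ∈ range a, ee (i * u)‖ ≤ a :=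
  (norm_sum_le _ _).trans (by simp)

lemma norm_dir_mul (a : ℕ) {u : ℝ} (hu : |u| ≤ 1 / 2) :
    ‖∑ i ∈ range a, ee (i * u)‖ * (2 * |u|) ≤ 1 := by
  have h1 : (∑ i ∈ range a, ee (i * u)) * (ee u - 1) = ee u ^ a - 1 := by
    simp only [ee_nat_mul]; exact geom_sum_mul _ _
  have h2 : ‖ee u ^ a - 1‖ ≤ 2 := (norm_sub_le _ _).trans (by simp; norm_num)
  have h3 : 4 * |u| ≤ ‖ee u - 1‖ := by
    rw [ee_eq, Complex.norm_exp_I_mul_ofReal_sub_one, norm_mul, Real.norm_eq_abs,
      Real.norm_eq_abs]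
    have hpi := Real.pi_pos
    have e : 2 * Real.pi * u / 2 = Real.pi * u := by ring
    have := Real.mul_abs_le_abs_sin (x := Real.pi * u) (by
      rw [abs_mul, abs_of_pos hpi]; nlinarith)
    rw [abs_mul, abs_of_pos hpi, ← mul_assoc, div_mul_cancel₀ _ hpi.ne'] at this
    rw [e, abs_two]
    linarith
  rw [← h1, norm_mul] at h2
  nlinarith [norm_nonneg (∑ i ∈ range a, ee (i * u))]

lemma integral_ee_int (k : ℤ) :
    ∫ u in (-(1 / 2) : ℝ)..(1 / 2), ee (k * u) = if k = 0 then 1 else 0 := by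
  split_ifs with h
  · simp [h]; norm_num
  · have hc : (2 * Real.pi * Complex.I * k : ℂ) ≠ 0 :=
      mul_ne_zero Complex.two_pi_I_ne_zero (by exact_mod_cast h)
    have e : ∀ u : ℝ, ee (k * u) = Complex.exp (2 * Real.pi * Complex.I * k * u) := by
      intro u; rw [ee]; push_cast; congr 1; ring
    simp only [e]
    rw [integral_exp_mul_complex hc, ← e, ← e]
    have : ee (k * (1 / 2)) = ee (k * (-(1 / 2))) := by
      rw [← mul_one (ee (k * (-(1 / 2)))), ← ee_int k, ← ee_add]; congr 1; ring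
    rw [this, sub_self, zero_div]

/-- distance to the nearest integer. -/
noncomputable def dd (x : ℝ) : ℝ := |x - round x|

lemma dd_lip (x y : ℝ) : |dd x - dd y| ≤ |x - y| := by
  have key : ∀ x y : ℝ, dd x - dd y ≤ |x - y| := by
    intro x y
    have h1 := round_le x (round y)
    have h2 := abs_add_le (x - y) (y - round y)
    rw [sub_add_sub_cancel] at h2
    unfold dd
    linarith
  rw [abs_le]
  constructor
  · linarith [key y x, abs_sub_comm x y]
  · exact key x y

lemma dd_add_one (x : ℝ) : dd (x + 1) = dd x := by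
  rw [dd, dd, round_add_one]; push_cast; congr 1; ring

lemma dd_neg (x : ℝ) : dd (-x) = dd x := by
  have key : ∀ x : ℝ, dd (-x) ≤ dd x := by
    intro x
    refine (round_le (-x) (-round x)).trans (le_of_eq ?_)
    rw [dd, ← abs_neg]; push_cast; congr 1; ring
  exact le_antisymm (key x) (by simpa using key (-x))

lemma dd_mem (x : ℝ) : dd x ∈ Set.Icc (0 : ℝ) (1 / 2) := ⟨abs_nonneg _, abs_sub_round x⟩

lemma dd_eq {x : ℝ} (h : x ∈ Set.Icc (0 : ℝ) (1 / 2)) : dd x = x := by
  rw [dd, abs_sub_round_eq_min, Int.fract_eq_self.2 ⟨h.1, by linarith [h.2]⟩]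
  exact min_eq_left (by linarith [h.2])

lemma continuous_of_lip {g : ℝ → ℝ} {K : ℝ} (h : ∀ x y, |g x - g y| ≤ K * |x - y|) :
    Continuous g := by
  refine LipschitzWith.continuous (K := K.toNNReal) (LipschitzWith.of_dist_le' fun x y => ?_)
  exact h x y

/-- the even periodic extension of a phase function. -/
lemma exists_ext {Φ g : ℝ → ℝ} {K : ℝ} (hK : 0 ≤ K) (hΦ : ∀ x, HasDerivAt Φ (g x) x)
    (hg : ∀ x y, |g x - g y| ≤ K * |x - y|) (h0 : ee (Φ 0) = 1) (h1 : ee (2 * Φ (1 / 2)) = 1) :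
    ∃ P : ℝ → ℝ, Continuous P ∧ (∀ x, P (-x) = -P x) ∧ (∀ x, ee (P (x + 1)) = ee (P x)) ∧
      (∀ x ∈ Set.Icc (0 : ℝ) (1 / 2), ee (P x) = ee (Φ x)) ∧
      ∀ x u, |P (x - u) - (P x - g (dd x) * u)| ≤ K * u ^ 2 := by
  have hG : ∀ x y, |g (dd x) - g (dd y)| ≤ K * |x - y| := fun x y =>
    (hg _ _).trans (mul_le_mul_of_nonneg_left (dd_lip x y) hK)
  have hc := continuous_of_lip hG
  have hint : ∀ a b, IntervalIntegrable (fun x => g (dd x)) MeasureTheory.volume a b :=
    fun a b => hc.intervalIntegrable a b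
  have hodd : ∀ x, ∫ s in (0 : ℝ)..(-x), g (dd s) = -∫ s in (0 : ℝ)..x, g (dd s) := by
    intro x
    have := intervalIntegral.integral_comp_neg (a := 0) (b := x) (fun s => g (dd s))
    simp only [dd_neg, neg_zero] at this
    rw [this, intervalIntegral.integral_symm]
  have hper : ∀ x, ∫ s in (0 : ℝ)..(x + 1), g (dd s) =
      (∫ s in (0 : ℝ)..x, g (dd s)) + ∫ s in (0 : ℝ)..1, g (dd s) := by
    intro x
    have := Function.Periodic.intervalIntegral_add_eq_add (f := fun s => g (dd s)) (T := 1)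
      (fun s => by simp only [dd_add_one]) 0 x hint
    simpa using this
  have hon : ∀ x ∈ Set.Icc (0 : ℝ) (1 / 2), ∫ s in (0 : ℝ)..x, g (dd s) = Φ x - Φ 0 := by
    intro x hx
    rw [← intervalIntegral.integral_eq_sub_of_hasDerivAt (fun y _ => hΦ y)
      ((continuous_of_lip hg).intervalIntegrable _ _)]
    refine intervalIntegral.integral_congr fun y hy => ?_
    rw [Set.uIcc_of_le hx.1] at hy
    simp only [dd_eq ⟨hy.1, hy.2.trans hx.2⟩]
  have hm : ee (-Φ 0) = 1 := by rw [ee_neg, h0, map_one]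
  refine ⟨fun x => ∫ s in (0 : ℝ)..x, g (dd s), ?_, hodd, fun x => ?_, fun x hx => ?_,
    fun x u => ?_⟩
  · exact intervalIntegral.continuous_primitive hint 0
  · have h2 := hper (-(1 / 2))
    rw [hodd, show -(1 / 2) + 1 = (1 / 2 : ℝ) by norm_num,
      hon _ ⟨by norm_num, le_rfl⟩] at h2
    have h3 : ∫ s in (0 : ℝ)..1, g (dd s) = 2 * Φ (1 / 2) + -Φ 0 + -Φ 0 := by linarith
    simp only
    rw [hper, ee_add, h3, ee_add, ee_add, h1, hm]
    simp
  · simp only
    rw [hon x hx, sub_eq_add_neg, ee_add, hm, mul_one]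
  · have e : (∫ s in (0 : ℝ)..(x - u), g (dd s)) - ((∫ s in (0 : ℝ)..x, g (dd s)) - g (dd x) * u) =
        ∫ s in x..(x - u), (g (dd s) - g (dd x)) := by
      rw [intervalIntegral.integral_sub (hint _ _) intervalIntegrable_const,
        ← intervalIntegral.integral_interval_sub_left (hint 0 (x - u)) (hint 0 x),
        intervalIntegral.integral_const, smul_eq_mul]
      ring
    simp only
    rw [e, ← Real.norm_eq_abs]
    refine (intervalIntegral.norm_integral_le_of_norm_le_const (C := K * |u|) ?_).trans ?_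
    · intro s hs
      refine (hG s x).trans (mul_le_mul_of_nonneg_left ?_ hK)
      have := Set.abs_sub_left_of_mem_uIcc (Set.uIoc_subset_uIcc hs)
      simpa using this
    · rw [sub_sub_cancel_left, abs_neg, mul_assoc, abs_mul_abs_self, sq]

lemma sum_mult (a b N : ℕ) (hN : a + b ≤ N + 1) (F : ℕ → ℂ) :
    ∑ k ∈ range N, (((range a ×ˢ range b).filter fun p => p.1 + p.2 = k).card : ℂ) * F k =
      ∑ p ∈ range a ×ˢ range b, F (p.1 + p.2) := by
  rw [← Finset.sum_fiberwise_of_maps_to (s := range a ×ˢ range b) (t := range N)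
    (g := fun p => p.1 + p.2)]
  · refine Finset.sum_congr rfl fun k _ => ?_
    rw [Finset.sum_congr rfl (g := fun _ => F k) fun p hp => by rw [(mem_filter.1 hp).2]]
    simp
  · intro p hp
    simp only [mem_product, mem_range] at hp ⊢
    omega

lemma card_mult_le (a b k : ℕ) :
    ((range a ×ˢ range b).filter fun p => p.1 + p.2 = k).card ≤ b := by
  refine (Finset.card_le_card_of_injOn (t := range b) Prod.snd ?_ ?_).trans (by simp)
  · intro p hp
    exact (mem_product.1 (mem_filter.1 hp).1).2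
  · intro p hp q hq h
    have h1 := (mem_filter.1 hp).2
    have h2 := (mem_filter.1 hq).2
    exact Prod.ext (by omega) h

lemma card_mult_eq {a b k : ℕ} (h1 : b ≤ k + 1) (h2 : k < a) :
    ((range a ×ˢ range b).filter fun p => p.1 + p.2 = k).card = b := by
  refine le_antisymm (card_mult_le a b k) ?_
  refine le_trans (by simp) (Finset.card_le_card_of_injOn (s := range b) (fun j => (k - j, j)) ?_ ?_)
  · intro j hj
    have := mem_range.1 hj
    simp only [coe_filter, mem_product, mem_range, Set.mem_ofPred_eq]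
    omega
  · intro p _ q _ h
    exact congrArg Prod.snd h

set_option maxHeartbeats 800000 in
theorem freq {δ₀ Λ ε : ℝ} (hδ : 0 < δ₀) (hδ1 : δ₀ ≤ 1) (hΛ : 0 ≤ Λ) (hε : 0 < ε) :
    ∃ N₀ : ℕ, ∀ N ≥ N₀, ∀ Φ g : ℝ → ℝ, (∀ x, HasDerivAt Φ (g x) x) →
      (∀ x y, |g x - g y| ≤ Λ * N * |x - y|) →
      (∀ x ∈ Set.Icc (0 : ℝ) (1 / 2), (⌊δ₀ * N⌋₊ : ℝ) ≤ g x ∧ g x ≤ N * (1 - δ₀)) →
      ee (Φ 0) = 1 → ee (2 * Φ (1 / 2)) = 1 →
      ∃ m : ℕ → ℝ, (∀ k, 0 ≤ m k ∧ m k ≤ 1) ∧ ∀ x : ℝ,
        |‖∑ k ∈ range N, ((m k * (2 * (∫ θ in (0 : ℝ)..(1 / 2), ee (Φ θ - k * θ)).re) : ℝ) : ℂ) *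
          ee (k * x)‖ - 1| ≤ ε := by
  set C : ℝ := 7 * (Λ + 1) * (1 + 1 / δ₀) with hC
  have hC0 : 0 < C := by positivity
  set η : ℝ := min (1 / 2) (ε / (4 * C)) with hη
  have hη0 : 0 < η := by positivity
  refine ⟨⌈2 / δ₀ + 2 / (δ₀ * η ^ 2 * ε)⌉₊, fun N hN Φ g hΦ hg hr h0 h1 => ?_⟩
  have hN' : 2 / δ₀ + 2 / (δ₀ * η ^ 2 * ε) ≤ N := (Nat.le_ceil _).trans (by exact_mod_cast hN)
  have hN1 : 2 ≤ δ₀ * N := by
    have : 2 / δ₀ ≤ N := le_trans (le_add_of_nonneg_right (by positivity)) hN'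
    rwa [div_le_iff₀' hδ] at this
  have hN2 : 2 ≤ δ₀ * η ^ 2 * ε * N := by
    have : 2 / (δ₀ * η ^ 2 * ε) ≤ N := le_trans (le_add_of_nonneg_left (by positivity)) hN'
    rwa [div_le_iff₀' (by positivity)] at this
  have hNpos : (0 : ℝ) < N := by
    by_contra h
    nlinarith
  set b := ⌊δ₀ * N⌋₊ with hb
  have hb1 : (b : ℝ) ≤ δ₀ * N := Nat.floor_le (by positivity)
  have hb2 : δ₀ * N ≤ 2 * b := by linarith [Nat.lt_floor_add_one (δ₀ * N)]
  have hb3 : (0 : ℝ) < b := by linarith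
  have hb4 : 1 ≤ b := by exact_mod_cast hb3
  have hb5 : b ≤ N := by
    have : (b : ℝ) ≤ N := by nlinarith
    exact_mod_cast this
  set a := N + 1 - b with ha
  have ha1 : (a : ℝ) ≤ N := by exact_mod_cast (by omega : a ≤ N)
  obtain ⟨P, pc, podd, pper, pon, ptay⟩ := exists_ext (by positivity) hΦ hg h0 h1
  refine ⟨fun k => (((range a ×ˢ range b).filter fun p => p.1 + p.2 = k).card : ℝ) / b,
    fun k => ⟨by positivity, (div_le_one hb3).2 (by exact_mod_cast card_mult_le a b k)⟩,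
    fun x => ?_⟩
  -- Fourier coefficients as integrals over a full period
  have hcoef : ∀ k : ℕ, ((2 * (∫ θ in (0 : ℝ)..(1 / 2), ee (Φ θ - k * θ)).re : ℝ) : ℂ) *
      ee (k * x) = ∫ u in (-(1 / 2) : ℝ)..(1 / 2), ee (P (x - u)) * ee (k * u) := by
    intro k
    have hc : Continuous fun θ : ℝ => ee (P θ - k * θ) := by fun_prop
    have e1 : ∫ θ in (0 : ℝ)..(1 / 2), ee (Φ θ - k * θ) =
        ∫ θ in (0 : ℝ)..(1 / 2), ee (P θ - k * θ) := by
      refine intervalIntegral.integral_congr fun y hy => ?_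
      rw [Set.uIcc_of_le (by norm_num)] at hy
      simp only [sub_eq_add_neg, ee_add, pon y hy]
    have e2 : conj (∫ θ in (0 : ℝ)..(1 / 2), ee (P θ - k * θ)) =
        ∫ θ in (-(1 / 2) : ℝ)..0, ee (P θ - k * θ) := by
      have := intervalIntegral.integral_comp_neg (a := 0) (b := 1 / 2)
        (fun θ : ℝ => ee (P θ - k * θ))
      rw [neg_zero] at this
      rw [← this, ← Complex.conjCLE_apply, ← ContinuousLinearEquiv.coe_coe,
        ← ContinuousLinearMap.intervalIntegral_comp_comm _ (hc.intervalIntegrable _ _)]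
      refine intervalIntegral.integral_congr fun y _ => ?_
      simp only [podd, ContinuousLinearEquiv.coe_coe, Complex.conjCLE_apply, ← ee_neg]
      congr 1; ring
    have hper : Function.Periodic (fun θ : ℝ => ee (P θ - k * θ)) 1 := by
      intro θ
      have := ee_int (-k)
      push_cast at this
      simp only [sub_eq_add_neg, ee_add, pper, mul_add, neg_add, mul_one, this]
    have e3 := hper.intervalIntegral_add_eq (-(1 / 2)) (x - 1 / 2)
    rw [e1, ← Complex.add_conj, e2, add_comm, intervalIntegral.integral_add_adjacent_intervals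
      (hc.intervalIntegrable _ _) (hc.intervalIntegrable _ _)]
    rw [show -(1 / 2) + 1 = (1 / 2 : ℝ) by norm_num,
      show x - 1 / 2 + 1 = x - (-(1 / 2)) by ring] at e3
    rw [e3, ← intervalIntegral.integral_comp_sub_left (fun θ : ℝ => ee (P θ - k * θ)) x,
      ← intervalIntegral.integral_mul_const]
    refine intervalIntegral.integral_congr fun y _ => ?_
    simp only [← ee_add]
    congr 1; ring
  let V : ℝ → ℂ := fun u => (b : ℂ)⁻¹ * ∑ p ∈ range a ×ˢ range b, ee ((p.1 + p.2 : ℕ) * u)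
  have hVc : Continuous V := by fun_prop
  have hV : ∀ u, ‖V u‖ * b = ‖∑ i ∈ range a, ee (i * u)‖ * ‖∑ i ∈ range b, ee (i * u)‖ := by
    intro u
    have : ∑ p ∈ range a ×ˢ range b, ee ((p.1 + p.2 : ℕ) * u) =
        (∑ i ∈ range a, ee (i * u)) * ∑ i ∈ range b, ee (i * u) := by
      rw [Finset.sum_mul_sum, Finset.sum_product]
      refine Finset.sum_congr rfl fun i _ => Finset.sum_congr rfl fun j _ => ?_
      rw [← ee_add]; push_cast; congr 1; ring
    simp only [V]
    rw [this, norm_mul, norm_mul, norm_inv, Complex.norm_natCast, mul_right_comm,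
      inv_mul_cancel₀ hb3.ne', one_mul]
  have hV1 : ∀ u, ‖V u‖ ≤ N := by
    intro u
    refine le_of_mul_le_mul_right ?_ hb3
    rw [hV]
    exact mul_le_mul ((norm_dir_le a u).trans ha1) (norm_dir_le b u) (norm_nonneg _) hNpos.le
  have hV2 : ∀ u, |u| ≤ 1 / 2 → ‖V u‖ * b * (4 * u ^ 2) ≤ 1 := by
    intro u hu
    rw [hV, ← sq_abs]
    have := mul_le_one₀ (norm_dir_mul a hu) (by positivity) (norm_dir_mul b hu)
    linarith
  have hsum : ∑ k ∈ range N, (((((range a ×ˢ range b).filter fun p => p.1 + p.2 = k).card : ℝ) / b *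
      (2 * (∫ θ in (0 : ℝ)..(1 / 2), ee (Φ θ - k * θ)).re) : ℝ) : ℂ) * ee (k * x) =
      ∫ u in (-(1 / 2) : ℝ)..(1 / 2), ee (P (x - u)) * V u := by
    have := sum_mult a b N (by omega)
      (fun k => ∫ u in (-(1 / 2) : ℝ)..(1 / 2), ee (P (x - u)) * ee (k * u))
    simp only [V, ← mul_assoc, mul_comm _ ((b : ℂ)⁻¹)]
    simp only [mul_assoc, Finset.mul_sum _ _ (ee (P _))]
    rw [intervalIntegral.integral_const_mul, intervalIntegral.integral_finsetSum
      (fun p _ => Continuous.intervalIntegrable (by fun_prop) _ _), ← this, Finset.mul_sum]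
    refine Finset.sum_congr rfl fun k _ => ?_
    rw [← hcoef]
    push_cast
    ring
  set ξ := ⌊g (dd x)⌋₊ with hξ
  obtain ⟨r1, r2⟩ := hr _ (dd_mem x)
  have hξ1 : (ξ : ℝ) ≤ g (dd x) := Nat.floor_le (by linarith)
  have hξ2 : g (dd x) < ξ + 1 := Nat.lt_floor_add_one _
  have hξ3 : b ≤ ξ := Nat.le_floor r1
  have hξ4 : ξ < a := by
    have : (ξ : ℝ) + b ≤ N := by linarith
    have : ξ + b ≤ N := by exact_mod_cast this
    omega
  have hone : ∫ u in (-(1 / 2) : ℝ)..(1 / 2), ee (P x - ξ * u) * V u = ee (P x) := by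
    simp only [V, ← mul_assoc, mul_comm _ ((b : ℂ)⁻¹)]
    simp only [mul_assoc, Finset.mul_sum _ _ (ee _)]
    rw [intervalIntegral.integral_const_mul, intervalIntegral.integral_finsetSum
      (fun p _ => Continuous.intervalIntegrable (by fun_prop) _ _)]
    have : ∀ p : ℕ × ℕ, ∫ u in (-(1 / 2) : ℝ)..(1 / 2), ee (P x - ξ * u) *
        ee ((p.1 + p.2 : ℕ) * u) = if p.1 + p.2 = ξ then ee (P x) else 0 := by
      intro p
      have e : ∀ u : ℝ, ee (P x - ξ * u) * ee ((p.1 + p.2 : ℕ) * u) =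
          ee (P x) * ee ((((p.1 + p.2 : ℕ) : ℤ) - ξ : ℤ) * u) := by
        intro u; rw [← ee_add, ← ee_add]; push_cast; congr 1; ring
      simp only [e]
      rw [intervalIntegral.integral_const_mul, integral_ee_int]
      simp only [sub_eq_zero, Nat.cast_inj, mul_ite, mul_one, mul_zero]
    simp only [this]
    rw [← Finset.sum_filter, Finset.sum_const, card_mult_eq (by omega) hξ4, nsmul_eq_mul,
      ← mul_assoc, inv_mul_cancel₀ (by exact_mod_cast hb3.ne'), one_mul]
  rw [hsum]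
  refine le_trans ?_ (?_ : ‖(∫ u in (-(1 / 2) : ℝ)..(1 / 2), ee (P (x - u)) * V u) - ee (P x)‖ ≤ ε)
  · simpa using abs_norm_sub_norm_le
      (∫ u in (-(1 / 2) : ℝ)..(1 / 2), ee (P (x - u)) * V u) (ee (P x))
  rw [← hone, ← intervalIntegral.integral_sub (Continuous.intervalIntegrable (by fun_prop) _ _)
    (Continuous.intervalIntegrable (by fun_prop) _ _)]
  set F : ℝ → ℂ := fun u => ee (P (x - u)) * V u - ee (P x - ξ * u) * V u with hF
  have hFc : Continuous F := by fun_prop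
  have hF1 : ∀ u, |u| ≤ 1 / 2 → ‖F u‖ ≤ C := by
    intro u hu
    have k1 : ‖ee (P (x - u)) - ee (P x - ξ * u)‖ ≤ 7 * (Λ * N * u ^ 2 + |u|) := by
      refine (norm_ee_sub _ _).trans (mul_le_mul_of_nonneg_left ?_ (by norm_num))
      have k2 := abs_add_le (P (x - u) - (P x - g (dd x) * u)) ((ξ - g (dd x)) * u)
      have k3 : |(ξ - g (dd x)) * u| ≤ |u| := by
        rw [abs_mul]
        exact mul_le_of_le_one_left (abs_nonneg _) (abs_le.2 ⟨by linarith, by linarith⟩)
      have := ptay x u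
      rw [show P (x - u) - (P x - g (dd x) * u) + (ξ - g (dd x)) * u =
        P (x - u) - (P x - ξ * u) by ring] at k2
      linarith
    have k4 : ‖V u‖ * (Λ * N * u ^ 2 + |u|) ≤ (Λ + 1) * (1 + 1 / δ₀) := by
      have hu0 := abs_nonneg u
      have hv0 := norm_nonneg (V u)
      rw [← sq_abs]
      rcases le_or_gt (N * |u|) 1 with k5 | k5
      · have k6 : ‖V u‖ * (Λ * N * |u| ^ 2 + |u|) ≤ N * (Λ * N * |u| ^ 2 + |u|) :=
          mul_le_mul_of_nonneg_right (hV1 u) (by positivity)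
        have k7 : (N * |u|) ^ 2 ≤ 1 := pow_le_one₀ (by positivity) k5
        have k8 : (Λ + 1) * 1 ≤ (Λ + 1) * (1 + 1 / δ₀) := by
          gcongr
          exact le_add_of_nonneg_right (by positivity)
        nlinarith [mul_le_mul_of_nonneg_left k7 hΛ]
      · have k6 : Λ * N * |u| ^ 2 + |u| ≤ (Λ + 1) * (N * |u| ^ 2) := by nlinarith
        have k7 : ‖V u‖ * (N * |u| ^ 2) ≤ 1 / δ₀ := by
          rw [le_div_iff₀ hδ]
          have k8 := hV2 u hu
          rw [← sq_abs] at k8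
          nlinarith [mul_le_mul_of_nonneg_left hb2 (mul_nonneg hv0 (sq_nonneg |u|))]
        calc _ ≤ ‖V u‖ * ((Λ + 1) * (N * |u| ^ 2)) := by gcongr
          _ = (Λ + 1) * (‖V u‖ * (N * |u| ^ 2)) := by ring
          _ ≤ _ := by gcongr; linarith
    simp only [hF]
    rw [← sub_mul, norm_mul]
    calc _ ≤ 7 * (Λ * N * u ^ 2 + |u|) * ‖V u‖ := by gcongr
      _ = 7 * (‖V u‖ * (Λ * N * u ^ 2 + |u|)) := by ring
      _ ≤ 7 * ((Λ + 1) * (1 + 1 / δ₀)) := by gcongr
      _ = C := by rw [hC]; ring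
  have hF2 : ∀ u, |u| ≤ 1 / 2 → η ≤ |u| → ‖F u‖ ≤ ε / 2 := by
    intro u hu hu2
    have k1 : ‖ee (P (x - u)) - ee (P x - ξ * u)‖ ≤ 2 :=
      (norm_sub_le _ _).trans (by simp; norm_num)
    have k2 := hV2 u hu
    have k3 : η ^ 2 ≤ u ^ 2 := by rw [← sq_abs u]; gcongr
    have hv0 := norm_nonneg (V u)
    have k4 : ‖V u‖ * (δ₀ * N) * (2 * η ^ 2) ≤ 1 := by
      refine le_trans ?_ k2
      calc _ ≤ ‖V u‖ * (2 * b) * (2 * u ^ 2) := by gcongr
        _ = _ := by ring
    have k5 : ‖V u‖ ≤ ε / 4 := by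
      have k6 := mul_le_mul_of_nonneg_left hN2 hv0
      have k7 := mul_le_mul_of_nonneg_left k4 hε.le
      have k8 : ε * (‖V u‖ * (δ₀ * N) * (2 * η ^ 2)) = 2 * (‖V u‖ * (δ₀ * η ^ 2 * ε * N)) := by
        ring
      linarith
    simp only [hF]
    rw [← sub_mul, norm_mul]
    calc _ ≤ 2 * (ε / 4) := by gcongr
      _ = _ := by ring
  have hη1 : η ≤ 1 / 2 := min_le_left _ _
  have hη2 : η * (4 * C) ≤ ε := (le_div_iff₀ (by positivity)).1 (min_le_right _ _)
  rw [← intervalIntegral.integral_add_adjacent_intervals (b := -η) (hFc.intervalIntegrable _ _)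
    (hFc.intervalIntegrable _ _), ← intervalIntegral.integral_add_adjacent_intervals (a := -η)
    (b := η) (hFc.intervalIntegrable _ _) (hFc.intervalIntegrable _ _)]
  have i1 := intervalIntegral.norm_integral_le_of_norm_le_const (a := -(1 / 2)) (b := -η)
    (f := F) (C := ε / 2) (fun u hu => by
      rw [Set.uIoc_of_le (by linarith)] at hu
      have : u < 0 := by linarith [hu.2]
      exact hF2 u (by rw [abs_of_neg this]; linarith [hu.1])
        (by rw [abs_of_neg this]; linarith [hu.2]))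
  have i2 := intervalIntegral.norm_integral_le_of_norm_le_const (a := -η) (b := η)
    (f := F) (C := C) (fun u hu => by
      rw [Set.uIoc_of_le (by linarith)] at hu
      exact hF1 u (abs_le.2 ⟨by linarith [hu.1], by linarith [hu.2]⟩))
  have i3 := intervalIntegral.norm_integral_le_of_norm_le_const (a := η) (b := 1 / 2)
    (f := F) (C := ε / 2) (fun u hu => by
      rw [Set.uIoc_of_le (by linarith)] at hu
      have : 0 < u := by linarith [hu.1]
      exact hF2 u (by rw [abs_of_pos this]; linarith [hu.2])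
        (by rw [abs_of_pos this]; linarith [hu.1]))
  rw [abs_of_nonneg (by linarith)] at i1 i2 i3
  refine (norm_add_le _ _).trans ((add_le_add i1 ((norm_add_le _ _).trans
    (add_le_add i2 i3))).trans ?_)
  nlinarith

end Crest.Agent.R75.B
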