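import Crest.Agent.R75.Macro1

/-! Macro lemma: the profile of a segment and the group delay on one cell. -/

set_option autoImplicit false
open Finset ComplexConjugate

namespace Crest.Agent.R75.B

lemma exists_prof {T H ω : ℝ} (t₀ : ℝ) (hT : 0 < T) (hH : 0 < H) (hω : 0 < ω) :
    ∃ (Ψ τ τ' : ℝ → ℝ) (L z K : ℝ), Prof Ψ τ τ' T L H z ∧ 0 ≤ K ∧ τ 0 = t₀ ∧ τ 1 ≤ t₀ + T + ω ∧
      (∀ x ∈ Set.Icc (0 : ℝ) 1, τ 0 ≤ τ x ∧ τ x ≤ τ 1) ∧
      ∀ x ∈ Set.Icc (0 : ℝ) 1, ∀ y ∈ Set.Icc (0 : ℝ) 1, |τ x - τ y| ≤ K * |x - y| := by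
  obtain ⟨m, hm⟩ := exists_nat_gt (H / ω)
  have hm0 : (0 : ℝ) < m := lt_trans (by positivity) hm
  have hm1 : (1 : ℝ) ≤ m := by
    have : 0 < m := by exact_mod_cast hm0
    exact_mod_cast this
  let τ' : ℝ → ℝ := fun x => T + 2 * H * (2 * x - 1) ^ (2 * m)
  let τ : ℝ → ℝ := fun x => t₀ + T * x + H / (2 * m + 1) * ((2 * x - 1) ^ (2 * m + 1) + 1)
  have hτ : ∀ x, HasDerivAt τ (τ' x) x := by
    intro x
    have h1 := ((((hasDerivAt_id x).const_mul 2).sub_const 1).pow (2 * m + 1)).add_const 1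
    have h2 := (((hasDerivAt_id x).const_mul T).const_add t₀).add (h1.const_mul (H / (2 * m + 1)))
    refine h2.congr_deriv ?_
    simp only [τ', id, Nat.add_sub_cancel]
    push_cast
    field_simp
  have hτc : Continuous τ := by fun_prop
  have hab : ∀ x ∈ Set.Icc (0 : ℝ) 1, |2 * x - 1| ≤ 1 := fun x hx =>
    abs_le.2 ⟨by linarith [hx.1], by linarith [hx.2]⟩
  have hev : ∀ x : ℝ, (2 * x - 1) ^ (2 * m) = |2 * x - 1| ^ (2 * m) := fun x =>
    ((even_two_mul m).pow_abs _).symm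
  have hlow : ∀ x, T ≤ τ' x := fun x => by
    simp only [τ', hev]
    exact le_add_of_nonneg_right (by positivity)
  have hmono : Monotone τ := monotone_of_deriv_nonneg (fun x => (hτ x).differentiableAt)
    fun x => by rw [(hτ x).deriv]; exact hT.le.trans (hlow x)
  refine ⟨fun x => ∫ s in (0 : ℝ)..x, τ s, τ, τ', 2 * H * (2 * (2 * m)), 1 / (16 * m), T + 2 * H,
    ⟨fun x => (hτc.integral_hasStrictDerivAt 0 x).hasDerivAt, hτ, by fun_prop, hT, hH,
      by positivity, ?_, fun x hx y hy => ?_, fun x _ => hlow x, fun x hx h => ?_⟩,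
    by positivity, ?_, ?_, fun x hx => ⟨hmono hx.1, hmono hx.2⟩, fun x hx y hy => ?_⟩
  · exact one_div_le_one_div_of_le (by norm_num) (by linarith)
  · have h1 := abs_pow_sub_pow_le (a := 2 * x - 1) (b := 2 * y - 1) (n := 2 * m)
    have h2 : max |2 * x - 1| |2 * y - 1| ^ (2 * m - 1) ≤ 1 :=
      pow_le_one₀ (by positivity) (max_le (hab x hx) (hab y hy))
    have h3 : |2 * x - 1 - (2 * y - 1)| = 2 * |x - y| := by
      rw [show 2 * x - 1 - (2 * y - 1) = 2 * (x - y) by ring, abs_mul, abs_two]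
    have h4 := h1.trans (mul_le_of_le_one_right (by positivity) h2)
    rw [h3] at h4
    push_cast at h4
    simp only [τ']
    rw [add_sub_add_left_eq_sub, ← mul_sub, abs_mul, abs_of_pos (by positivity : 0 < 2 * H)]
    calc _ ≤ 2 * H * (2 * |x - y| * (2 * m)) := by gcongr
      _ = _ := by ring
  · have h1 : 1 + -(4 * (1 / (16 * m))) ≤ |2 * x - 1| := by
      rcases h with h | h
      · exact le_trans (by linarith) (neg_le_abs _)
      · exact le_trans (by linarith) (le_abs_self _)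
    have h2 : (1 : ℝ) / (16 * m) ≤ 1 / 16 := one_div_le_one_div_of_le (by norm_num) (by linarith)
    have h3 := one_add_mul_le_pow (a := -(4 * (1 / (16 * m : ℝ)))) (by linarith) (2 * m)
    have h4 := pow_le_pow_left₀ (by linarith) h1 (2 * m)
    have h5 : 1 + ((2 * m : ℕ) : ℝ) * -(4 * (1 / (16 * m : ℝ))) = 1 / 2 := by
      push_cast; field_simp; ring
    simp only [τ', hev]
    nlinarith
  · simp only [τ]
    rw [mul_zero, mul_zero, zero_sub, (odd_two_mul_add_one m).neg_one_pow]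
    simp
  · simp only [τ]
    have : H / (2 * m + 1) * 2 ≤ ω := by
      rw [div_mul_eq_mul_div, div_le_iff₀ (by positivity)]
      rw [div_lt_iff₀ hω] at hm
      nlinarith
    norm_num
    linarith
  · rw [← Real.norm_eq_abs, ← Real.norm_eq_abs]
    refine (convex_Icc (0 : ℝ) 1).norm_image_sub_le_of_norm_hasDerivWithin_le
      (fun s _ => (hτ s).hasDerivWithinAt) (fun s hs => ?_) hy hx
    rw [Real.norm_of_nonneg (hT.le.trans (hlow s))]
    simp only [τ', hev]
    have := pow_le_one₀ (n := 2 * m) (abs_nonneg _) (hab s hs)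
    nlinarith

/-- clamp to `[a,b]`. -/
def cl (a b x : ℝ) : ℝ := max a (min x b)

lemma cl_mem {a b : ℝ} (h : a ≤ b) (x : ℝ) : cl a b x ∈ Set.Icc a b :=
  ⟨le_max_left _ _, max_le h (min_le_right _ _)⟩
lemma cl_eq {a b x : ℝ} (h1 : a ≤ x) (h2 : x ≤ b) : cl a b x = x := by
  rw [cl, min_eq_left h2, max_eq_right h1]
lemma cl_left {a b x : ℝ} (h1 : x ≤ a) : cl a b x = a := max_eq_left ((min_le_left _ _).trans h1)
lemma cl_right {a b x : ℝ} (h : a ≤ b) (h1 : b ≤ x) : cl a b x = b := by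
  rw [cl, min_eq_right h1, max_eq_right h]
lemma cl_lip (a b x y : ℝ) : |cl a b x - cl a b y| ≤ |x - y| := by
  unfold cl
  refine (abs_max_sub_max_le_max _ _ _ _).trans (max_le (by simp) ?_)
  exact (abs_min_sub_min_le_max _ _ _ _).trans (max_le le_rfl (by simp))

/-- the ramp on a gap. -/
noncomputable def rr (g p η x : ℝ) : ℝ := p / g * x + η * (x * (g - x))
noncomputable def RR (g p η x : ℝ) : ℝ := p / g * (x ^ 2 / 2) + η * (g * (x ^ 2 / 2) - x ^ 3 / 3)

lemma hasDerivAt_RR (g p η x : ℝ) : HasDerivAt (RR g p η) (rr g p η x) x := by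
  have h2 := (hasDerivAt_pow 2 x).div_const 2
  have h3 := (hasDerivAt_pow 3 x).div_const 3
  refine ((h2.const_mul (p / g)).add (((h2.const_mul g).sub h3).const_mul η)).congr_deriv ?_
  simp only [rr]; norm_num; left; ring

lemma hasDerivAt_rr (g p η x : ℝ) : HasDerivAt (rr g p η) (p / g + η * (g - 2 * x)) x := by
  refine (((hasDerivAt_id x).const_mul (p / g)).add
    (((hasDerivAt_id x).mul ((hasDerivAt_id x).const_sub g)).const_mul η)).congr_deriv ?_
  simp only [id]; ring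

section ramp
variable {g p η δ₀ : ℝ} (hg : 0 < g) (hδ : 0 < δ₀) (hp : δ₀ ≤ p) (hp1 : p ≤ 1)
  (hη : |η| * g ≤ δ₀ / (2 * g))
include hg hδ hp hη

lemma ramp_aux {u : ℝ} (hu : |u| ≤ g) : δ₀ / (2 * g) ≤ p / g + η * u := by
  have h1 : |η * u| ≤ δ₀ / (2 * g) := by
    rw [abs_mul]; exact le_trans (by gcongr) hη
  have h2 : δ₀ / g ≤ p / g := by gcongr
  have h3 : δ₀ / g = 2 * (δ₀ / (2 * g)) := by field_simp
  linarith [neg_abs_le (η * u)]

lemma rr_mem {x : ℝ} (hx : x ∈ Set.Icc 0 g) : 0 ≤ rr g p η x ∧ rr g p η x ≤ p := by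
  have h0 : 0 < δ₀ / (2 * g) := by positivity
  constructor
  · have := ramp_aux hg hδ hp hη (u := g - x) (abs_le.2 ⟨by linarith [hx.2], by linarith [hx.1]⟩)
    have e : rr g p η x = x * (p / g + η * (g - x)) := by rw [rr]; ring
    rw [e]
    exact mul_nonneg hx.1 (by linarith)
  · have := ramp_aux hg hδ hp hη (u := -x) (abs_le.2 ⟨by linarith [hx.2], by linarith [hx.1]⟩)
    have e : p - rr g p η x = (g - x) * (p / g + η * (-x)) := by rw [rr]; field_simp; ring
    have := mul_nonneg (sub_nonneg.2 hx.2) (h0.le.trans this)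
    linarith

include hp1 in
lemma rr_lip {x y : ℝ} (hx : x ∈ Set.Icc 0 g) (hy : y ∈ Set.Icc 0 g) :
    |rr g p η x - rr g p η y| ≤ 2 / g * |x - y| := by
  have e : rr g p η x - rr g p η y = (p / g + η * (g - x - y)) * (x - y) := by rw [rr, rr]; ring
  rw [e, abs_mul]
  gcongr
  have hu : |g - x - y| ≤ g := abs_le.2 ⟨by linarith [hx.2, hy.2], by linarith [hx.1, hy.1]⟩
  have h1 : |η * (g - x - y)| ≤ δ₀ / (2 * g) := by
    rw [abs_mul]; exact le_trans (by gcongr) hη
  have h2 : p / g ≤ 1 / g := by gcongr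
  have h3 : δ₀ / (2 * g) ≤ 1 / g := by
    rw [div_le_div_iff₀ (by positivity) hg]; nlinarith
  have h4 : 0 ≤ p / g := div_nonneg (by linarith) hg.le
  refine (abs_add_le _ _).trans ?_
  rw [abs_of_nonneg h4, show 2 / g = 1 / g + 1 / g by ring]
  linarith

lemma ramp_int (h2 : O2Stmt) {α : ℝ} (hα : α ≠ 0) (c d : ℝ) :
    ‖∫ x in (0 : ℝ)..g, ee (α * (RR g p η x + c * x + d))‖ ≤ 4 / √(|α| * (δ₀ / (2 * g))) := by
  refine h2 (fun x => α * (RR g p η x + c * x + d)) (fun x => α * (rr g p η x + c))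
    (fun x => α * (p / g + η * (g - 2 * x))) 0 g _ hg.le (by positivity) (fun x => ?_)
    (fun x => ?_) (by fun_prop) ?_
  · simpa using (((hasDerivAt_RR g p η x).add ((hasDerivAt_id x).const_mul c)).add_const
      d).const_mul α
  · exact ((hasDerivAt_rr g p η x).add_const c).const_mul α
  · have key : ∀ x ∈ Set.Icc 0 g, δ₀ / (2 * g) ≤ p / g + η * (g - 2 * x) := fun x hx =>
      ramp_aux hg hδ hp hη (abs_le.2 ⟨by linarith [hx.2], by linarith [hx.1]⟩)
    rcases lt_or_gt_of_ne hα with h | h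
    · right
      intro x hx
      rw [abs_of_neg h]
      nlinarith [key x hx]
    · left
      intro x hx
      rw [abs_of_pos h]
      nlinarith [key x hx]

end ramp

lemma exists_eta {g α δ₀ : ℝ} (hg : 0 < g) (hδ : 0 < δ₀) (hα : 12 / (g * δ₀) ≤ |α|) (p c : ℝ) :
    ∃ η : ℝ, |η| * g ≤ δ₀ / (2 * g) ∧ ee (α * RR g p η g + c) = 1 := by
  have hα0 : 0 < |α| := lt_of_lt_of_le (by positivity) hα
  have hα1 : α ≠ 0 := abs_pos.1 hα0
  set u := α * (p / g * (g ^ 2 / 2)) + c
  refine ⟨-(6 * Int.fract u / (α * g ^ 3)), ?_, ?_⟩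
  · rw [abs_neg, abs_div, abs_mul, abs_mul, abs_of_nonneg (Int.fract_nonneg u),
      abs_of_pos (by positivity : 0 < g ^ 3), div_mul_eq_mul_div,
      div_le_div_iff₀ (by positivity) (by positivity)]
    rw [div_le_iff₀ (by positivity)] at hα
    have h1 := (Int.fract_lt_one u).le
    have h2 := mul_le_mul_of_nonneg_right hα (sq_nonneg g)
    norm_num
    nlinarith [mul_le_mul_of_nonneg_right h1 (sq_nonneg g)]
  · rw [← ee_int ⌊u⌋, ← Int.self_sub_fract]
    congr 1
    simp only [RR, u]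
    field_simp
    ring

lemma prim_eq {b F f : ℝ → ℝ} (hb : Continuous b) (hf : Continuous f)
    (hF : ∀ x, HasDerivAt F (f x) x) {a x : ℝ} (h : ∀ s ∈ Set.uIcc a x, b s = f s) :
    ∫ s in (0 : ℝ)..x, b s = (∫ s in (0 : ℝ)..a, b s) + (F x - F a) := by
  rw [← intervalIntegral.integral_add_adjacent_intervals (b := a) (hb.intervalIntegrable _ _)
    (hb.intervalIntegrable _ _), ← intervalIntegral.integral_eq_sub_of_hasDerivAt
    (fun y _ => hF y) (hf.intervalIntegrable _ _), intervalIntegral.integral_congr h]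

theorem cell (h2 : O2Stmt) {Ψ τ : ℝ → ℝ} {K g δ₀ tm α : ℝ} (hΨ : ∀ x, HasDerivAt Ψ (τ x) x)
    (hτc : Continuous τ) (hK : 0 ≤ K)
    (hm : ∀ x ∈ Set.Icc (0 : ℝ) 1, τ 0 ≤ τ x ∧ τ x ≤ τ 1)
    (hl : ∀ x ∈ Set.Icc (0 : ℝ) 1, ∀ y ∈ Set.Icc (0 : ℝ) 1, |τ x - τ y| ≤ K * |x - y|)
    (hg : 0 < g) (hg1 : g ≤ 1 / 4) (hδ : 0 < δ₀) (hp : δ₀ ≤ τ 0 - tm) (hp1 : τ 1 - tm ≤ 1)
    (hα : 12 / (g * δ₀) ≤ |α|) (ω : ℝ) :
    ∃ B b : ℝ → ℝ, (∀ x, HasDerivAt B (b x) x) ∧
      (∀ x y, |b x - b y| ≤ (4 / g + 2 * K) * |x - y|) ∧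
      (∀ x, 0 ≤ b x ∧ tm + b x ≤ τ 1) ∧
      (∀ x, x ∉ Set.Ioo (0 : ℝ) 1 → b x = 0 ∧ ee (α * B x) = 1) ∧
      ∀ t : ℝ, ‖(∫ x in (0 : ℝ)..1, ee (α * (B x - (t - tm) * x))) -
        ((1 - 2 * g : ℝ) : ℂ) * ee (ω - α * t * g) *
          ∫ x in (0 : ℝ)..1, ee (α * (1 - 2 * g) * (Ψ x - t * x))‖ ≤
        8 / √(|α| * (δ₀ / (2 * g))) := by
  have hα1 : α ≠ 0 := abs_pos.1 (lt_of_lt_of_le (by positivity) hα)
  have h01 : τ 0 ≤ τ 1 := (hm 1 ⟨zero_le_one, le_rfl⟩).1
  have hG : 0 < 1 - 2 * g := by linarith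
  have hgg : g ≤ 1 - g := by linarith
  set p := τ 0 - tm with hpd
  set q := τ 1 - tm with hqd
  have hq : δ₀ ≤ q := by linarith
  have hp1' : p ≤ 1 := by linarith
  obtain ⟨η, e1, e2⟩ := exists_eta hg hδ hα p (α * (tm * g - (1 - 2 * g) * Ψ 0) - ω)
  obtain ⟨η', e3, e4⟩ := exists_eta hg hδ hα q
    (α * (RR g p η g + ((1 - 2 * g) * (Ψ 1 - Ψ 0) - tm * (1 - 2 * g))))
  let b : ℝ → ℝ := fun x => rr g p η (cl 0 g x) + (τ ((cl g (1 - g) x - g) / (1 - 2 * g)) - τ 0) +
    (rr g q η' (cl 0 g (1 - x)) - q)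
  have hmem : ∀ x, (cl g (1 - g) x - g) / (1 - 2 * g) ∈ Set.Icc (0 : ℝ) 1 := fun x =>
    ⟨div_nonneg (by linarith [(cl_mem hgg x).1]) hG.le,
      (div_le_one hG).2 (by linarith [(cl_mem hgg x).2])⟩
  have hlip : ∀ x y, |b x - b y| ≤ (4 / g + 2 * K) * |x - y| := by
    intro x y
    have a1 := (rr_lip hg hδ hp hp1' e1 (cl_mem hg.le x) (cl_mem hg.le y)).trans
      (mul_le_mul_of_nonneg_left (cl_lip 0 g x y) (by positivity))
    have a2 := (rr_lip hg hδ hq hp1 e3 (cl_mem hg.le (1 - x)) (cl_mem hg.le (1 - y))).trans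
      (mul_le_mul_of_nonneg_left (cl_lip 0 g _ _) (by positivity))
    rw [sub_sub_sub_cancel_left, abs_sub_comm y x] at a2
    have a3 := hl _ (hmem x) _ (hmem y)
    have a4 : |(cl g (1 - g) x - g) / (1 - 2 * g) - (cl g (1 - g) y - g) / (1 - 2 * g)| ≤
        2 * |x - y| := by
      rw [← sub_div, sub_sub_sub_cancel_right, abs_div, abs_of_pos hG, div_le_iff₀ hG]
      nlinarith [cl_lip g (1 - g) x y, abs_nonneg (x - y)]
    have a5 := a3.trans (mul_le_mul_of_nonneg_left a4 hK)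
    have e : (4 / g + 2 * K) * |x - y| = 2 / g * |x - y| + K * (2 * |x - y|) + 2 / g * |x - y| := by
      ring
    rw [e, abs_le] at *
    simp only [b]
    constructor <;> linarith [a1.1, a1.2, a2.1, a2.2, a5.1, a5.2]
  have hbc := continuous_of_lip hlip
  have rg : ∀ p η : ℝ, rr g p η g = p := fun p η => by rw [rr]; field_simp; ring
  have r0 : ∀ p η : ℝ, rr g p η 0 = 0 := fun p η => by simp [rr]
  have b1 : ∀ x ≤ g, b x = rr g p η (cl 0 g x) := by
    intro x hx
    simp only [b]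
    rw [cl_left hx, cl_right hg.le (by linarith : g ≤ 1 - x), rg]
    simp
  have b2 : ∀ x, g ≤ x → x ≤ 1 - g → b x = τ ((x - g) / (1 - 2 * g)) - tm := by
    intro x hx hx'
    simp only [b]
    rw [cl_eq hx hx', cl_right hg.le hx, cl_right hg.le (by linarith : g ≤ 1 - x), rg, rg]
    ring
  have b3 : ∀ x, 1 - g ≤ x → b x = rr g q η' (cl 0 g (1 - x)) := by
    intro x hx
    simp only [b]
    rw [cl_right hgg hx, cl_right hg.le (by linarith : g ≤ x), rg,
      show 1 - g - g = 1 - 2 * g by ring, div_self hG.ne']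
    ring
  have hrc : ∀ p η : ℝ, Continuous (rr g p η) := fun p η => by unfold rr; fun_prop
  have B1 : ∀ x, 0 ≤ x → x ≤ g → ∫ s in (0 : ℝ)..x, b s = RR g p η x := by
    intro x hx hx'
    rw [prim_eq hbc (hrc p η) (hasDerivAt_RR g p η) (a := 0)]
    · simp [RR]
    · intro s hs
      rw [Set.uIcc_of_le hx] at hs
      rw [b1 s (hs.2.trans hx'), cl_eq hs.1 (hs.2.trans hx')]
  have B2 : ∀ x, g ≤ x → x ≤ 1 - g → ∫ s in (0 : ℝ)..x, b s = RR g p η g +
      ((1 - 2 * g) * (Ψ ((x - g) / (1 - 2 * g)) - Ψ 0) - tm * (x - g)) := by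
    intro x hx hx'
    rw [prim_eq hbc (f := fun s => τ ((s - g) / (1 - 2 * g)) - tm)
      (F := fun s => (1 - 2 * g) * Ψ ((s - g) / (1 - 2 * g)) - tm * s) (by fun_prop) ?_ (a := g),
      B1 g hg.le le_rfl]
    · simp only [sub_self, zero_div]; ring
    · intro s hs
      rw [Set.uIcc_of_le hx] at hs
      exact b2 s hs.1 (hs.2.trans hx')
    · intro s
      have := (((hΨ ((s - g) / (1 - 2 * g))).comp s
        (((hasDerivAt_id s).sub_const g).div_const (1 - 2 * g))).const_mul (1 - 2 * g)).sub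
        ((hasDerivAt_id s).const_mul tm)
      refine this.congr_deriv ?_
      field_simp
  set c1 := RR g p η g + ((1 - 2 * g) * (Ψ 1 - Ψ 0) - tm * (1 - 2 * g)) with hc1
  have B3 : ∀ x, 1 - g ≤ x → x ≤ 1 → ∫ s in (0 : ℝ)..x, b s =
      c1 + RR g q η' g - RR g q η' (1 - x) := by
    intro x hx hx'
    rw [prim_eq hbc (f := fun s => rr g q η' (1 - s)) (F := fun s => -RR g q η' (1 - s))
      ((hrc _ _).comp (by fun_prop)) ?_ (a := 1 - g), B2 _ hgg le_rfl,
      show 1 - g - g = 1 - 2 * g by ring, div_self hG.ne']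
    · simp only [sub_sub_cancel]; ring
    · intro s hs
      rw [Set.uIcc_of_le hx] at hs
      rw [b3 s hs.1, cl_eq (by linarith [hs.2]) (by linarith [hs.1])]
    · intro s
      exact ((hasDerivAt_RR g q η' (1 - s)).comp s
        ((hasDerivAt_id s).const_sub 1)).neg.congr_deriv (by ring)
  have bl : ∀ x ≤ 0, b x = 0 := fun x hx => by rw [b1 x (by linarith), cl_left hx, r0]
  have br : ∀ x, 1 ≤ x → b x = 0 := fun x hx => by
    rw [b3 x (by linarith), cl_left (by linarith), r0]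
  refine ⟨fun x => ∫ s in (0 : ℝ)..x, b s, b,
    fun x => (hbc.integral_hasStrictDerivAt 0 x).hasDerivAt, hlip, fun x => ?_, fun x hx => ?_,
    fun t => ?_⟩
  · rcases le_total x g with h | h
    · have := rr_mem hg hδ hp e1 (cl_mem hg.le x)
      rw [b1 x h]
      exact ⟨this.1, by linarith [this.2]⟩
    rcases le_total x (1 - g) with h' | h'
    · have := hm _ (hmem x)
      rw [cl_eq h h'] at this
      rw [b2 x h h']
      exact ⟨by linarith [this.1], by linarith [this.2]⟩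
    · have := rr_mem hg hδ hq e3 (cl_mem hg.le (1 - x))
      rw [b3 x h']
      exact ⟨this.1, by linarith [this.2]⟩
  · rw [Set.mem_Ioo, not_and_or, not_lt, not_lt] at hx
    rcases hx with hx | hx
    · refine ⟨bl x hx, ?_⟩
      simp only
      rw [prim_eq hbc continuous_const (fun s => hasDerivAt_const s (0 : ℝ)) (a := 0)]
      · simp
      · intro s hs
        rw [Set.uIcc_of_ge hx] at hs
        exact bl s hs.2
    · refine ⟨br x hx, ?_⟩
      simp only
      rw [prim_eq hbc continuous_const (fun s => hasDerivAt_const s (0 : ℝ)) (a := 1),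
        B3 1 (by linarith) le_rfl, ← e4]
      · congr 1
        simp [RR]
        ring
      · intro s hs
        rw [Set.uIcc_of_le hx] at hs
        exact br s hs.1
  · have hc : Continuous fun x => ee (α * ((∫ s in (0 : ℝ)..x, b s) - (t - tm) * x)) := by
      have := intervalIntegral.continuous_primitive (μ := MeasureTheory.volume)
        (fun a c => hbc.intervalIntegrable a c) 0
      fun_prop
    simp only
    rw [← intervalIntegral.integral_add_adjacent_intervals (b := g) (hc.intervalIntegrable _ _)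
      (hc.intervalIntegrable _ _), ← intervalIntegral.integral_add_adjacent_intervals (a := g)
      (b := 1 - g) (hc.intervalIntegrable _ _) (hc.intervalIntegrable _ _)]
    have i1 : ∫ x in (0 : ℝ)..g, ee (α * ((∫ s in (0 : ℝ)..x, b s) - (t - tm) * x)) =
        ∫ x in (0 : ℝ)..g, ee (α * (RR g p η x + -(t - tm) * x + 0)) := by
      refine intervalIntegral.integral_congr fun x hx => ?_
      rw [Set.uIcc_of_le hg.le] at hx
      simp only [B1 x hx.1 hx.2]
      congr 1; ring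
    have i3 : ∫ x in (1 - g)..1, ee (α * ((∫ s in (0 : ℝ)..x, b s) - (t - tm) * x)) =
        ∫ x in (0 : ℝ)..g, ee (-α * (RR g q η' x + -(t - tm) * x +
          (t - tm - (c1 + RR g q η' g)))) := by
      have := intervalIntegral.integral_comp_sub_left (a := 0) (b := g)
        (fun x => ee (α * ((∫ s in (0 : ℝ)..x, b s) - (t - tm) * x))) 1
      rw [sub_zero] at this
      rw [← this]
      refine intervalIntegral.integral_congr fun x hx => ?_
      rw [Set.uIcc_of_le hg.le] at hx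
      simp only [B3 (1 - x) (by linarith [hx.2]) (by linarith [hx.1]), sub_sub_cancel]
      congr 1; ring
    have i2 : ∫ x in g..(1 - g), ee (α * ((∫ s in (0 : ℝ)..x, b s) - (t - tm) * x)) =
        ((1 - 2 * g : ℝ) : ℂ) * ee (ω - α * t * g) *
          ∫ x in (0 : ℝ)..1, ee (α * (1 - 2 * g) * (Ψ x - t * x)) := by
      have := intervalIntegral.integral_comp_add_mul (a := 0) (b := 1)
        (fun x => ee (α * ((∫ s in (0 : ℝ)..x, b s) - (t - tm) * x))) hG.ne' g
      rw [mul_zero, add_zero, mul_one, show g + (1 - 2 * g) = 1 - g by ring,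
        eq_inv_smul_iff₀ hG.ne'] at this
      rw [← this, Complex.real_smul, mul_assoc, ← intervalIntegral.integral_const_mul (ee _)]
      congr 1
      refine intervalIntegral.integral_congr fun x hx => ?_
      rw [Set.uIcc_of_le zero_le_one] at hx
      rw [B2 _ (by nlinarith [hx.1]) (by nlinarith [hx.2]), add_sub_cancel_left,
        mul_div_cancel_left₀ _ hG.ne', ← ee_add, ← mul_one (ee (ω - _ + _)), ← e2, ← ee_add]
      congr 1; ring
    rw [i1, i2, i3]
    have j1 := ramp_int hg hδ hp e1 h2 hα1 (-(t - tm)) 0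
    have j3 := ramp_int hg hδ hq e3 h2 (neg_ne_zero.2 hα1) (-(t - tm))
      (t - tm - (c1 + RR g q η' g))
    rw [abs_neg] at j3
    rw [show ∀ a b c : ℂ, a + (b + c) - b = a + c by intros; ring]
    refine (norm_add_le _ _).trans ((add_le_add j1 j3).trans (le_of_eq (by ring)))

end Crest.Agent.R75.B
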