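import Crest.Agent.R75.Macro

/-! The micro structure: a flat line system. -/

set_option autoImplicit false
open Finset ComplexConjugate

namespace Crest.Agent.R75.E
open B

lemma prod_err {ι : Type} (s : Finset ι) (S u : ι → ℂ) {γ : ℝ} (hγ : 0 ≤ γ) (hγ1 : γ ≤ 1)
    (h1 : ∀ i, ‖S i - u i‖ ≤ γ) (h2 : ∀ i, ‖u i‖ ≤ 2) :
    ‖∏ i ∈ s, S i - ∏ i ∈ s, u i‖ ≤ s.card * 3 ^ s.card * γ := by
  classical
  induction s using Finset.induction_on with
  | empty => simp
  | insert a s ha ih =>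
    rw [prod_insert ha, prod_insert ha, card_insert_of_notMem ha]
    have e : S a * ∏ i ∈ s, S i - u a * ∏ i ∈ s, u i =
        S a * (∏ i ∈ s, S i - ∏ i ∈ s, u i) + (S a - u a) * ∏ i ∈ s, u i := by ring
    have a1 : ‖S a‖ ≤ 3 := by
      have := norm_add_le (S a - u a) (u a)
      rw [sub_add_cancel] at this
      linarith [h1 a, h2 a]
    have a2 : ‖∏ i ∈ s, u i‖ ≤ 3 ^ s.card := by
      rw [norm_prod, ← prod_const]
      exact prod_le_prod (fun _ _ => norm_nonneg _) fun i _ => by linarith [h2 i]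
    rw [e]
    refine (norm_add_le _ _).trans ?_
    rw [norm_mul, norm_mul]
    have a3 := mul_le_mul a1 ih (norm_nonneg _) (by norm_num)
    have a4 := mul_le_mul (h1 a) a2 (norm_nonneg _) hγ
    have a5 : (0 : ℝ) ≤ 3 ^ s.card * γ := by positivity
    push_cast
    rw [pow_succ]
    nlinarith

lemma exists_gap {P : Type} [Fintype P] (r : P → ℚ) :
    ∃ c : ℝ, 0 < c ∧ ∀ p, (∀ w : ℤ, r p ≠ w) → ∀ w : ℤ, c ≤ |(r p : ℝ) - w| := by
  have : ∀ p, ∃ c : ℝ, 0 < c ∧ ((∀ w : ℤ, r p ≠ w) → ∀ w : ℤ, c ≤ |(r p : ℝ) - w|) := by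
    intro p
    by_cases h : ∀ w : ℤ, r p ≠ w
    · refine ⟨|(r p : ℝ) - round (r p : ℝ)|, abs_pos.2 (sub_ne_zero.2 ?_),
        fun _ w => round_le _ w⟩
      exact_mod_cast h _
    · exact ⟨1, one_pos, fun h' => absurd h' h⟩
  choose c hc1 hc2 using this
  refine ⟨(∑ p, (c p)⁻¹ + 1)⁻¹, ?_, fun p hp w => le_trans ?_ (hc2 p hp w)⟩
  · have : 0 ≤ ∑ p, (c p)⁻¹ := sum_nonneg fun p _ => (inv_pos.2 (hc1 p)).le
    positivity
  · have := single_le_sum (f := fun p => (c p)⁻¹) (fun p _ => (inv_pos.2 (hc1 p)).le) (mem_univ p)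
    exact inv_le_of_inv_le₀ (hc1 p) (by linarith)

lemma inv_sqrt_sub {ρ γ : ℝ} (h : |ρ - 1| ≤ γ) (hγ : γ ≤ 1 / 2) : |(√ρ)⁻¹ - 1| ≤ 2 * γ := by
  rw [abs_le] at h
  have h0 : 0 < ρ := by linarith
  have h1 := Real.sq_sqrt h0.le
  have h2 := Real.sqrt_pos.2 h0
  have h3 : 1 / 2 ≤ √ρ := Real.le_sqrt_of_sq_le (by linarith)
  rw [show (√ρ)⁻¹ - 1 = (1 - √ρ) / √ρ by field_simp, abs_div, abs_of_pos h2, div_le_iff₀ h2, abs_le]
  constructor <;> nlinarith

lemma im_ee (x : ℝ) : (ee x).im = Real.sin (2 * Real.pi * x) := by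
  rw [ee_eq, mul_comm, Complex.exp_ofReal_mul_I_im]

/-- the chirp sums, uniformly in the harmonic. -/
lemma chirp (hd : SPdStmt) {T γ : ℝ} (hT : 0 < T) (hT1 : T < 1) (hγ : 0 < γ) :
    ∃ (Ψ w Φ : ℝ → ℝ) (B : ℕ), 1 ≤ B ∧ (∀ t, 0 ≤ w t ∧ w t ^ 2 * T ≤ 1) ∧
      ∀ n : ℕ, 1 ≤ n → ∀ σ : ℝ, 0 ≤ σ → σ < 1 → ∀ t : ℝ, 0 ≤ t → t ≤ 1 →
        ‖∑ x : Fin (n * B), (((√(n * B : ℕ))⁻¹ : ℝ) : ℂ) *
          ee (1 / 8 - (n * B : ℕ) * Ψ ((x + σ) / (n * B : ℕ))) * ee ((x + σ) * t) -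
          w t * ee (n * (B * Φ t))‖ ≤ γ := by
  classical
  obtain ⟨Ψ, τ, τ', L, z, K, hP, -, h0, h1, hm, -⟩ := exists_prof (T := T) (H := (40 / γ) ^ 2)
    (ω := (1 - T) / 3) ((1 - T) / 3) hT (by positivity) (by linarith)
  obtain ⟨β₀, hβ⟩ := hd Ψ τ τ' T L _ z ((1 - T) / 3) hP (by linarith)
    (fun x hx => ⟨by linarith [(hm x hx).1], by linarith [(hm x hx).2]⟩) (γ / 2) (half_pos hγ)
  have hex : ∀ t : ℝ, ∃ x₀ : ℝ, (∃ x ∈ Set.Icc z (1 - z), τ x = t) →
      x₀ ∈ Set.Icc z (1 - z) ∧ τ x₀ = t := by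
    intro t
    by_cases h : ∃ x ∈ Set.Icc z (1 - z), τ x = t
    · exact ⟨h.choose, fun _ => h.choose_spec⟩
    · exact ⟨0, fun h' => absurd h' h⟩
  choose x₀ hx₀ using hex
  refine ⟨Ψ, fun t => if ∃ x ∈ Set.Icc z (1 - z), τ x = t then (√(τ' (x₀ t)))⁻¹ else 0,
    fun t => -(Ψ (x₀ t) - t * x₀ t), max β₀ 1, le_max_right _ _, fun t => ?_,
    fun n hn σ s0 s1 t t0 t1 => ?_⟩
  · simp only
    split_ifs with h
    · obtain ⟨a1, -⟩ := hx₀ t h
      have a2 := hP.lower (x₀ t) ⟨hP.zpos.le.trans a1.1, a1.2.trans (by linarith [hP.zpos])⟩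
      refine ⟨by positivity, ?_⟩
      rw [inv_pow, Real.sq_sqrt (hT.le.trans a2), inv_mul_le_iff₀ (hT.trans_le a2), mul_one]
      exact a2
    · simp
  set β := n * max β₀ 1 with hβd
  have hβ1 : max β₀ 1 ≤ β := Nat.le_mul_of_pos_left _ hn
  have hβ2 : (0 : ℝ) < β := by exact_mod_cast (le_max_right _ _).trans hβ1
  have key := hβ β ((le_max_left _ _).trans hβ1) σ s0 s1 t t0 t1
  have e : ∑ x : Fin β, (((√(β : ℕ))⁻¹ : ℝ) : ℂ) * ee (1 / 8 - (β : ℕ) * Ψ ((x + σ) / (β : ℕ))) *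
      ee ((x + σ) * t) = ee (1 / 8) * conj ((((√β)⁻¹ : ℝ) : ℂ) *
        ∑ j ∈ range β, ee (β * (Ψ ((j + σ) / β) - t * ((j + σ) / β)))) := by
    rw [map_mul, Complex.conj_ofReal, map_sum, Finset.mul_sum, Finset.mul_sum,
      ← Fin.sum_univ_eq_sum_range (fun j => ee (1 / 8) * ((((√β)⁻¹ : ℝ) : ℂ) *
        conj (ee (β * (Ψ ((j + σ) / β) - t * ((j + σ) / β))))))]
    refine Finset.sum_congr rfl fun x _ => ?_
    rw [← ee_neg, mul_assoc, ← ee_add, mul_left_comm, ← ee_add]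
    congr 2
    field_simp
    ring
  rw [e]
  simp only
  split_ifs with h
  · obtain ⟨a1, a2⟩ := hx₀ t h
    have a3 := key.1 _ a1 a2
    have a4 : ∀ Z : ℂ, ‖Z‖ = ‖ee (1 / 8) * conj Z‖ := fun Z => by
      rw [norm_mul, norm_ee, one_mul, Complex.norm_conj]
    rw [Real.sign_of_pos hβ2, a4, map_sub, mul_sub] at a3
    refine le_trans (le_of_eq ?_) (a3.trans (by linarith))
    congr 2
    rw [map_mul, Complex.conj_ofReal, ← ee_neg, mul_left_comm (ee _), ← ee_add, hβd]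
    congr 2
    push_cast
    ring
  · have a3 := key.2 fun x hx hx' => h ⟨x, hx, hx'⟩
    rw [Real.sqrt_sq (by positivity)] at a3
    rw [Complex.ofReal_zero, zero_mul, sub_zero, norm_mul, norm_ee, one_mul, Complex.norm_conj]
    refine a3.trans (le_of_eq ?_)
    field_simp
    norm_num

end Crest.Agent.R75.E

namespace Crest.Agent.R75
open B E

set_option maxHeartbeats 1600000 in
theorem micro_of (hd : SPdStmt) (hw : WaveStmt) (hj : JitStmt) : MicroStmt := by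
  intro ε hε
  classical
  set e := min ε 1 / 10 with he
  have he0 : 0 < e := by positivity
  have he1 : e ≤ 1 / 10 := by linarith [min_le_right ε 1]
  have he2 : 10 * e ≤ ε := by linarith [min_le_left ε 1]
  clear_value e
  obtain ⟨η, a, K, hη, hη1, ha, ha2, hK, hW1, hW2⟩ := hw e he0
  set γ := e / (20 * (K + 1)) with hγd
  have hγ : 0 < γ := by positivity
  have hγ1 : γ * (20 * (K + 1)) = e := div_mul_cancel₀ _ (by positivity)
  have hγ2 : γ ≤ e / 20 := by
    have : (0 : ℝ) ≤ γ * K := by positivity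
    linarith
  clear_value γ
  obtain ⟨d, J, _, nn, ζ, cf, ρ, s₀, Θ, hd1, hs₀, hρ, hnn, hΘ, hcf, hen, hz1, hz2⟩ :=
    hj K η γ hK hη hη1 hγ
  have hd0 : (1 : ℝ) ≤ d := by exact_mod_cast hd1
  have hn1 : ∀ j, 1 ≤ nn j := fun j => (hnn j).1.pos
  have hρ0 : ∀ n, 1 / 2 ≤ ρ n ∧ ρ n ≤ 1 + γ := fun n => by
    have := abs_le.1 (hρ n); constructor <;> linarith
  set C := ∑ j, ‖cf j‖ with hC
  have hC0 : 0 ≤ C := sum_nonneg fun _ _ => norm_nonneg _
  set γ₂ := min 1 (γ / ((C + 1) * (d * 3 ^ d))) with hγ₂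
  have hT1 : e / (2 * d) ≤ 1 / 2 := by
    rw [div_le_div_iff₀ (by positivity) (by positivity)]; nlinarith
  obtain ⟨Ψ, w, Φ, B, hB, hw1, hS⟩ := chirp hd (T := 1 - e / (2 * d)) (γ := γ₂) (by linarith)
    (sub_lt_self _ (by positivity)) (by positivity)
  have hB0 : (1 : ℝ) ≤ B := by exact_mod_cast hB
  set sc := (1 + 2 * e)⁻¹ with hsc
  have hsc0 : 0 < sc := by positivity
  let α : ℕ → ℝ := fun n => a * (n : ℝ) ^ (-(1 + η))
  have hα : ∀ n : ℕ, 1 ≤ n → 0 ≤ α n ∧ α n ≤ 2 := fun n hn => by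
    have h1 : (n : ℝ) ^ (-(1 + η)) ≤ 1 :=
      Real.rpow_le_one_of_one_le_of_nonpos (by exact_mod_cast hn) (by linarith)
    have h2 : 0 ≤ (n : ℝ) ^ (-(1 + η)) := by positivity
    simp only [α]
    constructor <;> nlinarith
  have hkey : ∀ j, α (nn j) ^ 2 * ‖cf j‖ ^ 2 = ρ (nn j) * (a ^ 2 * s₀ * (nn j : ℝ) ^ (d + 1)) := by
    intro j
    have h0 : (0 : ℝ) < nn j := by exact_mod_cast hn1 j
    have : ((nn j : ℝ) ^ (-(1 + η))) ^ 2 * (nn j : ℝ) ^ ((d : ℝ) + 3 + 2 * η) =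
        (nn j : ℝ) ^ (d + 1) := by
      rw [← Real.rpow_natCast, ← Real.rpow_mul h0.le, ← Real.rpow_add h0, ← Real.rpow_natCast]
      congr 1; push_cast; ring
    simp only [α]
    rw [hcf, ← this]; ring
  have hmaps : ∀ j ∈ (univ : Finset J), nn j ∈ (range (K + 1)).filter Odd := fun j _ =>
    mem_filter.2 ⟨mem_range.2 (Nat.lt_succ_of_le (hnn j).2), (hnn j).1⟩
  obtain ⟨c₁, hc₁, hg₁⟩ := exists_gap (P := J × J × Fin d) fun p => ζ p.1 p.2.2 - ζ p.2.1 p.2.2
  obtain ⟨c₂, hc₂, hg₂⟩ := exists_gap (P := J × J × Fin d)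
    fun p => nn p.1 * ζ p.2.1 p.2.2 - nn p.2.1 * ζ p.1 p.2.2
  refine ⟨K, d, Σ j : J, (Fin d → Fin (nn j * B)), inferInstance, fun l => nn l.1,
    sc ^ 2 * a ^ 2 * s₀ / (4 * B ^ d), hd1, by positivity, fun l => ⟨hn1 _, (hnn _).2⟩, ?_,
    ⌈(K * (K * B) : ℝ) * (1 + c₁⁻¹ + c₂⁻¹)⌉₊ + 1, fun M hM hMp => ?_⟩
  · -- energy
    have a1 : 2 * (sc ^ 2 * a ^ 2 * s₀ / (4 * B ^ d)) *
        ∑ l : Σ j : J, (Fin d → Fin (nn j * B)), (nn l.1 : ℝ) =
        sc ^ 2 * ∑ j, a ^ 2 * s₀ * (nn j : ℝ) ^ (d + 1) / 2 := by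
      rw [Fintype.sum_sigma, Finset.mul_sum, Finset.mul_sum]
      refine Finset.sum_congr rfl fun j _ => ?_
      simp only [sum_const, card_univ, Fintype.card_pi, Fintype.card_fin, prod_const, nsmul_eq_mul]
      push_cast
      rw [mul_pow]
      field_simp
      ring
    have a2 : (1 - e) * (1 - γ) ≤ ∑ j, α (nn j) ^ 2 * ‖cf j‖ ^ 2 / 2 := by
      rw [← Finset.sum_fiberwise_of_maps_to hmaps]
      refine (mul_le_mul_of_nonneg_right hW2 (by linarith)).trans ?_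
      rw [Finset.sum_mul]
      refine Finset.sum_le_sum fun n hn => ?_
      obtain ⟨b1, b2⟩ := mem_filter.1 hn
      refine (mul_le_mul_of_nonneg_left (hen n b2 (Nat.lt_succ_iff.1 (mem_range.1 b1)))
        (by positivity)).trans (le_of_eq ?_)
      rw [Finset.mul_sum]
      refine Finset.sum_congr rfl fun j hj => ?_
      rw [(mem_filter.1 hj).2]
      simp only [α]; ring
    have a3 : ∑ j, α (nn j) ^ 2 * ‖cf j‖ ^ 2 / 2 ≤
        (1 + γ) * ∑ j, a ^ 2 * s₀ * (nn j : ℝ) ^ (d + 1) / 2 := by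
      rw [Finset.mul_sum]
      refine Finset.sum_le_sum fun j _ => ?_
      rw [hkey, mul_div_assoc]
      exact mul_le_mul_of_nonneg_right (hρ0 _).2 (by positivity)
    rw [a1]
    generalize ∑ j, a ^ 2 * s₀ * (nn j : ℝ) ^ (d + 1) / 2 = X at a3
    have a4 : 1 - 2 * e ≤ X := by
      refine le_of_mul_le_mul_left ?_ (show 0 < 1 + γ by linarith)
      nlinarith
    have a5 : 1 - 2 * e ≤ sc := by
      rw [hsc, ← one_div, le_div_iff₀ (by positivity)]; nlinarith
    have a6 : (1 - 2 * e) ^ 2 * (1 - 2 * e) ≤ sc ^ 2 * X := by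
      gcongr <;> linarith
    nlinarith [mul_nonneg (sq_nonneg e) (show 0 ≤ 12 - 8 * e by linarith)]
  have hM1 : (K * (K * B) : ℝ) * (1 + c₁⁻¹ + c₂⁻¹) < M :=
    (Nat.le_ceil _).trans_lt (by exact_mod_cast hM)
  have hM0 : (0 : ℝ) < M := by exact_mod_cast hMp.pos
  let σ : J → Fin d → ℝ := fun j i => (⌈(ζ j i : ℝ) * M⌉ : ℝ) - ζ j i * M
  have hσ0 : ∀ j i, 0 ≤ σ j i := fun j i => sub_nonneg.2 (Int.le_ceil _)
  have hσ1 : ∀ j i, σ j i < 1 := fun j i => by
    simp only [σ]; linarith [Int.ceil_lt_add_one ((ζ j i : ℝ) * M)]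
  let cc : (j : J) → Fin d → Fin (nn j * B) → ℂ := fun j i x =>
    (((√(nn j * B : ℕ))⁻¹ : ℝ) : ℂ) *
      ee (1 / 8 - (nn j * B : ℕ) * Ψ ((x + σ j i) / (nn j * B : ℕ)))
  refine ⟨fun l i => ⌈(ζ l.1 i : ℝ) * M⌉ + (l.2 i : ℕ),
    fun l => ((sc * α (nn l.1) * (√(ρ (nn l.1)))⁻¹ / 2 : ℝ) : ℂ) * (-Complex.I) * cf l.1 *
      ∏ i, cc l.1 i (l.2 i), ?_, ?_, ?_⟩
  · rintro ⟨j, x⟩
    have h0 : (0 : ℝ) < nn j := by exact_mod_cast hn1 j
    have h1 : ∀ i, ‖cc j i (x i)‖ ^ 2 = ((nn j : ℝ) * B)⁻¹ := fun i => by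
      simp only [cc, norm_mul, norm_ee, mul_one, Complex.norm_real, Real.norm_eq_abs, sq_abs]
      rw [inv_pow, Real.sq_sqrt (by positivity)]
      push_cast; rfl
    have h2 := (hρ0 (nn j)).1
    simp only [norm_mul, mul_pow, norm_prod, ← prod_pow, h1, norm_neg, Complex.norm_I,
      Complex.norm_real, Real.norm_eq_abs, sq_abs, prod_const, card_univ, Fintype.card_fin]
    rw [div_pow, mul_pow, mul_pow, inv_pow (√_), Real.sq_sqrt (by linarith)]
    have h3 := hkey j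
    have h4 : ρ (nn j) ≠ 0 := by linarith
    calc _ = sc ^ 2 * (ρ (nn j))⁻¹ / 4 * (α (nn j) ^ 2 * ‖cf j‖ ^ 2) * ((nn j : ℝ) * B)⁻¹ ^ d := by
          ring
      _ = _ := by
          rw [h3, inv_pow ((nn j : ℝ) * B), mul_pow]
          field_simp
          ring
  · intro k hk φ
    have ht0 : ∀ i, (0 : ℝ) ≤ k i / M := fun i => by positivity
    have ht1 : ∀ i, (k i : ℝ) / M ≤ 1 := fun i =>
      (div_le_one hM0).2 (by exact_mod_cast (hk i).le)
    set W := ∏ i, w (k i / M) with hWd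
    have hW0 : 0 ≤ W := prod_nonneg fun i _ => (hw1 _).1
    have hW3 : W ≤ 1 + e := by
      have b1 : W ^ 2 * (1 - e / (2 * d)) ^ d ≤ 1 := by
        rw [hWd, ← prod_pow, ← Fin.prod_const d (1 - e / (2 * d)), ← prod_mul_distrib]
        exact prod_le_one (fun i _ => mul_nonneg (sq_nonneg _) (by linarith)) fun i _ => (hw1 _).2
      have b2 := one_add_mul_le_pow (a := -(e / (2 * d))) (by linarith) d
      rw [show 1 + (d : ℝ) * -(e / (2 * d)) = 1 - e / 2 by field_simp; ring,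
        ← sub_eq_add_neg] at b2
      refine abs_le_of_sq_le_sq' ?_ (by positivity) |>.2
      have b3 := (mul_le_mul_of_nonneg_left b2 (sq_nonneg W)).trans b1
      refine le_of_mul_le_mul_right (b3.trans ?_) (show 0 < 1 - e / 2 by linarith)
      nlinarith [mul_nonneg (sq_nonneg e) (show 0 ≤ 1 - e by linarith),
        mul_nonneg he0.le (show 0 ≤ 1 - e by linarith)]
    let S : J → Fin d → ℂ := fun j i => ∑ x, cc j i x * ee ((x + σ j i) * (k i / M))
    let Z : ℕ → ℂ := fun n => ∑ j ∈ univ.filter (fun j => nn j = n),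
      cf j * ee (∑ i, (ζ j i : ℝ) * ((k i : ℤ) : ℝ)) * ∏ i, S j i
    set ψ := φ + (B * ∑ i, Φ (k i / M) + Θ fun i => k i) with hψ
    have hsum : ∑ l : Σ j : J, (Fin d → Fin (nn j * B)),
        2 * (((sc * α (nn l.1) * (√(ρ (nn l.1)))⁻¹ / 2 : ℝ) : ℂ) * (-Complex.I) * cf l.1 *
          (∏ i, cc l.1 i (l.2 i)) *
          ee ((∑ i, ((⌈(ζ l.1 i : ℝ) * M⌉ + (l.2 i : ℕ) : ℤ) : ℝ) * k i) / M + nn l.1 * φ)).re =
        sc * ∑ n ∈ (range (K + 1)).filter Odd, α n * ((√(ρ n))⁻¹ * (ee (n * φ) * Z n).im) := by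
      rw [Fintype.sum_sigma, ← Finset.sum_fiberwise_of_maps_to hmaps, Finset.mul_sum]
      refine Finset.sum_congr rfl fun n _ => ?_
      simp only [Z]
      rw [Finset.mul_sum, Complex.im_sum, Finset.mul_sum, Finset.mul_sum, Finset.mul_sum]
      refine Finset.sum_congr rfl fun j hj => ?_
      rw [← (mem_filter.1 hj).2]
      simp only [S]
      rw [Finset.prod_univ_sum, Fintype.piFinset_univ, Finset.mul_sum, Finset.mul_sum,
        Complex.im_sum, Finset.mul_sum, Finset.mul_sum, Finset.mul_sum]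
      refine Finset.sum_congr rfl fun x _ => ?_
      have b1 : ee ((∑ i, ((⌈(ζ j i : ℝ) * M⌉ + (x i : ℕ) : ℤ) : ℝ) * k i) / M + nn j * φ) =
          ee (nn j * φ) * ee (∑ i, (ζ j i : ℝ) * ((k i : ℤ) : ℝ)) *
            ∏ i, ee ((x i + σ j i) * (k i / M)) := by
        rw [← ee_sum, ← ee_add, ← ee_add, add_assoc, ← Finset.sum_add_distrib, Finset.sum_div,
          add_comm]
        congr 2
        refine Finset.sum_congr rfl fun i _ => ?_
        simp only [σ]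
        push_cast
        field_simp
        ring
      rw [b1, prod_mul_distrib (f := fun i => cc j i (x i)), mul_assoc, mul_assoc, mul_assoc, Complex.re_ofReal_mul, neg_mul,
        Complex.neg_re, Complex.I_mul_re, neg_neg]
      rw [show cf j * ((∏ i, cc j i (x i)) * (ee (nn j * φ) *
        ee (∑ i, (ζ j i : ℝ) * ((k i : ℤ) : ℝ)) * ∏ i, ee ((x i + σ j i) * (k i / M)))) =
        ee (nn j * φ) * (cf j * ee (∑ i, (ζ j i : ℝ) * ((k i : ℤ) : ℝ)) *
          ((∏ i, cc j i (x i)) * ∏ i, ee ((x i + σ j i) * (k i / M)))) by ring]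
      ring
    have hZ : ∀ n ∈ (range (K + 1)).filter Odd, ‖ee (n * φ) * Z n - W * ee (n * ψ)‖ ≤ 3 * γ := by
      intro n hn
      obtain ⟨b1, b2⟩ := mem_filter.1 hn
      have b3 := hΘ n b2 (Nat.lt_succ_iff.1 (mem_range.1 b1)) fun i => k i
      set U : ℂ := W * ee (n * (B * ∑ i, Φ (k i / M))) with hU
      have b4 : ∀ j ∈ univ.filter (fun j => nn j = n), ‖∏ i, S j i - U‖ ≤ d * 3 ^ d * γ₂ := by
        intro j hj
        have b5 := prod_err univ (S j) (fun i => w (k i / M) * ee (nn j * (B * Φ (k i / M))))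
          (by positivity) (min_le_left _ _)
          (fun i => hS (nn j) (hn1 j) _ (hσ0 j i) (hσ1 j i) _ (ht0 i) (ht1 i)) (fun i => by
            rw [norm_mul, norm_ee, mul_one, Complex.norm_real, Real.norm_of_nonneg (hw1 _).1]
            nlinarith [(hw1 (k i / M)).1, (hw1 (k i / M)).2, sq_nonneg (w (k i / M))])
        rw [card_univ, Fintype.card_fin, prod_mul_distrib, ← ee_sum, ← Finset.mul_sum,
          ← Finset.mul_sum, (mem_filter.1 hj).2] at b5
        rw [hU, hWd]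
        push_cast
        exact b5
      have b6 : ee (n * φ) * Z n - W * ee (n * ψ) = ee (n * φ) *
          (∑ j ∈ univ.filter (fun j => nn j = n),
            cf j * ee (∑ i, (ζ j i : ℝ) * ((k i : ℤ) : ℝ)) * (∏ i, S j i - U) -
          U * (ee (n * Θ fun i => k i) - ∑ j ∈ univ.filter (fun j => nn j = n),
            cf j * ee (∑ i, (ζ j i : ℝ) * ((k i : ℤ) : ℝ)))) := by
        simp only [mul_sub, Finset.sum_sub_distrib, ← Finset.sum_mul, Z]
        rw [hψ, mul_add, mul_add, ee_add, ee_add, hU]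
        ring
      have b7 : ‖∑ j ∈ univ.filter (fun j => nn j = n),
          cf j * ee (∑ i, (ζ j i : ℝ) * ((k i : ℤ) : ℝ)) * (∏ i, S j i - U)‖ ≤ γ := by
        refine (norm_sum_le_of_le _ (n := fun j => ‖cf j‖ * (d * 3 ^ d * γ₂))
          fun j hj => ?_).trans ?_
        · rw [norm_mul, norm_mul, norm_ee, mul_one]
          exact mul_le_mul_of_nonneg_left (b4 j hj) (norm_nonneg _)
        · rw [← Finset.sum_mul]
          have b8 : ∑ j ∈ univ.filter (fun j => nn j = n), ‖cf j‖ ≤ C + 1 :=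
            (Finset.sum_le_sum_of_subset_of_nonneg (filter_subset _ _)
              fun _ _ _ => norm_nonneg _).trans (by linarith)
          have b9 : γ₂ * ((C + 1) * (d * 3 ^ d)) ≤ γ :=
            (le_div_iff₀ (by positivity)).1 (min_le_right _ _)
          calc _ ≤ (C + 1) * (d * 3 ^ d * γ₂) := by gcongr
            _ = γ₂ * ((C + 1) * (d * 3 ^ d)) := by ring
            _ ≤ γ := b9
      rw [b6, norm_mul, norm_ee, one_mul]
      refine (norm_sub_le _ _).trans ?_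
      rw [norm_mul, hU, norm_mul, norm_ee, mul_one, Complex.norm_real, Real.norm_of_nonneg hW0]
      have := mul_le_mul (show W ≤ 2 by linarith) b3 (norm_nonneg _) (by norm_num)
      linarith
    rw [hsum, abs_mul, abs_of_pos hsc0, hsc, inv_mul_le_iff₀ (by positivity), mul_one]
    have b1 : ∑ n ∈ (range (K + 1)).filter Odd, α n * ((√(ρ n))⁻¹ * (ee (n * φ) * Z n).im) =
        W * ∑ n ∈ (range (K + 1)).filter Odd,
          a * (n : ℝ) ^ (-(1 + η)) * Real.sin (2 * Real.pi * n * ψ) +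
        ∑ n ∈ (range (K + 1)).filter Odd, α n * ((√(ρ n))⁻¹ * (ee (n * φ) * Z n).im -
          W * (ee (n * ψ)).im) := by
      rw [Finset.mul_sum, ← Finset.sum_add_distrib]
      refine Finset.sum_congr rfl fun n _ => ?_
      rw [im_ee, ← mul_assoc (2 * Real.pi)]
      simp only [α]; ring
    have b2 : |∑ n ∈ (range (K + 1)).filter Odd, α n * ((√(ρ n))⁻¹ * (ee (n * φ) * Z n).im -
        W * (ee (n * ψ)).im)| ≤ e := by
      refine (Finset.abs_sum_le_sum_abs _ _).trans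
        ((Finset.sum_le_card_nsmul _ _ (20 * γ) fun n hn => ?_).trans ?_)
      · obtain ⟨c1, c2⟩ := hα n (mem_filter.1 hn).2.pos
        have c3 := inv_sqrt_sub (hρ n) (by linarith)
        have c4 := (Complex.abs_im_le_norm _).trans (hZ n hn)
        rw [Complex.sub_im, Complex.im_ofReal_mul] at c4
        have c5 : |(ee (n * ψ)).im| ≤ 1 := (Complex.abs_im_le_norm _).trans (norm_ee _).le
        generalize (ee (n * φ) * Z n).im = p at *
        generalize (ee (n * ψ)).im = q at *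
        generalize (√(ρ n))⁻¹ = r at *
        have c6 : |r| ≤ 2 := by rw [abs_le] at c3 ⊢; constructor <;> linarith
        have c7 : |r * p - W * q| ≤ 10 * γ := by
          rw [show r * p - W * q = r * (p - W * q) + (r - 1) * (W * q) by ring]
          refine (abs_add_le _ _).trans ?_
          rw [abs_mul, abs_mul, abs_mul, abs_of_nonneg hW0]
          have c8 := mul_le_mul c6 c4 (abs_nonneg _) (by norm_num)
          have c9 := mul_le_mul c3 (mul_le_mul (show W ≤ 2 by linarith) c5 (abs_nonneg _)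
            (by norm_num)) (by positivity) (by positivity)
          linarith
        rw [abs_mul, abs_of_nonneg c1]
        have := mul_le_mul c2 c7 (abs_nonneg _) (by norm_num)
        linarith
      · have : (((range (K + 1)).filter Odd).card : ℝ) ≤ K + 1 := by
          exact_mod_cast (card_filter_le _ _).trans (card_range _).le
        rw [nsmul_eq_mul]
        nlinarith
    rw [b1]
    refine (abs_add_le _ _).trans ?_
    rw [abs_mul, abs_of_nonneg hW0]
    have := mul_le_mul hW3 (hW1 ψ) (abs_nonneg _) (by positivity)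
    linarith
  · rintro ⟨j, x⟩ ⟨j', x'⟩ hne
    have hK0 : (1 : ℝ) ≤ K := by exact_mod_cast hK
    have hnK : ∀ j, (nn j : ℝ) ≤ K := fun j => by exact_mod_cast (hnn j).2
    have hx : ∀ (j : J) (i : Fin d) (y : Fin (nn j * B)), 0 ≤ (y : ℝ) + σ j i ∧
        (y : ℝ) + σ j i ≤ K * B := fun j i y => by
      have b1 : ((y : ℕ) : ℝ) + 1 ≤ nn j * B := by exact_mod_cast y.2
      have b2 := mul_le_mul_of_nonneg_right (hnK j) (zero_le_one.trans hB0)
      exact ⟨add_nonneg (by positivity) (hσ0 j i), by linarith [hσ1 j i]⟩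
    have hKB : (K * B : ℝ) ≤ K * (K * B) := le_mul_of_one_le_left (by positivity) hK0
    have hi1 := inv_pos.2 hc₁
    have hi2 := inv_pos.2 hc₂
    have hpos : (0 : ℝ) < K * (K * B) := by positivity
    have hM2 : (K * (K * B) : ℝ) < M := by nlinarith
    have hM3 : (K * (K * B) : ℝ) < c₁ * M := by
      rw [← inv_mul_lt_iff₀ hc₁]; nlinarith
    have hM4 : (K * (K * B) : ℝ) < c₂ * M := by
      rw [← inv_mul_lt_iff₀ hc₂]; nlinarith
    simp only
    by_cases hn : nn j = nn j'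
    · have hcop : ∀ u : ℤ, (M : ℤ) ∣ (nn j : ℤ) * u → (M : ℤ) ∣ u := by
        intro u hu
        refine ((Nat.prime_iff_prime_int.1 hMp).dvd_or_dvd hu).resolve_left fun h => ?_
        have b1 := Nat.le_of_dvd (hn1 j) (Int.natCast_dvd_natCast.1 h)
        have b2 : (M : ℝ) ≤ nn j := by exact_mod_cast b1
        nlinarith [hnK j]
      by_cases hjj : j = j'
      · subst hjj
        obtain ⟨i, hi⟩ : ∃ i, x i ≠ x' i := by
          by_contra h
          push Not at h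
          exact hne (by rw [funext h])
        refine ⟨i, fun h => hi ?_⟩
        rw [← mul_sub, add_sub_add_left_eq_sub] at h
        have b1 := Int.eq_zero_of_abs_lt_dvd (hcop _ h) (by
          have b2 := hx j i (x i)
          have b3 := hx j i (x' i)
          have : |((x' i : ℕ) : ℝ) - (x i : ℕ)| < M :=
            abs_lt.2 ⟨by linarith [b2.2, b3.1], by linarith [b2.1, b3.2]⟩
          exact_mod_cast this)
        exact Fin.ext (by omega)
      · obtain ⟨i, hi⟩ := hz1 j' j (Ne.symm hjj) hn.symm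
        refine ⟨i, fun h => ?_⟩
        have h' : (M : ℤ) ∣ (nn j : ℤ) * ((⌈(ζ j' i : ℝ) * M⌉ + (x' i : ℕ)) -
            (⌈(ζ j i : ℝ) * M⌉ + (x i : ℕ))) := by
          rw [mul_sub]
          nth_rewrite 2 [hn]
          exact h
        obtain ⟨u, hu⟩ := hcop _ h'
        have b1 := hg₁ (j', j, i) hi u
        have b2 : ((⌈(ζ j' i : ℝ) * M⌉ : ℝ) + (x' i : ℕ)) - (⌈(ζ j i : ℝ) * M⌉ + (x i : ℕ)) =
            M * u := by exact_mod_cast hu
        have b3 := hx j i (x i)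
        have b4 := hx j' i (x' i)
        simp only [σ] at b3 b4
        push_cast at b1
        have b5 := mul_le_mul_of_nonneg_right b1 hM0.le
        rw [← abs_of_pos hM0, ← abs_mul, abs_of_pos hM0] at b5
        refine absurd b5 (not_le.2 (abs_lt.2 ⟨?_, ?_⟩)) <;> linarith [b3.1, b3.2, b4.1, b4.2]
    · obtain ⟨i, hi⟩ := hz2 j j' hn
      refine ⟨i, fun ⟨u, hu⟩ => ?_⟩
      have b1 := hg₂ (j, j', i) hi u
      have b2 : (nn j : ℝ) * ((⌈(ζ j' i : ℝ) * M⌉ : ℝ) + (x' i : ℕ)) -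
          nn j' * (⌈(ζ j i : ℝ) * M⌉ + (x i : ℕ)) = M * u := by exact_mod_cast hu
      have b3 := hx j i (x i)
      have b4 := hx j' i (x' i)
      have b6 := mul_le_mul (hnK j') b3.2 b3.1 (by positivity)
      have b7 := mul_le_mul (hnK j) b4.2 b4.1 (by positivity)
      have b8 := mul_nonneg (Nat.cast_nonneg (nn j')) b3.1
      have b9 := mul_nonneg (Nat.cast_nonneg (nn j)) b4.1
      simp only [σ] at b6 b7 b8 b9
      push_cast at b1
      have b5 := mul_le_mul_of_nonneg_right b1 hM0.le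
      rw [← abs_of_pos hM0, ← abs_mul, abs_of_pos hM0] at b5
      refine absurd b5 (not_le.2 (abs_lt.2 ⟨?_, ?_⟩)) <;> linarith

end Crest.Agent.R75
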