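import Crest.Agent.R75.NibbleA

/-! The near perfect matching theorem, by a derandomised weighted greedy process. -/

set_option autoImplicit false
set_option linter.unusedSectionVars false

open Finset

namespace Crest.Agent.R75.Nib

variable {V E : Type} [Fintype V] [Fintype E] [DecidableEq V]

theorem exists_ge_avg {Ω : Type} [Fintype Ω] (π F : Ω → ℝ) (hπ : ∀ ω, 0 ≤ π ω)
    (h1 : ∑ ω, π ω = 1) : ∃ ω, π ω ≠ 0 ∧ ∑ ω', π ω' * F ω' ≤ F ω := by
  by_contra hc
  push Not at hc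
  set A := ∑ ω', π ω' * F ω' with hA
  have : ∃ ω, π ω ≠ 0 := by
    by_contra h0
    push Not at h0
    simp [h0] at h1
  obtain ⟨ω₀, h0⟩ := this
  have h2 : ∑ ω, π ω * F ω < ∑ ω, π ω * A := by
    refine sum_lt_sum (fun ω _ => ?_) ⟨ω₀, mem_univ _, ?_⟩
    · by_cases h : π ω = 0
      · simp [h]
      · exact mul_le_mul_of_nonneg_left (hc ω h).le (hπ ω)
    · exact mul_lt_mul_of_pos_left (hc ω₀ h0) (lt_of_le_of_ne (hπ _) (Ne.symm h0))
  rw [← sum_mul, h1, one_mul] at h2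
  exact lt_irrefl _ h2

theorem nw_le {f : E → Finset V} {lam : ℝ} {w : E → ℝ} (hl : 0 ≤ lam) (hw : ∀ e, 0 ≤ w e)
    (S : Finset V) (e : E) : 0 ≤ nw f lam w S e ∧ nw f lam w S e ≤ lam * w e := by
  have := mul_nonneg hl (hw e)
  unfold nw; split_ifs
  exacts [⟨this, le_rfl⟩, ⟨le_rfl, this⟩]

theorem sum_dk_le' {f : E → Finset V} {s : ℕ} (hs : ∀ e, (f e).card = s) {η : ℝ} (hη : 0 < η)
    (hη1 : η ≤ 1) (w : E → ℝ) : ∑ u, deg f w u * max 1 (deg f w u) ≤
      s * ∑ e, w e + 2 / η * Ph f w + η * Fintype.card V := by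
  have a1 := sum_deg_mul f w (fun _ => 1)
  simp only [mul_one, sum_const, hs, nsmul_eq_mul, ← sum_mul] at a1
  have a2 : ∑ u, deg f w u * max 1 (deg f w u) ≤
      ∑ u, (deg f w u + 2 / η * ph (deg f w u) + η) := sum_le_sum fun u _ => by
    set x := deg f w u
    have a3 : 1 ≤ 1 / η := by rw [le_div_iff₀ hη]; linarith
    rcases le_total x 1 with hx | hx
    · rw [max_eq_left hx]
      have := ph_nonneg x
      have : 0 ≤ 2 / η * ph x := by positivity
      linarith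
    · rw [max_eq_right hx, ph, max_eq_left (by linarith)]
      have a4 : x - 1 ≤ 1 / η * (x - 1) ^ 2 + η := by
        rw [one_div, inv_mul_eq_div, ← sub_le_iff_le_add, le_div_iff₀ hη]
        nlinarith [sq_nonneg (x - 1 - η), mul_nonneg hη.le (sub_nonneg.mpr hx)]
      have a5 := mul_le_mul_of_nonneg_right a3 (sq_nonneg (x - 1))
      have : 2 / η = 1 / η + 1 / η := by ring
      rw [this]; nlinarith
  rw [sum_add_distrib, sum_add_distrib, a1, ← mul_sum, sum_const, card_univ,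
    nsmul_eq_mul] at a2
  change _ ≤ _ + 2 / η * Ph f w + _ at a2
  linarith

set_option maxHeartbeats 800000 in
theorem numeric {s h η γ W P N Q EW EP : ℝ} (hs' : 1 ≤ s) (hh : 0 ≤ h) (hhs : h * s ≤ 1)
    (hη : 0 < η) (hη1 : η ≤ 1) (hhη : h * s ^ 2 ≤ η) (hγ0 : 0 ≤ γ) (hγ : γ ≤ 1) (j : ℕ)
    (hW0 : 0 ≤ W) (hP0 : 0 ≤ P) (hN0 : 0 ≤ N) (hdk : Q ≤ s * W + 2 / η * P + η * N)
    (eW : (1 + h * (s - 1)) * (W - h * Q) ≤ EW) (eP : EP ≤ P + h * γ * (N + P)) :
    (1 - η) * (1 - (1 - h) ^ (j + 1)) * W - 4 / η * ((1 + h) ^ (j + 1) - 1) * P -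
      ((j + 1 : ℕ) : ℝ) * h * (2 * η + 4 / η * (1 + h) ^ (j + 1) * γ) * N ≤
    h * W + (1 - η) * (1 - (1 - h) ^ j) * EW - 4 / η * ((1 + h) ^ j - 1) * EP -
      j * h * (2 * η + 4 / η * (1 + h) ^ j * γ) * N := by
  have hh1 : h ≤ 1 := by nlinarith
  have hp1 : (1 - h) ^ j ≤ 1 := pow_le_one₀ (by linarith) (by linarith)
  have hp2 : 0 ≤ (1 - h) ^ j := pow_nonneg (by linarith) j
  have hp3 : 1 ≤ (1 + h) ^ j := one_le_pow₀ (by linarith)
  have hB : 0 ≤ 4 / η := by positivity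
  obtain ⟨lam, hlam⟩ : ∃ lam, lam = 1 + h * (s - 1) := ⟨_, rfl⟩
  obtain ⟨a, ha⟩ : ∃ a, a = (1 - η) * (1 - (1 - h) ^ j) := ⟨_, rfl⟩
  obtain ⟨b, hb⟩ : ∃ b, b = 4 / η * ((1 + h) ^ j - 1) := ⟨_, rfl⟩
  obtain ⟨c, hcc⟩ : ∃ c, c = j * h * (2 * η + 4 / η * (1 + h) ^ j * γ) := ⟨_, rfl⟩
  have hl1 : 1 ≤ lam := by rw [hlam]; nlinarith
  have hl2 : lam ≤ 2 := by rw [hlam]; nlinarith
  have ha0 : 0 ≤ a := ha ▸ mul_nonneg (by linarith) (by linarith)
  have ha1 : a ≤ 1 := ha ▸ mul_le_one₀ (by linarith) (by linarith) (by linarith)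
  have hb0 : 0 ≤ b := hb ▸ mul_nonneg hB (by linarith)
  rw [← hlam] at eW
  rw [← ha, ← hb, ← hcc]
  have k1 := mul_le_mul_of_nonneg_left eW ha0
  have k2 := mul_le_mul_of_nonneg_left eP hb0
  have hal : a * lam ≤ 2 := by nlinarith
  have hal0 : 0 ≤ a * lam := by positivity
  have k3 : a * lam * (h * Q) ≤
      a * lam * (h * s * W) + h * (4 / η) * P + h * (2 * η) * N := by
    have a1 := mul_le_mul_of_nonneg_left (mul_le_mul_of_nonneg_left hdk hh) hal0
    have a2 := mul_le_mul_of_nonneg_right hal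
      (show 0 ≤ h * (2 / η * P + η * N) by positivity)
    have : 4 / η = 2 * (2 / η) := by ring
    rw [this]; linarith
  have k4 : (1 - η) * (1 - (1 - h) ^ (j + 1)) * W ≤ h * W + a * lam * (1 - h * s) * W := by
    rw [← add_mul]
    refine mul_le_mul_of_nonneg_right ?_ hW0
    have a1 : (1 - η) * (1 - (1 - h) ^ (j + 1)) = (1 - η) * h + (1 - h) * a := by
      rw [ha]; ring
    have a2 : 1 - h - h * η ≤ lam * (1 - h * s) := by
      rw [hlam]
      nlinarith [mul_le_mul_of_nonneg_left hhη hh, mul_nonneg (mul_nonneg hh hh) (by linarith : 0 ≤ s)]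
    rw [a1]
    nlinarith [mul_le_mul_of_nonneg_left a2 ha0, mul_le_mul_of_nonneg_left ha1 (mul_nonneg hh hη.le)]
  have k5 : (b + b * (h * γ) + h * (4 / η)) * P ≤ 4 / η * ((1 + h) ^ (j + 1) - 1) * P := by
    refine mul_le_mul_of_nonneg_right ?_ hP0
    have a1 : 4 / η * ((1 + h) ^ (j + 1) - 1) = b + b * h + h * (4 / η) := by rw [hb]; ring
    rw [a1]; linarith [mul_le_mul_of_nonneg_left hγ (mul_nonneg hb0 hh)]
  have k6 : (c + b * (h * γ) + h * (2 * η)) * N ≤
      ((j + 1 : ℕ) : ℝ) * h * (2 * η + 4 / η * (1 + h) ^ (j + 1) * γ) * N := by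
    refine mul_le_mul_of_nonneg_right ?_ hN0
    have a1 : 4 / η * (1 + h) ^ j * γ ≤ 4 / η * (1 + h) ^ (j + 1) * γ := by
      gcongr <;> linarith
    have a2 : b * γ ≤ 4 / η * (1 + h) ^ j * γ := by rw [hb]; linarith [mul_nonneg hB hγ0]
    have a3 := mul_le_mul_of_nonneg_left a1 (show 0 ≤ (j : ℝ) * h by positivity)
    have a4 := mul_le_mul_of_nonneg_left (a2.trans a1) hh
    push_cast
    rw [hcc]; linarith
  linarith

theorem run {f : E → Finset V} {s : ℕ} (hs : ∀ e, (f e).card = s) (hs1 : 1 ≤ s)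
    {h δ η Λ : ℝ} (hh : 0 ≤ h) (hhδ : h ≤ δ) (hη : 0 < η) (hη1 : η ≤ 1) (hhη : h * s ^ 2 ≤ η)
    (hγ : 28 * s ^ 2 * δ ≤ 1) (hn : h * (Λ + Fintype.card V) ≤ 1) (j : ℕ) :
    ∀ w : E → ℝ, (∀ e, 0 ≤ w e) → (∀ u v, u ≠ v → (1 + h * s) ^ j * cod f w u v ≤ δ) →
      (1 + h * s) ^ j * ∑ e, w e ≤ Λ →
      ∃ T : Finset E, (∀ e ∈ T, w e ≠ 0) ∧
        (∀ e ∈ T, ∀ e' ∈ T, e ≠ e' → Disjoint (f e) (f e')) ∧
        (1 - η) * (1 - (1 - h) ^ j) * ∑ e, w e - 4 / η * ((1 + h) ^ j - 1) * Ph f w -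
          j * h * (2 * η + 4 / η * (1 + h) ^ j * (28 * s ^ 2 * δ)) * Fintype.card V ≤ T.card := by
  classical
  induction j with
  | zero => exact fun w _ _ _ => ⟨∅, by simp, by simp, by simp⟩
  | succ j ih =>
    intro w hw hc hW
    have hs' : (1 : ℝ) ≤ s := by exact_mod_cast hs1
    have hhs : h * s ≤ 1 := by nlinarith [mul_nonneg hh (show (0 : ℝ) ≤ s by positivity)]
    have hh1 : h ≤ 1 := by nlinarith
    have hδ : 0 ≤ δ := hh.trans hhδ
    have hq : 1 ≤ 1 + h * s := by nlinarith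
    have hqj : 1 ≤ (1 + h * s) ^ (j + 1) := one_le_pow₀ hq
    set lam := 1 + h * (s - 1) with hlam
    have hl1 : 1 ≤ lam := by rw [hlam]; nlinarith
    have hl2 : lam ≤ 1 + h * s := by rw [hlam]; nlinarith
    have hW0 : 0 ≤ ∑ e, w e := sum_nonneg fun e _ => hw e
    have hcod0 : ∀ u v, 0 ≤ cod f w u v := fun u v =>
      sum_nonneg fun e _ => by split_ifs; exacts [hw e, le_rfl]
    have hc' : ∀ u v, u ≠ v → cod f w u v ≤ δ := fun u v huv =>
      le_trans (le_mul_of_one_le_left (hcod0 u v) hqj) (hc u v huv)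
    set R := ∑ e, w e + ∑ u, max (1 - deg f w u) 0 with hR
    have hR1 : h * R ≤ 1 := by
      refine le_trans (mul_le_mul_of_nonneg_left (add_le_add ?_ ?_) hh) hn
      · exact le_trans (le_mul_of_one_le_left hW0 hqj) hW
      · calc _ ≤ ∑ _u : V, (1 : ℝ) := sum_le_sum fun u _ =>
              max_le (by linarith [deg_nonneg f hw u]) zero_le_one
          _ = _ := by simp
    let π : E ⊕ V ⊕ Unit → ℝ := Sum.elim (fun e => h * w e)
      (Sum.elim (fun u => h * max (1 - deg f w u) 0) fun _ => 1 - h * R)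
    let S : E ⊕ V ⊕ Unit → Finset V := Sum.elim f (Sum.elim (fun u => {u}) fun _ => ∅)
    let g : E ⊕ V ⊕ Unit → ℝ := Sum.elim (fun _ => 1) fun _ => 0
    have hπ : ∀ ω, 0 ≤ π ω := by
      rintro (e | u | _)
      · exact mul_nonneg hh (hw e)
      · exact mul_nonneg hh (le_max_right _ _)
      · exact sub_nonneg.mpr hR1
    have h1 : ∑ ω, π ω = 1 := by
      simp only [π, Fintype.sum_sum_type, Sum.elim_inl, Sum.elim_inr, ← mul_sum, hR]
      simp; ring
    have h2 : ∀ u, ∑ ω, π ω * (if u ∈ S ω then 1 else 0) = h * max 1 (deg f w u) := by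
      intro u
      simp only [π, S, Fintype.sum_sum_type, Sum.elim_inl, Sum.elim_inr, mem_singleton,
        notMem_empty, if_false, mul_zero, sum_const_zero, add_zero, mul_ite, mul_one, sum_ite_eq,
        mem_univ, if_true]
      have : (∑ e, if u ∈ f e then h * w e else 0) = h * deg f w u := by
        simp [deg, mul_sum]
      refine (congrArg (· + _) this).trans ?_
      rw [← mul_add]
      congr 1
      rcases le_total 1 (deg f w u) with a | a
      · rw [max_eq_right a, max_eq_right (by linarith)]; ring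
      · rw [max_eq_left a, max_eq_left (by linarith)]; ring
    have h3 : ∀ u v, u ≠ v → ∑ ω, π ω * (if u ∈ S ω ∧ v ∈ S ω then 1 else 0) ≤ h * δ := by
      intro u v huv
      have a : ∀ x, ¬ (u = x ∧ v = x) := fun x hx => huv (hx.1.trans hx.2.symm)
      simp only [π, S, Fintype.sum_sum_type, Sum.elim_inl, Sum.elim_inr, mem_singleton,
        notMem_empty, false_and, a, if_false, mul_zero, sum_const_zero, add_zero, mul_ite, mul_one]
      have : (∑ e, if u ∈ f e ∧ v ∈ f e then h * w e else 0) = h * cod f w u v := by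
        simp [cod, mul_sum]
      exact this.trans_le (mul_le_mul_of_nonneg_left (hc' u v huv) hh)
    have h4 : ∀ ω, (S ω).card ≤ s := by
      rintro (e | u | _)
      · exact (hs e).le
      · simpa [S] using hs1
      · simp [S]
    have h5 : ∑ ω, π ω * g ω = h * ∑ e, w e := by
      simp [π, g, Fintype.sum_sum_type, mul_sum]
    have eW := exp_W hw (by linarith : 0 ≤ lam) hπ h1 h2
    have eP := exp_Ph hw hs hs1 hh hhδ hhs hlam hc' hπ h1 h2 h3 h4
    set a := (1 - η) * (1 - (1 - h) ^ j) with ha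
    set b := 4 / η * ((1 + h) ^ j - 1) with hb
    set c := j * h * (2 * η + 4 / η * (1 + h) ^ j * (28 * s ^ 2 * δ)) with hcc
    obtain ⟨ω, hω, hF⟩ := exists_ge_avg π (fun ω => g ω + (a * ∑ e, nw f lam w (S ω) e -
      b * Ph f (nw f lam w (S ω)) - c * Fintype.card V)) hπ h1
    have hl0 : 0 ≤ lam := by linarith
    have hp0 : 0 ≤ (1 + h * s) ^ j := by positivity
    obtain ⟨T, t1, t2, t3⟩ := ih (nw f lam w (S ω)) (fun e => (nw_le hl0 hw _ e).1)
      (fun u v huv => by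
        refine le_trans ?_ (hc u v huv)
        rw [pow_succ, mul_assoc]
        refine mul_le_mul_of_nonneg_left ?_ hp0
        rw [cod, cod, mul_sum]
        refine sum_le_sum fun e _ => ?_
        split_ifs
        · exact (nw_le hl0 hw _ e).2.trans (mul_le_mul_of_nonneg_right hl2 (hw e))
        · simp)
      (by
        refine le_trans ?_ hW
        rw [pow_succ, mul_assoc]
        refine mul_le_mul_of_nonneg_left ?_ hp0
        rw [mul_sum]
        exact sum_le_sum fun e _ =>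
          (nw_le hl0 hw _ e).2.trans (mul_le_mul_of_nonneg_right hl2 (hw e)))
    have t4 : ∀ e ∈ T, w e ≠ 0 ∧ Disjoint (f e) (S ω) := fun e he => by
      have := t1 e he
      unfold nw at this
      split_ifs at this with hd
      · exact ⟨right_ne_zero_of_mul this, hd⟩
      · exact absurd rfl this
    have t5 : ∃ T' : Finset E, (∀ e ∈ T', w e ≠ 0) ∧
        (∀ e ∈ T', ∀ e' ∈ T', e ≠ e' → Disjoint (f e) (f e')) ∧ g ω + T.card ≤ T'.card := by
      rcases ω with e₀ | ω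
      · have hn0 : e₀ ∉ T := fun h0 => by
          have := (t4 e₀ h0).2
          simp only [S, Sum.elim_inl, disjoint_self, bot_eq_empty] at this
          have h6 := hs e₀
          rw [this, card_empty] at h6; omega
        refine ⟨insert e₀ T, ?_, ?_, ?_⟩
        · intro e he
          rcases mem_insert.mp he with rfl | he
          · exact right_ne_zero_of_mul hω
          · exact (t4 e he).1
        · intro e he e' he' hne
          rcases mem_insert.mp he with a1 | a1 <;> rcases mem_insert.mp he' with a2 | a2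
          · exact absurd (a1.trans a2.symm) hne
          · rw [a1]; exact (t4 e' a2).2.symm
          · rw [a2]; exact (t4 e a1).2
          · exact t2 e a1 e' a2 hne
        · rw [card_insert_of_notMem hn0]; simp [g, add_comm]
      · exact ⟨T, fun e he => (t4 e he).1, t2, by simp [g]⟩
    obtain ⟨T', u1, u2, u3⟩ := t5
    refine ⟨T', u1, u2, le_trans ?_ (hF.trans (le_trans (by linarith) u3))⟩
    have e1 : ∑ ω', π ω' * (g ω' + (a * ∑ e, nw f lam w (S ω') e -
        b * Ph f (nw f lam w (S ω')) - c * Fintype.card V)) =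
        h * ∑ e, w e + a * ∑ ω', π ω' * ∑ e, nw f lam w (S ω') e -
          b * ∑ ω', π ω' * Ph f (nw f lam w (S ω')) - c * Fintype.card V := by
      have e2 : ∑ ω', π ω' * (c * Fintype.card V) = c * Fintype.card V := by
        rw [← sum_mul, h1, one_mul]
      rw [← h5, mul_sum, mul_sum]
      conv_rhs => rw [← e2]
      rw [← sum_add_distrib, ← sum_sub_distrib, ← sum_sub_distrib]
      exact sum_congr rfl fun ω' _ => by ring
    rw [e1]
    exact numeric hs' hh hhs hη hη1 hhη (by positivity) hγ j hW0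
      (sum_nonneg fun v _ => ph_nonneg _) (by positivity) (sum_dk_le' hs hη hη1 w) eW eP

theorem pow_small {h τ θ : ℝ} {m : ℕ} (h0 : 0 < h) (h1 : h ≤ 1) (hθ : 0 < θ) (hm : m * h = τ)
    (hτ : τ * θ = 1) : (1 - h) ^ m ≤ θ := by
  have a1 : 1 + m * h ≤ (1 + h) ^ m := one_add_mul_le_pow (by linarith) m
  have a2 : (1 - h) ^ m * (1 + h) ^ m ≤ 1 := by
    rw [← mul_pow]; exact pow_le_one₀ (by nlinarith) (by nlinarith)
  have a3 : 0 ≤ (1 - h) ^ m := pow_nonneg (by linarith) m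
  have a4 : (1 - h) ^ m * τ ≤ 1 := by nlinarith
  nlinarith

theorem two_small {θ x y : ℝ} (hθ : θ ≤ 1) (hx : x ≤ θ) (hy : y ≤ θ) :
    1 - 2 * θ ≤ (1 - x) * (1 - y) := by
  have := mul_le_mul (show 1 - θ ≤ 1 - x by linarith) (show 1 - θ ≤ 1 - y by linarith)
    (by linarith) (by linarith)
  nlinarith [sq_nonneg θ]

end Crest.Agent.R75.Nib

namespace Crest.Agent.R75

open Nib

set_option maxHeartbeats 800000 in
theorem nibble : NibbleStmt := by
  intro s K ε hs1 hε
  have hs' : (1 : ℝ) ≤ s := by exact_mod_cast hs1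
  obtain ⟨θ, hθ0, hθ1, hθε⟩ : ∃ θ : ℝ, 0 < θ ∧ θ ≤ 1 / 6 ∧ 6 * θ ≤ ε :=
    ⟨min ε 1 / 6, by positivity, by linarith [min_le_right ε 1], by linarith [min_le_left ε 1]⟩
  obtain ⟨τ, hτ⟩ : ∃ τ : ℝ, τ = 1 / θ := ⟨_, rfl⟩
  have hτθ : τ * θ = 1 := by rw [hτ]; field_simp
  have hτ1 : 1 ≤ τ := by rw [hτ, le_div_iff₀ hθ0]; linarith
  obtain ⟨η, hη⟩ : ∃ η : ℝ, η = θ / (2 * s * τ) := ⟨_, rfl⟩
  have hη0 : 0 < η := by rw [hη]; positivity
  have hηθ : 2 * s * τ * η = θ := by rw [hη]; field_simp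
  have hηθ' : η ≤ θ := by
    have : 1 ≤ 2 * s * τ := by nlinarith
    nlinarith
  obtain ⟨X, hX⟩ : ∃ X : ℝ, X = Real.exp (s * τ) := ⟨_, rfl⟩
  have hX1 : 1 ≤ X := by rw [hX]; exact Real.one_le_exp (by positivity)
  obtain ⟨B, hB⟩ : ∃ B : ℝ, B = 4 / η * X := ⟨_, rfl⟩
  have hB1 : 1 ≤ B := by
    have : 1 ≤ 4 / η := by rw [le_div_iff₀ hη0]; linarith
    rw [hB]; nlinarith
  obtain ⟨δ₁, hδ₁⟩ : ∃ δ₁ : ℝ, δ₁ = θ / (28 * s ^ 3 * τ * B) := ⟨_, rfl⟩
  have hδ₁0 : 0 < δ₁ := by rw [hδ₁]; positivity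
  have hδ₁θ : s * τ * B * (28 * s ^ 2 * δ₁) = θ := by rw [hδ₁]; field_simp
  have hγ : 28 * s ^ 2 * δ₁ ≤ 1 := by
    have h1 : 1 ≤ s * τ * B := one_le_mul_of_one_le_of_one_le (by nlinarith) hB1
    have h2 : 0 ≤ 28 * s ^ 2 * δ₁ := by positivity
    nlinarith
  obtain ⟨δ, hδ0, hδ1, hδ2, hδ3⟩ : ∃ δ : ℝ, 0 < δ ∧ δ ≤ θ ∧ X * δ ≤ δ₁ ∧
      s * B * (|K| + 1) * δ ≤ θ := by
    refine ⟨min θ (min (δ₁ / X) (θ / (s * B * (|K| + 1)))), by positivity, min_le_left _ _, ?_, ?_⟩
    · rw [mul_comm, ← le_div_iff₀ (by positivity)]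
      exact (min_le_right _ _).trans (min_le_left _ _)
    · rw [mul_comm, ← le_div_iff₀ (by positivity)]
      exact (min_le_right _ _).trans (min_le_right _ _)
  refine ⟨δ, hδ0, fun V E _ _ _ f D hD hs hK hdev hcod => ?_⟩
  have hD0 : 0 < D := by
    by_contra h
    nlinarith [mul_nonneg hδ0.le (neg_nonneg.mpr (not_lt.mp h))]
  set N : ℝ := (Fintype.card V : ℝ) with hN
  have hN0 : 0 ≤ N := by positivity
  set w : E → ℝ := fun _ => 1 / D with hw
  have hw0 : ∀ e, 0 ≤ w e := fun _ => by positivity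
  have hdeg : ∀ v, deg f w v = ((univ.filter fun e => v ∈ f e).card : ℝ) / D := fun v => by
    simp only [deg, hw, ← sum_filter, sum_const, nsmul_eq_mul]; ring
  have hcd : ∀ u v, u ≠ v → cod f w u v ≤ δ := fun u v huv => by
    simp only [cod, hw, ← sum_filter, sum_const, nsmul_eq_mul]
    rw [mul_one_div, div_le_iff₀ hD0]; exact hcod u v huv
  have hdev' : ∑ v, |deg f w v - 1| ≤ δ * N := by
    have : ∀ v, |deg f w v - 1| = |((univ.filter fun e => v ∈ f e).card : ℝ) - D| / D := fun v => by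
      rw [hdeg, ← abs_of_pos hD0, ← abs_div, abs_of_pos hD0]; congr 1; field_simp
    simp only [this, ← sum_div]
    rw [div_le_iff₀ hD0]; linarith
  have hW : |s * ∑ e, w e - N| ≤ δ * N := by
    have a1 := sum_deg_mul f w (fun _ => 1)
    simp only [mul_one, sum_const, hs, nsmul_eq_mul, ← sum_mul] at a1
    have : s * ∑ e, w e - N = ∑ v, (deg f w v - 1) := by
      rw [sum_sub_distrib, a1]; simp [hN, mul_comm]
    rw [this]; exact (abs_sum_le_sum_abs _ _).trans hdev'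
  have hP : Ph f w ≤ (|K| + 1) * (δ * N) := by
    refine le_trans ?_ (mul_le_mul_of_nonneg_left hdev' (by positivity))
    rw [Ph, mul_sum]
    refine sum_le_sum fun v _ => ?_
    have a1 : deg f w v ≤ |K| := by
      rw [hdeg, div_le_iff₀ hD0]
      exact (hK v).trans (mul_le_mul_of_nonneg_right (le_abs_self K) hD0.le)
    rw [ph, pow_two]
    exact mul_le_mul (max_le (by linarith) (by positivity))
      (max_le (le_abs_self _) (abs_nonneg _)) (le_max_right _ _) (by positivity)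
  obtain ⟨m, hm⟩ := exists_nat_ge (τ * (1 / δ₁ + s ^ 2 / η + (2 * X + 1) * N + 1))
  have t1 : 0 < 1 / δ₁ := by positivity
  have t2 : 0 < s ^ 2 / η := by positivity
  have t3 : 0 ≤ (2 * X + 1) * N := by positivity
  have hm0 : (0 : ℝ) < m := lt_of_lt_of_le (by positivity) hm
  obtain ⟨h, hh⟩ : ∃ h : ℝ, h = τ / m := ⟨_, rfl⟩
  have hh0 : 0 < h := by rw [hh]; positivity
  have hmh : m * h = τ := by rw [hh]; field_simp
  have hh1 : h * (1 / δ₁ + s ^ 2 / η + (2 * X + 1) * N + 1) ≤ 1 := by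
    rw [hh, div_mul_eq_mul_div, div_le_one hm0]; exact hm
  have u1 := mul_pos hh0 t1
  have u2 := mul_pos hh0 t2
  have u3 := mul_nonneg hh0.le t3
  have v1 : h ≤ δ₁ := by
    have : h * (1 / δ₁) ≤ 1 := by linarith
    rwa [mul_one_div, div_le_one hδ₁0] at this
  have v2 : h * s ^ 2 ≤ η := by
    have : h * (s ^ 2 / η) ≤ 1 := by linarith
    rwa [← mul_div_assoc, div_le_one hη0] at this
  have v3 : (1 + h * s) ^ m ≤ X := by
    rw [hX, ← hmh, show (s : ℝ) * (m * h) = m * (h * s) by ring, Real.exp_nat_mul]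
    exact pow_le_pow_left₀ (by positivity) (by linarith [Real.add_one_le_exp (h * s)]) m
  have v4 : (1 + h) ^ m ≤ X := le_trans (pow_le_pow_left₀ (by positivity)
    (by linarith [le_mul_of_one_le_right hh0.le hs']) m) v3
  have hW0 : 0 ≤ ∑ e, w e := sum_nonneg fun e _ => hw0 e
  have hW1 := abs_le.mp hW
  have hδN : δ * N ≤ θ * N := mul_le_mul_of_nonneg_right hδ1 hN0
  have hθN : θ * N ≤ 1 / 6 * N := mul_le_mul_of_nonneg_right hθ1 hN0
  obtain ⟨T, -, h2, h3⟩ := run hs hs1 (Λ := 2 * X * N) hh0.le v1 hη0 (by linarith) v2 hγ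
    (by rw [← hN]; linarith) m w hw0
    (fun u v huv => le_trans (mul_le_mul v3 (hcd u v huv)
      (sum_nonneg fun e _ => by split_ifs; exacts [hw0 e, le_rfl]) (by positivity)) hδ2)
    (by
      have : ∑ e, w e ≤ 2 * N := by linarith [le_mul_of_one_le_left hW0 hs', hW1.2]
      calc _ ≤ X * (2 * N) := mul_le_mul v3 this hW0 (by positivity)
        _ = _ := by ring)
  refine ⟨T, h2, ?_⟩
  rw [← hN, hmh] at h3
  have hh2 : h ≤ 1 := by linarith
  have w1 : (1 - h) ^ m ≤ θ := pow_small hh0 hh2 hθ0 hmh hτθ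
  have w2 : (1 - 2 * θ) * (s * ∑ e, w e) ≤ s * ((1 - η) * (1 - (1 - h) ^ m) * ∑ e, w e) := by
    have a1 := two_small (by linarith) hηθ' w1
    have := mul_le_mul_of_nonneg_right a1 (show 0 ≤ s * ∑ e, w e by positivity)
    linarith
  have w3 : s * (4 / η * ((1 + h) ^ m - 1) * Ph f w) ≤ θ * N := by
    have a1 : 4 / η * ((1 + h) ^ m - 1) ≤ B := by
      rw [hB]; exact mul_le_mul_of_nonneg_left (by linarith) (by positivity)
    calc _ ≤ s * (B * ((|K| + 1) * (δ * N))) := mul_le_mul_of_nonneg_left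
          (mul_le_mul a1 hP (sum_nonneg fun v _ => ph_nonneg _) (by linarith)) (by positivity)
      _ = s * B * (|K| + 1) * δ * N := by ring
      _ ≤ _ := mul_le_mul_of_nonneg_right hδ3 hN0
  have w4 : s * (τ * (2 * η + 4 / η * (1 + h) ^ m * (28 * s ^ 2 * δ₁)) * N) ≤ 2 * θ * N := by
    have a1 : 4 / η * (1 + h) ^ m ≤ B := by
      rw [hB]; exact mul_le_mul_of_nonneg_left v4 (by positivity)
    have a2 := mul_le_mul_of_nonneg_right a1 (show 0 ≤ 28 * s ^ 2 * δ₁ by positivity)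
    have a3 := mul_le_mul_of_nonneg_left a2 (show 0 ≤ s * τ by positivity)
    rw [← mul_assoc]
    refine le_trans (le_of_eq (by ring)) (mul_le_mul_of_nonneg_right
      (show s * τ * (2 * η + 4 / η * (1 + h) ^ m * (28 * s ^ 2 * δ₁)) ≤ 2 * θ by linarith) hN0)
  have w5 := mul_le_mul_of_nonneg_left h3 (show (0 : ℝ) ≤ s by positivity)
  have w6 : (1 - 2 * θ) * (N - θ * N) ≤ (1 - 2 * θ) * (s * ∑ e, w e) :=
    mul_le_mul_of_nonneg_left (by linarith) (by linarith)
  have w7 := mul_le_mul_of_nonneg_right hθε hN0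
  have w8 : 0 ≤ θ * (θ * N) := by positivity
  linarith

end Crest.Agent.R75
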