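import Crest.Agent.R75.Defs

/-! One step of a weighted random greedy process (pessimistic estimator form). -/

set_option autoImplicit false
set_option linter.unusedSectionVars false

open Finset

namespace Crest.Agent.R75.Nib

variable {V E : Type} [Fintype V] [Fintype E] [DecidableEq V]

def deg (f : E → Finset V) (w : E → ℝ) (v : V) : ℝ := ∑ e, if v ∈ f e then w e else 0

def cod (f : E → Finset V) (w : E → ℝ) (u v : V) : ℝ :=
  ∑ e, if u ∈ f e ∧ v ∈ f e then w e else 0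

def ph (x : ℝ) : ℝ := max (x - 1) 0 ^ 2

def Ph (f : E → Finset V) (w : E → ℝ) : ℝ := ∑ v, ph (deg f w v)

def nw (f : E → Finset V) (lam : ℝ) (w : E → ℝ) (S : Finset V) (e : E) : ℝ :=
  if Disjoint (f e) S then lam * w e else 0

theorem ph_nonneg (x : ℝ) : 0 ≤ ph x := sq_nonneg _

theorem ph_taylor (x y : ℝ) : ph y ≤ ph x + 2 * max (x - 1) 0 * (y - x) + (y - x) ^ 2 := by
  unfold ph
  rcases le_total (x - 1) 0 with hx | hx <;> rcases le_total (y - 1) 0 with hy | hy <;>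
    simp only [max_eq_left, max_eq_right, hx, hy] <;> nlinarith

theorem max_sq_le (x : ℝ) : max 1 x ^ 2 ≤ 2 * (1 + ph x) := by
  unfold ph
  rcases le_total x 1 with hx | hx
  · rw [max_eq_left hx]; nlinarith [sq_nonneg (max (x - 1) 0)]
  · rw [max_eq_right hx, max_eq_left (by linarith)]; nlinarith [sq_nonneg (x - 2)]

theorem deg_nonneg (f : E → Finset V) {w : E → ℝ} (hw : ∀ e, 0 ≤ w e) (v : V) : 0 ≤ deg f w v :=
  sum_nonneg fun e _ => by split_ifs; exacts [hw e, le_rfl]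

theorem sum_deg_mul (f : E → Finset V) (w : E → ℝ) (k : V → ℝ) :
    ∑ u, deg f w u * k u = ∑ e, w e * ∑ u ∈ f e, k u := by
  simp only [deg, sum_mul]
  rw [sum_comm]
  refine sum_congr rfl fun e _ => ?_
  simp only [ite_mul, zero_mul, mul_sum]
  rw [← sum_filter]; congr 1; ext u; simp

theorem disj_ind (A S : Finset V) :
    1 - ∑ u ∈ A, (if u ∈ S then (1 : ℝ) else 0) ≤ if Disjoint A S then 1 else 0 := by
  split_ifs with h
  · have : 0 ≤ ∑ u ∈ A, (if u ∈ S then (1 : ℝ) else 0) :=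
      sum_nonneg fun u _ => by split_ifs <;> norm_num
    linarith
  · obtain ⟨u, h1, h2⟩ := not_disjoint_iff.mp h
    have := single_le_sum (f := fun u => if u ∈ S then (1 : ℝ) else 0)
      (fun u _ => by split_ifs <;> norm_num) h1
    simp only [h2, if_true] at this
    linarith

theorem bonf (A S : Finset V) (v : V) (hv : v ∈ A) :
    ∑ u ∈ A.erase v, (if u ∈ S then (1 : ℝ) else 0) -
      ∑ u ∈ A, ∑ u' ∈ A.erase u, (if u ∈ S ∧ u' ∈ S then (1 : ℝ) else 0) ≤
      if v ∉ S ∧ ¬ Disjoint A S then 1 else 0 := by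
  set k : ℕ := (A.filter (· ∈ S)).card with hk
  have h1 : ∑ u ∈ A, (if u ∈ S then (1 : ℝ) else 0) = k := by rw [hk, sum_boole]
  have h2 : ∀ u ∈ A, ∑ u' ∈ A.erase u, (if u' ∈ S then (1 : ℝ) else 0) =
      k - if u ∈ S then 1 else 0 := fun u hu => by
    rw [← h1, ← add_sum_erase A _ hu]; ring
  have h3 : ∑ u ∈ A, ∑ u' ∈ A.erase u, (if u ∈ S ∧ u' ∈ S then (1 : ℝ) else 0) = k * (k - 1) := by
    rw [← h1, sum_mul, h1]
    refine sum_congr rfl fun u hu => ?_
    by_cases h : u ∈ S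
    · simp only [h, true_and, if_true, one_mul]; rw [h2 u hu, if_pos h]
    · simp [h]
  rw [h2 v hv, h3]
  have hk' : (k : ℝ) = 0 ∨ 1 ≤ (k : ℝ) := by
    rcases Nat.eq_zero_or_pos k with h | h
    · left; exact_mod_cast h
    · right; exact_mod_cast h
  by_cases hS : v ∈ S
  · simp only [hS, if_true, not_true, false_and, if_false]; nlinarith [sq_nonneg ((k : ℝ) - 1)]
  · by_cases hd : Disjoint A S
    · have : k = 0 := by
        rw [hk, card_eq_zero, filter_eq_empty_iff]; exact fun u hu => disjoint_left.mp hd hu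
      simp [hS, hd, this]
    · simp only [hS, hd, if_false, not_false_iff, and_self, if_true]
      nlinarith [sq_nonneg ((k : ℝ) - 1)]

section step
variable {Ω : Type} [Fintype Ω] {f : E → Finset V} {w : E → ℝ} {s : ℕ} {h δ lam : ℝ}
  {π : Ω → ℝ} {S : Ω → Finset V}

theorem exp_W (hw : ∀ e, 0 ≤ w e) (hl : 0 ≤ lam) (hπ : ∀ ω, 0 ≤ π ω) (h1 : ∑ ω, π ω = 1)
    (h2 : ∀ u, ∑ ω, π ω * (if u ∈ S ω then 1 else 0) = h * max 1 (deg f w u)) :
    lam * (∑ e, w e - h * ∑ u, deg f w u * max 1 (deg f w u)) ≤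
      ∑ ω, π ω * ∑ e, nw f lam w (S ω) e := by
  have e1 : lam * (∑ e, w e - h * ∑ u, deg f w u * max 1 (deg f w u)) =
      ∑ ω, π ω * ∑ e, lam * w e * (1 - ∑ u ∈ f e, (if u ∈ S ω then (1 : ℝ) else 0)) := by
    simp only [mul_sum]
    rw [sum_comm, ← mul_sum, sum_deg_mul, mul_sum, ← sum_sub_distrib, mul_sum]
    refine sum_congr rfl fun e _ => ?_
    have : ∑ ω, π ω * (lam * w e * (1 - ∑ u ∈ f e, (if u ∈ S ω then (1 : ℝ) else 0))) =
        lam * w e * (∑ ω, π ω - ∑ u ∈ f e, ∑ ω, π ω * (if u ∈ S ω then (1 : ℝ) else 0)) := by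
      rw [sum_comm, ← sum_sub_distrib, mul_sum]
      exact sum_congr rfl fun ω _ => by rw [← mul_sum]; ring
    rw [this, h1]
    simp only [h2, ← mul_sum]; ring
  rw [e1]
  refine sum_le_sum fun ω _ => mul_le_mul_of_nonneg_left (sum_le_sum fun e _ => ?_) (hπ ω)
  have := mul_le_mul_of_nonneg_left (disj_ind (f e) (S ω)) (mul_nonneg hl (hw e))
  refine this.trans (le_of_eq ?_)
  unfold nw; split_ifs <;> simp

/-- Weight lost at `v` in an event that does not kill `v`. -/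
def XX (f : E → Finset V) (w : E → ℝ) (v : V) (S : Finset V) : ℝ :=
  ∑ e, if v ∈ f e then w e * (if v ∉ S ∧ ¬ Disjoint (f e) S then 1 else 0) else 0

theorem XX_nonneg (hw : ∀ e, 0 ≤ w e) (v : V) (T : Finset V) : 0 ≤ XX f w v T :=
  sum_nonneg fun e _ => by have := hw e; split_ifs <;> simp [this]

theorem XX_le (hw : ∀ e, 0 ≤ w e) (v : V) (T : Finset V) :
    XX f w v T ≤ ∑ e, if v ∈ f e then w e * ∑ u ∈ f e, (if u ∈ T then (1 : ℝ) else 0) else 0 := by
  refine sum_le_sum fun e _ => ?_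
  split_ifs with a1 a2
  · have := disj_ind (f e) T
    rw [if_neg a2.2] at this
    exact mul_le_mul_of_nonneg_left (by linarith) (hw e)
  · exact mul_le_mul_of_nonneg_left (sum_nonneg fun u _ => by split_ifs <;> norm_num) (hw e)
  · exact le_rfl

theorem XX_le_cod (hw : ∀ e, 0 ≤ w e) (hδ : 0 ≤ δ) (hc : ∀ u v, u ≠ v → cod f w u v ≤ δ) (v : V)
    (T : Finset V) (hT : T.card ≤ s) : XX f w v T ≤ s * δ := by
  by_cases hv : v ∈ T
  · have : XX f w v T = 0 := by simp [XX, hv]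
    rw [this]; positivity
  refine (XX_le hw v T).trans ?_
  have e : (∑ e, if v ∈ f e then w e * ∑ u ∈ f e, (if u ∈ T then (1 : ℝ) else 0) else 0) =
      ∑ u ∈ T, cod f w v u := by
    simp only [cod]
    rw [sum_comm]
    refine sum_congr rfl fun e _ => ?_
    by_cases h : v ∈ f e
    · simp only [h, if_true, true_and]
      rw [← sum_filter, ← sum_filter, filter_mem_eq_inter, filter_mem_eq_inter, inter_comm]
      simp [mul_comm]
    · simp [h]
  rw [e]
  calc _ ≤ ∑ _u ∈ T, δ := sum_le_sum fun u hu => hc v u (fun h => hv (h ▸ hu))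
    _ = T.card * δ := by simp
    _ ≤ s * δ := mul_le_mul_of_nonneg_right (by exact_mod_cast hT) hδ

theorem ph_nw (v : V) (T : Finset V) :
    ph (deg f (nw f lam w T) v) ≤ ph (lam * (deg f w v - XX f w v T)) := by
  by_cases hv : v ∈ T
  · have : deg f (nw f lam w T) v = 0 := sum_eq_zero fun e _ => by
      split_ifs with h
      · exact if_neg (not_disjoint_iff.mpr ⟨v, h, hv⟩)
      · rfl
    rw [this]
    have : ph 0 = 0 := by simp [ph]
    rw [this]; exact ph_nonneg _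
  · refine le_of_eq (congrArg ph ?_)
    simp only [deg, XX, nw, ← sum_sub_distrib, mul_sum]
    refine sum_congr rfl fun e _ => ?_
    by_cases h1 : v ∈ f e <;> by_cases h2 : Disjoint (f e) T <;> simp [h1, h2, hv]

theorem exp_XX_ge (hw : ∀ e, 0 ≤ w e) (hs : ∀ e, (f e).card = s) (hh : 0 ≤ h) (hδ : 0 ≤ δ)
    (hπ : ∀ ω, 0 ≤ π ω)
    (h2 : ∀ u, ∑ ω, π ω * (if u ∈ S ω then 1 else 0) = h * max 1 (deg f w u))
    (h3 : ∀ u v, u ≠ v → ∑ ω, π ω * (if u ∈ S ω ∧ v ∈ S ω then 1 else 0) ≤ h * δ) (v : V) :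
    deg f w v * (h * (s - 1 - s ^ 2 * δ)) ≤ ∑ ω, π ω * XX f w v (S ω) := by
  simp only [XX, deg, mul_sum, sum_mul]
  rw [sum_comm]
  refine sum_le_sum fun e _ => ?_
  by_cases hv : v ∈ f e
  swap
  · simp [hv]
  simp only [hv, if_true]
  have a1 : ∑ ω, π ω * (w e * if v ∉ S ω ∧ ¬ Disjoint (f e) (S ω) then 1 else 0) =
      w e * ∑ ω, π ω * (if v ∉ S ω ∧ ¬ Disjoint (f e) (S ω) then 1 else 0) := by
    rw [mul_sum]; exact sum_congr rfl fun ω _ => by ring
  rw [a1]
  refine mul_le_mul_of_nonneg_left ?_ (hw e)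
  refine le_trans ?_ (sum_le_sum fun ω _ => mul_le_mul_of_nonneg_left (bonf (f e) (S ω) v hv) (hπ ω))
  simp only [mul_sub, sum_sub_distrib, mul_sum]
  rw [sum_comm, sum_comm (s := univ) (t := f e)]
  have hs1 : 1 ≤ s := by rw [← hs e]; exact card_pos.mpr ⟨v, hv⟩
  have a2 : h * s - h * 1 ≤ ∑ u ∈ (f e).erase v, ∑ ω, π ω * (if u ∈ S ω then (1 : ℝ) else 0) := by
    calc h * s - h * 1 = ∑ _u ∈ (f e).erase v, h := by
          rw [sum_const, card_erase_of_mem hv, hs e, nsmul_eq_mul, Nat.cast_sub hs1]; push_cast; ring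
      _ ≤ _ := sum_le_sum fun u _ => by
          rw [h2]; exact le_mul_of_one_le_right hh (le_max_left _ _)
  have a3 : ∑ u ∈ f e, ∑ ω, ∑ u' ∈ (f e).erase u,
      π ω * (if u ∈ S ω ∧ u' ∈ S ω then (1 : ℝ) else 0) ≤ h * (s ^ 2 * δ) := by
    calc _ ≤ ∑ _u ∈ f e, s * (h * δ) := sum_le_sum fun u hu => by
          rw [sum_comm]
          calc _ ≤ ∑ _u' ∈ (f e).erase u, h * δ :=
                sum_le_sum fun u' hu' => h3 u u' (ne_of_mem_erase hu').symm
            _ ≤ s * (h * δ) := by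
                rw [sum_const, nsmul_eq_mul]
                refine mul_le_mul_of_nonneg_right ?_ (mul_nonneg hh hδ)
                exact_mod_cast (card_erase_le).trans (hs e).le
      _ = _ := by rw [sum_const, hs e, nsmul_eq_mul]; ring
  linarith

theorem exp_XX_le (hw : ∀ e, 0 ≤ w e) (hs : ∀ e, (f e).card = s) (hπ : ∀ ω, 0 ≤ π ω)
    (h2 : ∀ u, ∑ ω, π ω * (if u ∈ S ω then 1 else 0) = h * max 1 (deg f w u)) :
    ∑ v, ∑ ω, π ω * XX f w v (S ω) ≤ s * (h * ∑ u, deg f w u * max 1 (deg f w u)) := by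
  have a1 : ∀ v, ∑ ω, π ω * XX f w v (S ω) ≤
      deg f (fun e => w e * (h * ∑ u ∈ f e, max 1 (deg f w u))) v := by
    intro v
    refine (sum_le_sum fun ω _ => mul_le_mul_of_nonneg_left (XX_le hw v (S ω)) (hπ ω)).trans
      (le_of_eq ?_)
    simp only [mul_sum]
    rw [sum_comm]
    refine sum_congr rfl fun e _ => ?_
    by_cases hv : v ∈ f e
    · simp only [hv, if_true, mul_sum]
      rw [sum_comm]
      refine sum_congr rfl fun u _ => ?_
      rw [← h2, mul_sum]; exact sum_congr rfl fun ω _ => by ring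
    · simp [hv]
  refine (sum_le_sum fun v _ => a1 v).trans (le_of_eq ?_)
  have := sum_deg_mul f (fun e => w e * (h * ∑ u ∈ f e, max 1 (deg f w u))) (fun _ => 1)
  simp only [mul_one, sum_const, hs, nsmul_eq_mul] at this
  rw [this, sum_deg_mul, mul_sum, mul_sum]
  exact sum_congr rfl fun e _ => by ring

theorem sum_dk_le :
    ∑ u, deg f w u * max 1 (deg f w u) ≤ 2 * (Fintype.card V + Ph f w) := by
  have : ∑ u, deg f w u * max 1 (deg f w u) ≤ ∑ u, 2 * (1 + ph (deg f w u)) :=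
    sum_le_sum fun u _ => le_trans (by
      rw [pow_two]
      exact mul_le_mul_of_nonneg_right (le_max_right _ _) (le_trans zero_le_one (le_max_left _ _)))
      (max_sq_le _)
  rw [← mul_sum, sum_add_distrib] at this
  simpa [Ph] using this

theorem exp_Ph (hw : ∀ e, 0 ≤ w e) (hs : ∀ e, (f e).card = s) (hs1 : 1 ≤ s) (hh : 0 ≤ h)
    (hhδ : h ≤ δ) (hhs : h * s ≤ 1) (hlam : lam = 1 + h * (s - 1))
    (hc : ∀ u v, u ≠ v → cod f w u v ≤ δ) (hπ : ∀ ω, 0 ≤ π ω) (h1 : ∑ ω, π ω = 1)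
    (h2 : ∀ u, ∑ ω, π ω * (if u ∈ S ω then 1 else 0) = h * max 1 (deg f w u))
    (h3 : ∀ u v, u ≠ v → ∑ ω, π ω * (if u ∈ S ω ∧ v ∈ S ω then 1 else 0) ≤ h * δ)
    (h4 : ∀ ω, (S ω).card ≤ s) :
    ∑ ω, π ω * Ph f (nw f lam w (S ω)) ≤
      Ph f w + h * (28 * s ^ 2 * δ) * (Fintype.card V + Ph f w) := by
  have hδ : 0 ≤ δ := hh.trans hhδ
  have hs' : (1 : ℝ) ≤ s := by exact_mod_cast hs1
  have hl1 : 1 ≤ lam := by rw [hlam]; nlinarith
  have hl2 : lam ≤ 2 := by rw [hlam]; nlinarith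
  have key : ∀ v, ∑ ω, π ω * ph (deg f (nw f lam w (S ω)) v) ≤ ph (deg f w v) +
      h * (12 * s ^ 2 * δ) * (1 + ph (deg f w v)) + 8 * s * δ * ∑ ω, π ω * XX f w v (S ω) := by
    intro v
    set x := deg f w v with hx
    have hx0 : 0 ≤ x := deg_nonneg f hw v
    set p := max (x - 1) 0 with hp
    have hp0 : 0 ≤ p := le_max_right _ _
    have b1 : ∀ ω, ph (deg f (nw f lam w (S ω)) v) ≤
        (ph x + 2 * p * (lam - 1) * x + 2 * (lam - 1) ^ 2 * x ^ 2) +
          (8 * s * δ - 2 * p * lam) * XX f w v (S ω) := by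
      intro ω
      refine (ph_nw v (S ω)).trans ((ph_taylor x _).trans ?_)
      rw [← hx, ← hp]
      set X := XX f w v (S ω)
      have c1 : 0 ≤ X := XX_nonneg hw v _
      have c2 : X ≤ s * δ := XX_le_cod hw hδ hc v _ (h4 ω)
      have c3 : lam ^ 2 * X ^ 2 ≤ 4 * (s * δ * X) :=
        mul_le_mul (by nlinarith) (by nlinarith) (by positivity) (by norm_num)
      nlinarith [sq_nonneg ((lam - 1) * x + lam * X)]
    have b2 := sum_le_sum fun ω (_ : ω ∈ univ) => mul_le_mul_of_nonneg_left (b1 ω) (hπ ω)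
    simp only [mul_add (π _), sum_add_distrib, ← sum_mul, h1, one_mul] at b2
    have b3 : ∑ ω, π ω * ((8 * s * δ - 2 * p * lam) * XX f w v (S ω)) =
        (8 * s * δ - 2 * p * lam) * ∑ ω, π ω * XX f w v (S ω) := by
      rw [mul_sum]; exact sum_congr rfl fun ω _ => by ring
    rw [b3] at b2
    have b4 := exp_XX_ge hw hs hh hδ hπ h2 h3 v
    rw [← hx] at b4
    set Y := ∑ ω, π ω * XX f w v (S ω)
    have b5 := max_sq_le x
    have b6 : x ^ 2 ≤ 2 * (1 + ph x) :=
      le_trans (pow_le_pow_left₀ hx0 (le_max_right _ _) 2) b5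
    have b7 : p * x ≤ 2 * (1 + ph x) := by
      have : p ≤ x := max_le (by linarith) hx0
      nlinarith
    have b8 : 2 * p * (lam - 1) * x - 2 * p * lam * Y ≤ h * (8 * s ^ 2 * δ) * (1 + ph x) := by
      have d1 := mul_le_mul_of_nonneg_left b4 (show 0 ≤ 2 * p * lam by positivity)
      have d2 : 0 ≤ p * x := mul_nonneg hp0 hx0
      have d3 : lam - 1 ≤ lam * (h * (s - 1)) := by
        have : 0 ≤ h * (s - 1) := by nlinarith
        nlinarith
      have d4 : lam * (h * (s ^ 2 * δ)) ≤ 2 * (h * (s ^ 2 * δ)) :=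
        mul_le_mul_of_nonneg_right hl2 (by positivity)
      have d5 := mul_le_mul_of_nonneg_left b7 (show 0 ≤ 4 * (h * (s ^ 2 * δ)) by positivity)
      nlinarith [mul_le_mul_of_nonneg_left d3 d2, mul_le_mul_of_nonneg_left d4 d2]
    have b9 : 2 * (lam - 1) ^ 2 * x ^ 2 ≤ h * (4 * s ^ 2 * δ) * (1 + ph x) := by
      have d1 : (lam - 1) ^ 2 ≤ h * (s ^ 2 * δ) := by
        have e1 : lam - 1 ≤ h * s := by rw [hlam]; nlinarith
        calc (lam - 1) ^ 2 ≤ (h * s) ^ 2 := pow_le_pow_left₀ (by linarith) e1 2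
          _ = h * (s ^ 2 * h) := by ring
          _ ≤ _ := by gcongr
      nlinarith [mul_le_mul d1 b6 (sq_nonneg _) (by positivity)]
    linarith
  have t1 : ∑ ω, π ω * Ph f (nw f lam w (S ω)) =
      ∑ v, ∑ ω, π ω * ph (deg f (nw f lam w (S ω)) v) := by
    simp only [Ph, mul_sum]; exact sum_comm
  have t2 := sum_le_sum fun v (_ : v ∈ univ) => key v
  rw [← t1, sum_add_distrib, sum_add_distrib, ← mul_sum, ← mul_sum, sum_add_distrib] at t2
  have t3 := (exp_XX_le hw hs hπ h2).trans (mul_le_mul_of_nonneg_left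
    (mul_le_mul_of_nonneg_left (sum_dk_le (f := f) (w := w)) hh) (by positivity))
  have t4 := mul_le_mul_of_nonneg_left t3 (show 0 ≤ 8 * s * δ by positivity)
  simp only [sum_const, card_univ, nsmul_eq_mul, mul_one] at t2
  change _ ≤ Ph f w + h * (12 * s ^ 2 * δ) * (Fintype.card V + Ph f w) + _ at t2
  linarith

end step

end Crest.Agent.R75.Nib
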