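import Crest.Agent.R75.Fin1

/-! # Row 75, part A: first and second derivative tests -/

set_option autoImplicit false

open Finset MeasureTheory

namespace Crest.Agent.R75.A

open Crest.Agent.R75 Crest.Agent.R75.Fin1

lemma hasDerivAt_ee (x : ℝ) : HasDerivAt ee (2 * Real.pi * Complex.I * ee x) x := by
  unfold ee
  have h1 : HasDerivAt (fun y : ℝ => (2 * Real.pi * Complex.I * y : ℂ))
      (2 * Real.pi * Complex.I) x := by
    simpa using (Complex.ofRealCLM.hasDerivAt (x := x)).const_mul (2 * Real.pi * Complex.I)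
  have := h1.cexp
  convert this using 1
  ring

lemma hasDerivAt_ee_comp {φ : ℝ → ℝ} {φ' x : ℝ} (h : HasDerivAt φ φ' x) :
    HasDerivAt (fun y => ee (φ y)) (2 * Real.pi * Complex.I * φ' * ee (φ x)) x := by
  have := (hasDerivAt_ee (φ x)).scomp x h
  have e : 2 * Real.pi * Complex.I * φ' * ee (φ x) =
      φ' • (2 * Real.pi * Complex.I * ee (φ x)) := by
    rw [Complex.real_smul]; ring
  rw [e]; exact this

lemma norm_two_pi_I : ‖(2 * Real.pi * Complex.I : ℂ)‖ = 2 * Real.pi := by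
  simp [abs_of_pos Real.pi_pos]

lemma ee_lip (x y : ℝ) : ‖ee x - ee y‖ ≤ 2 * Real.pi * |x - y| := by
  have := Convex.norm_image_sub_le_of_norm_hasDerivWithin_le (f := ee)
    (f' := fun x => 2 * Real.pi * Complex.I * ee x) (s := Set.univ) (C := 2 * Real.pi)
    (fun x _ => (hasDerivAt_ee x).hasDerivWithinAt)
    (fun x _ => by rw [norm_mul, norm_two_pi_I, norm_ee, mul_one]) convex_univ
    (Set.mem_univ y) (Set.mem_univ x)
  simpa using this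

lemma integral_ee_neg (φ : ℝ → ℝ) (a b : ℝ) :
    ∫ x in a..b, ee (-φ x) = (starRingEnd ℂ) (∫ x in a..b, ee (φ x)) := by
  simp_rw [ee_neg]
  simp only [intervalIntegral, integral_conj, map_sub]

lemma norm_integral_ee_neg (φ : ℝ → ℝ) (a b : ℝ) :
    ‖∫ x in a..b, ee (-φ x)‖ = ‖∫ x in a..b, ee (φ x)‖ := by
  rw [integral_ee_neg, Complex.norm_conj]

/-- Integration by parts against a monotone weight. -/
lemma ibp_bound {E E' : ℝ → ℂ} {g g' : ℝ → ℝ} {a b : ℝ} (hab : a ≤ b)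
    (hE : ∀ x ∈ Set.Icc a b, HasDerivAt E (E' x) x) (hE' : ContinuousOn E' (Set.Icc a b))
    (hE1 : ∀ x ∈ Set.Icc a b, ‖E x‖ ≤ 1)
    (hg : ∀ x ∈ Set.Icc a b, HasDerivAt g (g' x) x) (hg' : ContinuousOn g' (Set.Icc a b))
    (hs : (∀ x ∈ Set.Icc a b, 0 ≤ g' x) ∨ (∀ x ∈ Set.Icc a b, g' x ≤ 0)) :
    ‖∫ x in a..b, E' x * g x‖ ≤ |g a| + |g b| + |g b - g a| := by
  have huI : Set.uIcc a b = Set.Icc a b := Set.uIcc_of_le hab
  have hgC : ∀ x ∈ Set.uIcc a b, HasDerivAt (fun y => ((g y : ℝ) : ℂ)) ((g' x : ℝ) : ℂ) x :=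
    fun x hx => (hg x (huI ▸ hx)).ofReal_comp
  have hg'C : ContinuousOn (fun y => ((g' y : ℝ) : ℂ)) (Set.Icc a b) :=
    Complex.continuous_ofReal.comp_continuousOn hg'
  have hEc : ContinuousOn E (Set.Icc a b) := fun x hx => (hE x hx).continuousAt.continuousWithinAt
  have key := intervalIntegral.integral_mul_deriv_eq_deriv_mul (u := fun y => ((g y : ℝ) : ℂ))
    (v := E) (u' := fun y => ((g' y : ℝ) : ℂ)) (v' := E') (a := a) (b := b) hgC
    (fun x hx => hE x (huI ▸ hx)) (hg'C.intervalIntegrable_of_Icc hab)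
    (hE'.intervalIntegrable_of_Icc hab)
  have e1 : (∫ x in a..b, E' x * g x) = ∫ x in a..b, ((g x : ℝ) : ℂ) * E' x := by
    simp_rw [mul_comm]
  rw [e1, key]
  have hftc : ∫ x in a..b, g' x = g b - g a :=
    intervalIntegral.integral_eq_sub_of_hasDerivAt (fun x hx => hg x (huI ▸ hx))
      (hg'.intervalIntegrable_of_Icc hab)
  have h3 : ‖∫ x in a..b, ((g' x : ℝ) : ℂ) * E x‖ ≤ |g b - g a| := by
    have h4 : ‖∫ x in a..b, ((g' x : ℝ) : ℂ) * E x‖ ≤ ∫ x in a..b, |g' x| := by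
      refine intervalIntegral.norm_integral_le_of_norm_le hab (Filter.Eventually.of_forall ?_)
        (hg'.abs.intervalIntegrable_of_Icc hab)
      intro x hx
      rw [norm_mul, Complex.norm_real, Real.norm_eq_abs]
      exact mul_le_of_le_one_right (abs_nonneg _) (hE1 x ⟨hx.1.le, hx.2⟩)
    refine h4.trans ?_
    rcases hs with hs | hs
    · rw [intervalIntegral.integral_congr (g := g') (fun x hx => abs_of_nonneg (hs x (huI ▸ hx))),
        hftc]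
      exact le_abs_self _
    · rw [intervalIntegral.integral_congr (g := fun x => -g' x)
        (fun x hx => abs_of_nonpos (hs x (huI ▸ hx))), intervalIntegral.integral_neg, hftc]
      exact neg_le_abs _
  have ha : ‖((g a : ℝ) : ℂ) * E a‖ ≤ |g a| := by
    rw [norm_mul, Complex.norm_real, Real.norm_eq_abs]
    exact mul_le_of_le_one_right (abs_nonneg _) (hE1 a ⟨le_rfl, hab⟩)
  have hb : ‖((g b : ℝ) : ℂ) * E b‖ ≤ |g b| := by
    rw [norm_mul, Complex.norm_real, Real.norm_eq_abs]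
    exact mul_le_of_le_one_right (abs_nonneg _) (hE1 b ⟨hab, le_rfl⟩)
  calc _ ≤ ‖((g b : ℝ) : ℂ) * E b‖ + ‖((g a : ℝ) : ℂ) * E a‖ +
        ‖∫ x in a..b, ((g' x : ℝ) : ℂ) * E x‖ :=
        (norm_sub_le _ _).trans (by gcongr; exact norm_sub_le _ _)
    _ ≤ _ := by linarith

/-- First derivative test, positive derivative. -/
lemma fdt_pos {φ φ' φ'' : ℝ → ℝ} {a b lam : ℝ} (hab : a ≤ b) (hl : 0 < lam)
    (h1 : ∀ x, HasDerivAt φ (φ' x) x) (h2 : ∀ x, HasDerivAt φ' (φ'' x) x) (h3 : Continuous φ'')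
    (hs : (∀ x ∈ Set.Icc a b, 0 ≤ φ'' x) ∨ (∀ x ∈ Set.Icc a b, φ'' x ≤ 0))
    (hlam : ∀ x ∈ Set.Icc a b, lam ≤ φ' x) :
    ‖∫ x in a..b, ee (φ x)‖ ≤ 1 / (2 * lam) := by
  have hφc : Continuous φ := continuous_iff_continuousAt.2 fun x => (h1 x).continuousAt
  have hφ'c : Continuous φ' := continuous_iff_continuousAt.2 fun x => (h2 x).continuousAt
  have hpos : ∀ x ∈ Set.Icc a b, 0 < φ' x := fun x hx => hl.trans_le (hlam x hx)
  have key := ibp_bound (E := fun x => ee (φ x))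
    (E' := fun x => 2 * Real.pi * Complex.I * φ' x * ee (φ x)) (g := fun x => (φ' x)⁻¹)
    (g' := fun x => -φ'' x / φ' x ^ 2) hab (fun x _ => hasDerivAt_ee_comp (h1 x))
    (by
      have := continuous_ee
      exact Continuous.continuousOn (by fun_prop))
    (fun x _ => (norm_ee _).le) (fun x hx => (h2 x).inv (hpos x hx).ne')
    (h3.neg.continuousOn.div (hφ'c.pow 2).continuousOn fun x hx => pow_ne_zero _ (hpos x hx).ne')
    (by
      rcases hs with hs | hs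
      · right; intro x hx
        exact div_nonpos_of_nonpos_of_nonneg (neg_nonpos.2 (hs x hx)) (sq_nonneg _)
      · left; intro x hx
        exact div_nonneg (neg_nonneg.2 (hs x hx)) (sq_nonneg _))
  have e1 : (∫ x in a..b, 2 * Real.pi * Complex.I * φ' x * ee (φ x) * ((φ' x)⁻¹ : ℝ)) =
      2 * Real.pi * Complex.I * ∫ x in a..b, ee (φ x) := by
    rw [← intervalIntegral.integral_const_mul]
    refine intervalIntegral.integral_congr fun x hx => ?_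
    rw [Set.uIcc_of_le hab] at hx
    have : ((φ' x : ℝ) : ℂ) ≠ 0 := by exact_mod_cast (hpos x hx).ne'
    push_cast
    field_simp
  rw [e1, norm_mul, norm_two_pi_I] at key
  have ha : (φ' a)⁻¹ ≤ lam⁻¹ := inv_anti₀ hl (hlam a ⟨le_rfl, hab⟩)
  have hb : (φ' b)⁻¹ ≤ lam⁻¹ := inv_anti₀ hl (hlam b ⟨hab, le_rfl⟩)
  have ha0 : 0 < (φ' a)⁻¹ := inv_pos.2 (hpos a ⟨le_rfl, hab⟩)
  have hb0 : 0 < (φ' b)⁻¹ := inv_pos.2 (hpos b ⟨hab, le_rfl⟩)
  rw [abs_of_pos ha0, abs_of_pos hb0] at key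
  have h5 : (φ' a)⁻¹ + (φ' b)⁻¹ + |(φ' b)⁻¹ - (φ' a)⁻¹| ≤ 2 * lam⁻¹ := by
    rcases abs_cases ((φ' b)⁻¹ - (φ' a)⁻¹) with h | h <;> linarith [h.1]
  have hpi := Real.pi_gt_three
  have hn := norm_nonneg (∫ x in a..b, ee (φ x))
  have h6 : 1 / (2 * lam) = lam⁻¹ / 2 := by field_simp
  rw [h6]
  nlinarith

/-- First derivative test. -/
lemma fdt {φ φ' φ'' : ℝ → ℝ} {a b lam : ℝ} (hab : a ≤ b) (hl : 0 < lam)
    (h1 : ∀ x, HasDerivAt φ (φ' x) x) (h2 : ∀ x, HasDerivAt φ' (φ'' x) x) (h3 : Continuous φ'')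
    (hs : (∀ x ∈ Set.Icc a b, 0 ≤ φ'' x) ∨ (∀ x ∈ Set.Icc a b, φ'' x ≤ 0))
    (hlam : (∀ x ∈ Set.Icc a b, lam ≤ φ' x) ∨ (∀ x ∈ Set.Icc a b, φ' x ≤ -lam)) :
    ‖∫ x in a..b, ee (φ x)‖ ≤ 1 / (2 * lam) := by
  rcases hlam with hlam | hlam
  · exact fdt_pos hab hl h1 h2 h3 hs hlam
  · rw [← norm_integral_ee_neg]
    refine fdt_pos (φ := fun x => -φ x) (φ' := fun x => -φ' x) (φ'' := fun x => -φ'' x) hab hl
      (fun x => (h1 x).neg) (fun x => (h2 x).neg) h3.neg ?_ (fun x hx => by linarith [hlam x hx])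
    rcases hs with hs | hs
    · right; intro x hx; linarith [hs x hx]
    · left; intro x hx; linarith [hs x hx]

/-- Growth of a function with derivative at least `μ`. -/
lemma grow {g g' : ℝ → ℝ} {a b μ : ℝ} (hg : ∀ x, HasDerivAt g (g' x) x)
    (hμ : ∀ x ∈ Set.Icc a b, μ ≤ g' x) {x y : ℝ} (hx : x ∈ Set.Icc a b) (hy : y ∈ Set.Icc a b)
    (hxy : x ≤ y) : μ * (y - x) ≤ g y - g x := by
  have hc : Continuous g := continuous_iff_continuousAt.2 fun x => (hg x).continuousAt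
  refine (convex_Icc a b).mul_sub_le_image_sub_of_le_deriv hc.continuousOn
    (fun x _ => (hg x).differentiableAt.differentiableWithinAt) ?_ x hx y hy hxy
  intro w hw
  rw [(hg w).deriv]
  exact hμ w (interior_subset hw)

lemma exists_clamp {g : ℝ → ℝ} {a b : ℝ} (hab : a ≤ b) (hc : Continuous g)
    (hm : ∀ x ∈ Set.Icc a b, ∀ y ∈ Set.Icc a b, x ≤ y → g x ≤ g y) (v : ℝ) :
    ∃ c ∈ Set.Icc a b, (c = a ∨ ∀ x ∈ Set.Icc a c, g x ≤ v) ∧
      (c = b ∨ ∀ x ∈ Set.Icc c b, v ≤ g x) := by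
  by_cases h1 : v ≤ g a
  · exact ⟨a, ⟨le_rfl, hab⟩, Or.inl rfl,
      Or.inr fun x hx => h1.trans (hm a ⟨le_rfl, hab⟩ x hx hx.1)⟩
  by_cases h2 : g b ≤ v
  · exact ⟨b, ⟨hab, le_rfl⟩, Or.inr fun x hx => (hm x hx b ⟨hab, le_rfl⟩ hx.2).trans h2,
      Or.inl rfl⟩
  obtain ⟨c, hc1, hc2⟩ := intermediate_value_Icc hab hc.continuousOn
    (show v ∈ Set.Icc (g a) (g b) from ⟨(not_le.1 h1).le, (not_le.1 h2).le⟩)
  refine ⟨c, hc1, Or.inr fun x hx => ?_, Or.inr fun x hx => ?_⟩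
  · rw [← hc2]; exact hm x ⟨hx.1, hx.2.trans hc1.2⟩ c hc1 hx.2
  · rw [← hc2]; exact hm c hc1 x ⟨hc1.1.trans hx.1, hx.2⟩ hx.1

/-- The window where an increasing function is small. -/
lemma exists_window {g g' : ℝ → ℝ} {a b μ s : ℝ} (hab : a ≤ b) (hμ0 : 0 < μ) (hs : 0 < s)
    (hg : ∀ x, HasDerivAt g (g' x) x) (hμ : ∀ x ∈ Set.Icc a b, μ ≤ g' x) :
    ∃ c₁ c₂ : ℝ, a ≤ c₁ ∧ c₁ ≤ c₂ ∧ c₂ ≤ b ∧ (c₁ = a ∨ ∀ x ∈ Set.Icc a c₁, g x ≤ -s) ∧
      (c₂ = b ∨ ∀ x ∈ Set.Icc c₂ b, s ≤ g x) ∧ c₂ - c₁ ≤ 2 * s / μ ∧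
      (c₁ < c₂ → ∀ x ∈ Set.Icc c₁ c₂, |g x| ≤ s) := by
  have hc : Continuous g := continuous_iff_continuousAt.2 fun x => (hg x).continuousAt
  have hm : ∀ x ∈ Set.Icc a b, ∀ y ∈ Set.Icc a b, x ≤ y → g x ≤ g y := fun x hx y hy hxy => by
    have := grow hg hμ hx hy hxy
    have : 0 ≤ μ * (y - x) := mul_nonneg hμ0.le (by linarith)
    linarith
  obtain ⟨c₁, hc₁, h1, h2⟩ := exists_clamp hab hc hm (-s)
  obtain ⟨c₂, hc₂, h3, h4⟩ := exists_clamp hc₁.2 hc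
    (fun x hx y hy => hm x ⟨hc₁.1.trans hx.1, hx.2⟩ y ⟨hc₁.1.trans hy.1, hy.2⟩) s
  have hw : c₁ < c₂ → ∀ x ∈ Set.Icc c₁ c₂, |g x| ≤ s := by
    intro hlt x hx
    rcases h2 with h2 | h2
    · exact absurd (hlt.trans_le hc₂.2) (by rw [h2]; exact lt_irrefl _)
    rcases h3 with h3 | h3
    · exact absurd hlt (by rw [h3]; exact lt_irrefl _)
    exact abs_le.2 ⟨h2 x ⟨hx.1, hx.2.trans hc₂.2⟩, h3 x hx⟩
  refine ⟨c₁, c₂, hc₁.1, hc₂.1, hc₂.2, h1, h4, ?_, hw⟩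
  rcases hc₂.1.eq_or_lt with h | h
  · rw [← h, sub_self]; positivity
  · have h5 := abs_le.1 (hw h c₁ ⟨le_rfl, h.le⟩)
    have h6 := abs_le.1 (hw h c₂ ⟨h.le, le_rfl⟩)
    have h7 := grow hg hμ hc₁ ⟨hc₁.1.trans hc₂.1, hc₂.2⟩ h.le
    rw [le_div_iff₀ hμ0]
    linarith

lemma norm_integral_ee_le (φ : ℝ → ℝ) {a b : ℝ} (hab : a ≤ b) :
    ‖∫ x in a..b, ee (φ x)‖ ≤ b - a := by
  have := intervalIntegral.norm_integral_le_of_norm_le_const (a := a) (b := b) (C := 1)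
    (f := fun x => ee (φ x)) (fun x _ => (norm_ee _).le)
  rwa [one_mul, abs_of_nonneg (by linarith)] at this

lemma o2_pos {φ φ' φ'' : ℝ → ℝ} {a b μ : ℝ} (hab : a ≤ b) (hμ : 0 < μ)
    (h1 : ∀ x, HasDerivAt φ (φ' x) x) (h2 : ∀ x, HasDerivAt φ' (φ'' x) x) (h3 : Continuous φ'')
    (hs : ∀ x ∈ Set.Icc a b, μ ≤ φ'' x) : ‖∫ x in a..b, ee (φ x)‖ ≤ 4 / Real.sqrt μ := by
  have hφc : Continuous φ := continuous_iff_continuousAt.2 fun x => (h1 x).continuousAt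
  have hI : ∀ u v : ℝ, IntervalIntegrable (fun x => ee (φ x)) volume u v := fun u v =>
    (continuous_ee.comp hφc).intervalIntegrable u v
  set s := Real.sqrt μ with hsdef
  have hs0 : 0 < s := Real.sqrt_pos.2 hμ
  have hss : s * s = μ := Real.mul_self_sqrt hμ.le
  obtain ⟨c₁, c₂, hc1, hc12, hc2, hl, hr, hw, -⟩ := exists_window hab hμ hs0 h2 hs
  have hsplit : (∫ x in a..b, ee (φ x)) =
      (∫ x in a..c₁, ee (φ x)) + (∫ x in c₁..c₂, ee (φ x)) + ∫ x in c₂..b, ee (φ x) := by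
    rw [intervalIntegral.integral_add_adjacent_intervals (hI _ _) (hI _ _),
      intervalIntegral.integral_add_adjacent_intervals (hI _ _) (hI _ _)]
  have e1 : ‖∫ x in a..c₁, ee (φ x)‖ ≤ 1 / (2 * s) := by
    rcases hl with hl | hl
    · rw [hl]; simp [hs0.le]
    · exact fdt hc1 hs0 h1 h2 h3 (Or.inl fun x hx =>
        hμ.le.trans (hs x ⟨hx.1, hx.2.trans (hc12.trans hc2)⟩)) (Or.inr hl)
  have e2 : ‖∫ x in c₂..b, ee (φ x)‖ ≤ 1 / (2 * s) := by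
    rcases hr with hr | hr
    · rw [hr]; simp [hs0.le]
    · exact fdt hc2 hs0 h1 h2 h3 (Or.inl fun x hx =>
        hμ.le.trans (hs x ⟨(hc1.trans hc12).trans hx.1, hx.2⟩)) (Or.inl hr)
  have e3 := norm_integral_ee_le φ hc12
  have e4 : 2 * s / μ = 2 / s := by rw [← hss]; field_simp
  have e5 : 1 / (2 * s) + 2 / s + 1 / (2 * s) ≤ 4 / s := by
    have : 1 / (2 * s) + 2 / s + 1 / (2 * s) = 3 / s := by field_simp; ring
    rw [this]; gcongr; norm_num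
  rw [hsplit]
  calc _ ≤ ‖∫ x in a..c₁, ee (φ x)‖ + ‖∫ x in c₁..c₂, ee (φ x)‖ + ‖∫ x in c₂..b, ee (φ x)‖ :=
        norm_add₃_le
    _ ≤ _ := by linarith

end Crest.Agent.R75.A

namespace Crest.Agent.R75

theorem o2 : O2Stmt := by
  intro φ φ' φ'' a b μ hab hμ h1 h2 h3 hs
  rcases hs with hs | hs
  · exact A.o2_pos hab hμ h1 h2 h3 hs
  · rw [← A.norm_integral_ee_neg]
    exact A.o2_pos (φ := fun x => -φ x) (φ' := fun x => -φ' x) (φ'' := fun x => -φ'' x) hab hμ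
      (fun x => (h1 x).neg) (fun x => (h2 x).neg) h3.neg (fun x hx => by linarith [hs x hx])

end Crest.Agent.R75
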