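import Crest.Agent.R75.Osc1

/-! # Row 75, part A: the Fresnel integral -/

set_option autoImplicit false

open Finset MeasureTheory Filter Topology

namespace Crest.Agent.R75.A

open Crest.Agent.R75 Crest.Agent.R75.Fin1

lemma gauss_tail {b : ℂ} (hb : 0 ≤ b.re) (hb1 : 2 ≤ ‖b‖) {T R : ℝ} (hT : 0 < T) (hTR : T ≤ R) :
    ‖∫ u in T..R, Complex.exp (-b * (u : ℂ) ^ 2)‖ ≤ 1 / (2 * T) := by
  have hpos : ∀ x ∈ Set.Icc T R, 0 < x := fun x hx => hT.trans_le hx.1
  have key := ibp_bound (E := fun u : ℝ => Complex.exp (-b * (u : ℂ) ^ 2))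
    (E' := fun u : ℝ => Complex.exp (-b * (u : ℂ) ^ 2) * (-b * (2 * u))) (g := fun x => x⁻¹)
    (g' := fun x => -(x ^ 2)⁻¹) hTR
    (fun x _ => by
      have h1 : HasDerivAt (fun y : ℝ => (y : ℂ)) 1 x := Complex.ofRealCLM.hasDerivAt
      have h2 := ((h1.fun_pow 2).const_mul (-b)).cexp
      simpa using h2)
    (Continuous.continuousOn (by fun_prop))
    (fun x _ => by
      rw [norm_cexp_neg_mul_sq]
      exact Real.exp_le_one_iff.2 (by nlinarith [sq_nonneg x]))
    (fun x hx => hasDerivAt_inv (hpos x hx).ne')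
    (ContinuousOn.neg (ContinuousOn.inv₀ (by fun_prop) fun x hx => pow_ne_zero _ (hpos x hx).ne'))
    (Or.inr fun x _ => neg_nonpos.2 (by positivity))
  have e1 : (∫ u in T..R, Complex.exp (-b * (u : ℂ) ^ 2) * (-b * (2 * u)) * ((u⁻¹ : ℝ) : ℂ)) =
      (-2 * b) * ∫ u in T..R, Complex.exp (-b * (u : ℂ) ^ 2) := by
    rw [← intervalIntegral.integral_const_mul]
    refine intervalIntegral.integral_congr fun x hx => ?_
    rw [Set.uIcc_of_le hTR] at hx
    have : (x : ℂ) ≠ 0 := by exact_mod_cast (hpos x hx).ne'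
    push_cast
    field_simp
  rw [e1, norm_mul, norm_mul] at key
  have hR : 0 < R := hT.trans_le hTR
  have h1 : R⁻¹ ≤ T⁻¹ := inv_anti₀ hT hTR
  rw [abs_of_pos (inv_pos.2 hT), abs_of_pos (inv_pos.2 hR), abs_of_nonpos (by linarith)] at key
  have h2 : ‖(-2 : ℂ)‖ = 2 := by simp
  rw [h2] at key
  have hn := norm_nonneg (∫ u in T..R, Complex.exp (-b * (u : ℂ) ^ 2))
  have h6 : 1 / (2 * T) = T⁻¹ / 2 := by field_simp
  rw [h6]
  nlinarith

lemma gauss_trunc {b : ℂ} (hb : 0 < b.re) (hb1 : 2 ≤ ‖b‖) {T : ℝ} (hT : 0 < T) :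
    ‖(∫ u in (-T)..T, Complex.exp (-b * (u : ℂ) ^ 2)) - (Real.pi / b) ^ (1 / 2 : ℂ)‖ ≤ 1 / T := by
  have hint := integrable_cexp_neg_mul_sq hb
  have hlim := intervalIntegral_tendsto_integral hint (l := atTop) (a := fun R : ℝ => -R)
    (b := fun R : ℝ => R) tendsto_neg_atTop_atBot tendsto_id
  rw [integral_gaussian_complex hb] at hlim
  have h2 := ((tendsto_const_nhds
    (x := ∫ u in (-T)..T, Complex.exp (-b * (u : ℂ) ^ 2))).sub hlim).norm
  refine le_of_tendsto h2 ?_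
  filter_upwards [eventually_ge_atTop T] with R hR
  have hI : ∀ u v : ℝ, IntervalIntegrable (fun u : ℝ => Complex.exp (-b * (u : ℂ) ^ 2)) volume u v :=
    fun u v => hint.intervalIntegrable
  have hsplit : (∫ u in (-R)..R, Complex.exp (-b * (u : ℂ) ^ 2)) =
      (∫ u in (-R)..(-T), Complex.exp (-b * (u : ℂ) ^ 2)) +
        (∫ u in (-T)..T, Complex.exp (-b * (u : ℂ) ^ 2)) +
        ∫ u in T..R, Complex.exp (-b * (u : ℂ) ^ 2) := by
    rw [intervalIntegral.integral_add_adjacent_intervals (hI _ _) (hI _ _),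
      intervalIntegral.integral_add_adjacent_intervals (hI _ _) (hI _ _)]
  have hneg : (∫ u in (-R)..(-T), Complex.exp (-b * (u : ℂ) ^ 2)) =
      ∫ u in T..R, Complex.exp (-b * (u : ℂ) ^ 2) := by
    rw [← intervalIntegral.integral_comp_neg (fun u : ℝ => Complex.exp (-b * (u : ℂ) ^ 2))]
    simp
  have ht := gauss_tail hb.le hb1 hT hR
  rw [hsplit, hneg]
  have : ∀ x y : ℂ, y - (x + y + x) = -(2 * x) := fun x y => by ring
  rw [this, norm_neg, norm_mul]
  have h6 : 1 / T = 2 * (1 / (2 * T)) := by field_simp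
  rw [h6]
  simp only [Complex.norm_ofNat]
  linarith

/-- The truncated Fresnel integral. -/
lemma fresnel {T : ℝ} (hT : 0 < T) :
    ‖(∫ u in (-T)..T, ee (u ^ 2 / 2)) - ee (1 / 8)‖ ≤ 1 / T := by
  have hpi : (Real.pi : ℂ) ≠ 0 := by exact_mod_cast Real.pi_ne_zero
  set bb : ℝ → ℂ := fun ε => (ε : ℂ) - Real.pi * Complex.I with hbb
  have hbc : Continuous bb := by simp only [hbb]; fun_prop
  have h1 : Continuous fun ε : ℝ => ∫ u in (-T)..T, Complex.exp (-(bb ε) * (u : ℂ) ^ 2) :=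
    intervalIntegral.continuous_parametric_intervalIntegral_of_continuous'
      (f := fun ε u : ℝ => Complex.exp (-(bb ε) * (u : ℂ) ^ 2))
      (by unfold Function.uncurry; fun_prop) _ _
  have hb0 : (Real.pi : ℂ) / bb 0 = Complex.I := by
    simp only [hbb]
    push_cast
    rw [div_eq_iff (by simp [Real.pi_ne_zero])]
    ring_nf
    simp
  have h2 : ContinuousAt (fun ε : ℝ => ((Real.pi : ℂ) / bb ε) ^ (1 / 2 : ℂ)) 0 := by
    refine ContinuousAt.cpow (continuousAt_const.div hbc.continuousAt ?_) continuousAt_const ?_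
    · simp [hbb, Real.pi_ne_zero]
    · rw [hb0]; simp [Complex.mem_slitPlane_iff]
  have h3 := ((h1.continuousAt (x := 0)).sub h2).norm.tendsto.mono_left
    (nhdsWithin_le_nhds (s := Set.Ioi (0 : ℝ)))
  have h4 := le_of_tendsto h3 (b := 1 / T) (by
    filter_upwards [self_mem_nhdsWithin] with ε hε
    refine gauss_trunc (by simpa [hbb] using hε) ?_ hT
    have := Complex.abs_im_le_norm (bb ε)
    have h5 : (bb ε).im = -Real.pi := by simp [hbb]
    rw [h5, abs_neg, abs_of_pos Real.pi_pos] at this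
    linarith [Real.pi_gt_three])
  simp only [Pi.sub_apply, hb0] at h4
  have e1 : ∀ u : ℝ, Complex.exp (-(bb 0) * (u : ℂ) ^ 2) = ee (u ^ 2 / 2) := by
    intro u; unfold ee; congr 1; simp only [hbb]; push_cast; ring
  have e2 : Complex.I ^ (1 / 2 : ℂ) = ee (1 / 8) := by
    rw [Complex.cpow_def_of_ne_zero Complex.I_ne_zero, Complex.log_I]
    unfold ee; congr 1; push_cast; ring
  simpa only [e1, e2] using h4

end Crest.Agent.R75.A
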