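import Crest.Agent.R75.Osc2

/-! # Row 75, part A: stationary phase for integrals -/

set_option autoImplicit false

open Finset MeasureTheory Filter Topology

namespace Crest.Agent.R75.A

open Crest.Agent.R75 Crest.Agent.R75.Fin1

lemma abs_sub_le_of_deriv {r r' : ℝ → ℝ} {a b C : ℝ} (hr : ∀ x, HasDerivAt r (r' x) x)
    (hC : ∀ x ∈ Set.Icc a b, |r' x| ≤ C) {x y : ℝ} (hx : x ∈ Set.Icc a b) (hy : y ∈ Set.Icc a b) :
    |r y - r x| ≤ C * |y - x| := by
  have := Convex.norm_image_sub_le_of_norm_hasDerivWithin_le (f := r) (f' := r')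
    (s := Set.Icc a b) (C := C) (fun x _ => (hr x).hasDerivWithinAt) hC (convex_Icc a b) hx hy
  simpa using this

variable {Ψ τ τ' : ℝ → ℝ} {c L H z : ℝ}

lemma Prof_L_nonneg (P : Prof Ψ τ τ' c L H z) : 0 ≤ L := by
  have := P.lip 0 ⟨le_rfl, zero_le_one⟩ 1 ⟨zero_le_one, le_rfl⟩
  simp only [zero_sub, abs_neg, abs_one, mul_one] at this
  exact (abs_nonneg _).trans this

lemma taylor (P : Prof Ψ τ τ' c L H z) {x₀ W : ℝ} (hW : 0 ≤ W) (h0 : 0 ≤ x₀ - W)
    (h1 : x₀ + W ≤ 1) {x : ℝ} (hx : x ∈ Set.Icc (x₀ - W) (x₀ + W)) :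
    |Ψ x - Ψ x₀ - τ x₀ * (x - x₀) - τ' x₀ * (x - x₀) ^ 2 / 2| ≤ L * W ^ 3 := by
  have hL := Prof_L_nonneg P
  have hx₀ : x₀ ∈ Set.Icc (x₀ - W) (x₀ + W) := ⟨by linarith, by linarith⟩
  have hsub : ∀ y ∈ Set.Icc (x₀ - W) (x₀ + W), y ∈ Set.Icc (0 : ℝ) 1 := fun y hy =>
    ⟨h0.trans hy.1, hy.2.trans h1⟩
  have habs : ∀ y ∈ Set.Icc (x₀ - W) (x₀ + W), |y - x₀| ≤ W := fun y hy =>
    abs_le.2 ⟨by linarith [hy.1], by linarith [hy.2]⟩
  have hr1 : ∀ y ∈ Set.Icc (x₀ - W) (x₀ + W), |τ y - τ x₀ - τ' x₀ * (y - x₀)| ≤ L * W * W := by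
    intro y hy
    have := abs_sub_le_of_deriv (r := fun y => τ y - τ' x₀ * (y - x₀))
      (r' := fun y => τ' y - τ' x₀) (C := L * W)
      (fun y => by
        simpa using (P.hτ y).fun_sub (((hasDerivAt_id y).sub_const x₀).const_mul (τ' x₀)))
      (fun y hy => (P.lip y (hsub y hy) x₀ (hsub x₀ hx₀)).trans
        (mul_le_mul_of_nonneg_left (habs y hy) hL)) hx₀ hy
    have e : τ y - τ' x₀ * (y - x₀) - (τ x₀ - τ' x₀ * (x₀ - x₀)) =
      τ y - τ x₀ - τ' x₀ * (y - x₀) := by ring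
    rw [e] at this
    exact this.trans (mul_le_mul_of_nonneg_left (habs y hy) (by positivity))
  have := abs_sub_le_of_deriv
    (r := fun y => Ψ y - τ x₀ * (y - x₀) - τ' x₀ * (y - x₀) ^ 2 / 2)
    (r' := fun y => τ y - τ x₀ - τ' x₀ * (y - x₀)) (C := L * W * W)
    (fun y => by
      have h1 := ((hasDerivAt_id y).sub_const x₀)
      have h2 := ((P.hΨ y).fun_sub (h1.const_mul (τ x₀))).fun_sub
        (((h1.fun_pow 2).const_mul (τ' x₀)).div_const 2)
      exact h2.congr_deriv (by simp; ring)) hr1 hx₀ hx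
  have e : Ψ x - τ x₀ * (x - x₀) - τ' x₀ * (x - x₀) ^ 2 / 2 -
      (Ψ x₀ - τ x₀ * (x₀ - x₀) - τ' x₀ * (x₀ - x₀) ^ 2 / 2) =
      Ψ x - Ψ x₀ - τ x₀ * (x - x₀) - τ' x₀ * (x - x₀) ^ 2 / 2 := by ring
  rw [e] at this
  calc _ ≤ L * W * W * |x - x₀| := this
    _ ≤ L * W * W * W := mul_le_mul_of_nonneg_left (habs x hx) (by positivity)
    _ = _ := by ring

lemma phase_d1 (P : Prof Ψ τ τ' c L H z) (β t x : ℝ) :
    HasDerivAt (fun x => β * (Ψ x - t * x)) (β * (τ x - t)) x := by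
  simpa using ((P.hΨ x).fun_sub ((hasDerivAt_id x).const_mul t)).const_mul β

lemma phase_d2 (P : Prof Ψ τ τ' c L H z) (β t x : ℝ) :
    HasDerivAt (fun x => β * (τ x - t)) (β * τ' x) x :=
  ((P.hτ x).sub_const t).const_mul β

lemma phase_int (P : Prof Ψ τ τ' c L H z) (β t u v : ℝ) :
    IntervalIntegrable (fun x => ee (β * (Ψ x - t * x))) volume u v :=
  (continuous_ee.comp (continuous_iff_continuousAt.2 fun x =>
    (phase_d1 P β t x).continuousAt)).intervalIntegrable u v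

/-- First derivative test for the phase, away from the stationary point. -/
lemma phase_fdt (P : Prof Ψ τ τ' c L H z) {β t a b lam : ℝ} (hβ : 0 < β) (h0 : 0 ≤ a) (hab : a ≤ b)
    (h1 : b ≤ 1) (hl : 0 < lam)
    (h : (∀ x ∈ Set.Icc a b, lam ≤ τ x - t) ∨ (∀ x ∈ Set.Icc a b, τ x - t ≤ -lam)) :
    ‖∫ x in a..b, ee (β * (Ψ x - t * x))‖ ≤ 1 / (2 * (β * lam)) := by
  refine fdt hab (mul_pos hβ hl) (phase_d1 P β t) (phase_d2 P β t) (continuous_const.mul P.cont)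
    (Or.inl fun x hx => mul_nonneg hβ.le
      (P.cpos.le.trans (P.lower x ⟨h0.trans hx.1, hx.2.trans h1⟩))) ?_
  rcases h with h | h
  · left; intro x hx; exact mul_le_mul_of_nonneg_left (h x hx) hβ.le
  · right; intro x hx
    have := mul_le_mul_of_nonneg_left (h x hx) hβ.le
    linarith

lemma spc_a (P : Prof Ψ τ τ' c L H z) {β A x₀ t : ℝ} (hβ : 0 < β) (hA : 0 < A)
    (hz : A / Real.sqrt β ≤ z) (hx₀ : x₀ ∈ Set.Icc z (1 - z)) (ht : τ x₀ = t) :
    ‖(Real.sqrt β : ℝ) * (∫ x in (0 : ℝ)..1, ee (β * (Ψ x - t * x))) -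
      ((Real.sqrt (τ' x₀))⁻¹ : ℝ) * ee (1 / 8 + β * (Ψ x₀ - t * x₀))‖ ≤
      2 / (c * A) + 4 * Real.pi * L * A ^ 4 / Real.sqrt β := by
  have hL := Prof_L_nonneg P
  have hc := P.cpos
  set r := Real.sqrt β with hr
  have hr0 : 0 < r := Real.sqrt_pos.2 hβ
  have hrr : r * r = β := Real.mul_self_sqrt hβ.le
  set W := A / r with hW
  have hW0 : 0 < W := div_pos hA hr0
  have hrW : r * W = A := by rw [hW]; field_simp
  have h0 : 0 ≤ x₀ - W := by linarith [hx₀.1]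
  have h1 : x₀ + W ≤ 1 := by linarith [hx₀.2]
  have hx01 : x₀ ∈ Set.Icc (0 : ℝ) 1 := ⟨by linarith, by linarith⟩
  set κ := τ' x₀ with hκ
  have hκc : c ≤ κ := P.lower x₀ hx01
  have hκ0 : 0 < κ := hc.trans_le hκc
  set k := Real.sqrt κ with hk
  have hk0 : 0 < k := Real.sqrt_pos.2 hκ0
  have hkk : k * k = κ := Real.mul_self_sqrt hκ0.le
  have hI := phase_int P β t
  -- outer pieces
  have o1 : ‖∫ x in (0 : ℝ)..(x₀ - W), ee (β * (Ψ x - t * x))‖ ≤ 1 / (2 * (β * (c * W))) :=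
    phase_fdt P hβ le_rfl h0 (by linarith) (mul_pos hc hW0) (Or.inr fun x hx => by
      have := grow P.hτ P.lower (x := x) (y := x₀) ⟨hx.1, by linarith [hx.2]⟩ hx01
        (by linarith [hx.2])
      have h2 : c * W ≤ c * (x₀ - x) := mul_le_mul_of_nonneg_left (by linarith [hx.2]) hc.le
      linarith)
  have o2 : ‖∫ x in (x₀ + W)..1, ee (β * (Ψ x - t * x))‖ ≤ 1 / (2 * (β * (c * W))) :=
    phase_fdt P hβ (by linarith) h1 le_rfl (mul_pos hc hW0) (Or.inl fun x hx => by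
      have := grow P.hτ P.lower (x := x₀) (y := x) hx01 ⟨by linarith [hx.1], hx.2⟩
        (by linarith [hx.1])
      have h2 : c * W ≤ c * (x - x₀) := mul_le_mul_of_nonneg_left (by linarith [hx.1]) hc.le
      linarith)
  -- the window
  set φ₀ := β * (Ψ x₀ - t * x₀) with hφ₀
  have hQc : Continuous fun x : ℝ => ee (φ₀ + β * (κ * (x - x₀) ^ 2 / 2)) :=
    continuous_ee.comp (by fun_prop)
  have w1 : ‖(∫ x in (x₀ - W)..(x₀ + W), ee (β * (Ψ x - t * x))) -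
      ∫ x in (x₀ - W)..(x₀ + W), ee (φ₀ + β * (κ * (x - x₀) ^ 2 / 2))‖ ≤
      2 * Real.pi * (β * (L * W ^ 3)) * (2 * W) := by
    rw [← intervalIntegral.integral_sub (hI _ _) (hQc.intervalIntegrable _ _)]
    have := intervalIntegral.norm_integral_le_of_norm_le_const (a := x₀ - W) (b := x₀ + W)
      (C := 2 * Real.pi * (β * (L * W ^ 3)))
      (f := fun x => ee (β * (Ψ x - t * x)) - ee (φ₀ + β * (κ * (x - x₀) ^ 2 / 2)))
      (fun x hx => by
        rw [Set.uIoc_of_le (by linarith)] at hx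
        refine (ee_lip _ _).trans (mul_le_mul_of_nonneg_left ?_ (by positivity))
        have h3 := taylor P hW0.le h0 h1 ⟨hx.1.le, hx.2⟩
        have e : β * (Ψ x - t * x) - (φ₀ + β * (κ * (x - x₀) ^ 2 / 2)) =
            β * (Ψ x - Ψ x₀ - τ x₀ * (x - x₀) - τ' x₀ * (x - x₀) ^ 2 / 2) := by
          rw [hφ₀, ht]; ring
        rw [e, abs_mul, abs_of_pos hβ]
        exact mul_le_mul_of_nonneg_left h3 hβ.le)
    rwa [show x₀ + W - (x₀ - W) = 2 * W by ring, abs_of_pos (by linarith)] at this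
  have w2 : (∫ x in (x₀ - W)..(x₀ + W), ee (φ₀ + β * (κ * (x - x₀) ^ 2 / 2))) =
      ee φ₀ * (((r * k)⁻¹ : ℝ) * ∫ u in (-(k * A))..(k * A), ee (u ^ 2 / 2)) := by
    have h4 := intervalIntegral.integral_comp_mul_sub (a := x₀ - W) (b := x₀ + W)
      (fun u : ℝ => ee (u ^ 2 / 2)) (c := r * k) (mul_pos hr0 hk0).ne' (r * k * x₀)
    have e1 : r * k * (x₀ - W) - r * k * x₀ = -(k * A) := by rw [← hrW]; ring
    have e2 : r * k * (x₀ + W) - r * k * x₀ = k * A := by rw [← hrW]; ring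
    rw [e1, e2, Complex.real_smul] at h4
    rw [← h4, ← intervalIntegral.integral_const_mul]
    refine intervalIntegral.integral_congr fun x _ => ?_
    rw [ee_add]
    congr 2
    rw [← hrr, ← hkk]; ring
  have w3 := fresnel (mul_pos hk0 hA)
  have hsplit : (∫ x in (0 : ℝ)..1, ee (β * (Ψ x - t * x))) =
      (∫ x in (0 : ℝ)..(x₀ - W), ee (β * (Ψ x - t * x))) +
        (∫ x in (x₀ - W)..(x₀ + W), ee (β * (Ψ x - t * x))) +
        ∫ x in (x₀ + W)..1, ee (β * (Ψ x - t * x)) := by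
    rw [intervalIntegral.integral_add_adjacent_intervals (hI _ _) (hI _ _),
      intervalIntegral.integral_add_adjacent_intervals (hI _ _) (hI _ _)]
  rw [hsplit]
  rw [w2] at w1
  generalize (∫ x in (0 : ℝ)..(x₀ - W), ee (β * (Ψ x - t * x))) = I₁ at *
  generalize (∫ x in (x₀ - W)..(x₀ + W), ee (β * (Ψ x - t * x))) = I₂ at *
  generalize (∫ x in (x₀ + W)..1, ee (β * (Ψ x - t * x))) = I₃ at *
  generalize (∫ u in (-(k * A))..(k * A), ee (u ^ 2 / 2)) = F at *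
  have hrC : (r : ℂ) ≠ 0 := by exact_mod_cast hr0.ne'
  have hkC : (k : ℂ) ≠ 0 := by exact_mod_cast hk0.ne'
  have e : (r : ℂ) * (I₁ + I₂ + I₃) - ((k⁻¹ : ℝ) : ℂ) * ee (1 / 8 + φ₀) =
      (r : ℂ) * I₁ + (r : ℂ) * I₃ + (r : ℂ) * (I₂ - ee φ₀ * (((r * k)⁻¹ : ℝ) * F)) +
        ((k⁻¹ : ℝ) : ℂ) * ee φ₀ * (F - ee (1 / 8)) := by
    rw [ee_add]; push_cast; field_simp; ring
  rw [e]
  have n1 : ∀ X : ℂ, ‖(r : ℂ) * X‖ = r * ‖X‖ := fun X => by
    rw [norm_mul, Complex.norm_real, Real.norm_eq_abs, abs_of_pos hr0]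
  have b1 : r * (1 / (2 * (β * (c * W)))) = 1 / (2 * (c * A)) := by
    rw [← hrr, ← hrW]; field_simp
  have b2 : r * (2 * Real.pi * (β * (L * W ^ 3)) * (2 * W)) = 4 * Real.pi * L * A ^ 4 / r := by
    rw [← hrr, ← hrW]; field_simp; ring
  have b3 : ‖((k⁻¹ : ℝ) : ℂ) * ee φ₀ * (F - ee (1 / 8))‖ ≤ 1 / (c * A) := by
    rw [norm_mul, norm_mul, norm_ee, Complex.norm_real, Real.norm_eq_abs,
      abs_of_pos (inv_pos.2 hk0), mul_one]
    calc k⁻¹ * ‖F - ee (1 / 8)‖ ≤ k⁻¹ * (1 / (k * A)) := by gcongr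
      _ = 1 / (κ * A) := by rw [← hkk]; field_simp
      _ ≤ 1 / (c * A) := by gcongr
  have c1 := mul_le_mul_of_nonneg_left o1 hr0.le
  have c2 := mul_le_mul_of_nonneg_left o2 hr0.le
  have c3 := mul_le_mul_of_nonneg_left w1 hr0.le
  rw [b1] at c1 c2
  rw [b2] at c3
  have b4 : 2 / (c * A) = 1 / (2 * (c * A)) + 1 / (2 * (c * A)) + 1 / (c * A) := by
    field_simp; ring
  calc _ ≤ ‖(r : ℂ) * I₁‖ + ‖(r : ℂ) * I₃‖ + ‖(r : ℂ) * (I₂ - ee φ₀ * (((r * k)⁻¹ : ℝ) * F))‖ +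
        ‖((k⁻¹ : ℝ) : ℂ) * ee φ₀ * (F - ee (1 / 8))‖ :=
        (norm_add_le _ _).trans (by gcongr; exact norm_add₃_le)
    _ ≤ _ := by rw [n1, n1, n1]; linarith

lemma spc_b (P : Prof Ψ τ τ' c L H z) {β t : ℝ} (hβ : 0 < β)
    (ht : ∀ x₀ ∈ Set.Icc z (1 - z), τ x₀ ≠ t) :
    ‖(Real.sqrt β : ℝ) * (∫ x in (0 : ℝ)..1, ee (β * (Ψ x - t * x)))‖ ≤
      4 / Real.sqrt H + 1 / (c * z * Real.sqrt β) := by
  have hc := P.cpos
  have hz := P.zpos
  have hz4 := P.zle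
  have hH := P.Hpos
  set r := Real.sqrt β with hr
  have hr0 : 0 < r := Real.sqrt_pos.2 hβ
  have hrr : r * r = β := Real.mul_self_sqrt hβ.le
  have hI := phase_int P β t
  have hτc : Continuous τ := continuous_iff_continuousAt.2 fun x => (P.hτ x).continuousAt
  have hO : ∀ a b : ℝ, 0 ≤ a → a ≤ b → b ≤ 1 → (b ≤ 2 * z ∨ 1 - 2 * z ≤ a) →
      ‖∫ x in a..b, ee (β * (Ψ x - t * x))‖ ≤ 4 / Real.sqrt (β * H) := fun a b h0 hab h1 h =>
    o2_pos hab (mul_pos hβ hH) (phase_d1 P β t) (phase_d2 P β t) (continuous_const.mul P.cont)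
      (fun x hx => mul_le_mul_of_nonneg_left (P.ends x ⟨h0.trans hx.1, hx.2.trans h1⟩
        (h.imp (fun h => hx.2.trans h) fun h => h.trans hx.1)) hβ.le)
  have key : ‖∫ x in (0 : ℝ)..1, ee (β * (Ψ x - t * x))‖ ≤
      4 / Real.sqrt (β * H) + 1 / (2 * (β * (c * z))) := by
    have hcase : t < τ z ∨ τ (1 - z) < t := by
      by_contra hcon
      push Not at hcon
      obtain ⟨x₀, hx₀, h⟩ := intermediate_value_Icc (show z ≤ 1 - z by linarith) hτc.continuousOn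
        (show t ∈ Set.Icc (τ z) (τ (1 - z)) from hcon)
      exact ht x₀ hx₀ h
    rcases hcase with h | h
    · rw [← intervalIntegral.integral_add_adjacent_intervals (b := 2 * z) (hI _ _) (hI _ _)]
      refine (norm_add_le _ _).trans (add_le_add
        (hO 0 _ le_rfl (by linarith) (by linarith) (Or.inl le_rfl)) ?_)
      refine phase_fdt P hβ (by linarith) (by linarith) le_rfl (mul_pos hc hz)
        (Or.inl fun x hx => ?_)
      have := grow P.hτ P.lower (x := z) (y := x) ⟨hz.le, by linarith⟩ ⟨by linarith [hx.1], hx.2⟩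
        (by linarith [hx.1])
      have h2 : c * z ≤ c * (x - z) := mul_le_mul_of_nonneg_left (by linarith [hx.1]) hc.le
      linarith
    · rw [← intervalIntegral.integral_add_adjacent_intervals (b := 1 - 2 * z) (hI _ _) (hI _ _),
        add_comm]
      refine (norm_add_le _ _).trans (add_le_add
        (hO _ 1 (by linarith) (by linarith) le_rfl (Or.inr le_rfl)) ?_)
      refine phase_fdt P hβ le_rfl (by linarith) (by linarith) (mul_pos hc hz)
        (Or.inr fun x hx => ?_)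
      have := grow P.hτ P.lower (x := x) (y := 1 - z) ⟨hx.1, by linarith [hx.2]⟩
        ⟨by linarith, by linarith⟩ (by linarith [hx.2])
      have h2 : c * z ≤ c * (1 - z - x) := mul_le_mul_of_nonneg_left (by linarith [hx.2]) hc.le
      linarith
  rw [norm_mul, Complex.norm_real, Real.norm_eq_abs, abs_of_pos hr0]
  refine (mul_le_mul_of_nonneg_left key hr0.le).trans ?_
  have hsH : 0 < Real.sqrt H := Real.sqrt_pos.2 hH
  rw [Real.sqrt_mul hβ.le, ← hr, mul_add]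
  have b1 : r * (4 / (r * Real.sqrt H)) = 4 / Real.sqrt H := by field_simp
  have b2 : r * (1 / (2 * (β * (c * z)))) = 1 / (c * z * r) / 2 := by rw [← hrr]; field_simp
  have b3 : 0 < 1 / (c * z * r) := by positivity
  rw [b1, b2]; linarith

lemma spc_pos (P : Prof Ψ τ τ' c L H z) {γ : ℝ} (hγ : 0 < γ) :
    ∃ β₀ : ℝ, 0 < β₀ ∧ ∀ β : ℝ, β₀ ≤ β → ∀ t : ℝ,
      SPConcl Ψ τ τ' H z γ β t
        ((Real.sqrt β : ℝ) * ∫ x in (0 : ℝ)..1, ee (β * (Ψ x - t * x))) := by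
  have hc := P.cpos
  have hz := P.zpos
  have hL := Prof_L_nonneg P
  set A := 4 / (c * γ) with hA
  have hA0 : 0 < A := by positivity
  set R := A / z + 8 * Real.pi * L * A ^ 4 / γ + 1 / (c * z * γ) with hR
  have t1 : 0 < A / z := by positivity
  have t2 : 0 ≤ 8 * Real.pi * L * A ^ 4 / γ := by positivity
  have t3 : 0 < 1 / (c * z * γ) := by positivity
  have hR0 : 0 < R := by positivity
  refine ⟨R ^ 2, by positivity, fun β hβ t => ?_⟩
  have hβ0 : 0 < β := lt_of_lt_of_le (by positivity) hβ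
  have hr : R ≤ Real.sqrt β := Real.le_sqrt_of_sq_le hβ
  have hr0 : 0 < Real.sqrt β := hR0.trans_le hr
  refine ⟨fun x₀ hx₀ ht => ?_, fun ht => ?_⟩
  · rw [Real.sign_of_pos hβ0]
    refine (spc_a P hβ0 hA0 ?_ hx₀ ht).trans ?_
    · rw [div_le_iff₀ hr0]
      have : A / z ≤ Real.sqrt β := by linarith
      rw [div_le_iff₀ hz] at this
      linarith
    · have e1 : 2 / (c * A) = γ / 2 := by rw [hA]; field_simp; ring
      have e2 : 4 * Real.pi * L * A ^ 4 / Real.sqrt β ≤ γ / 2 := by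
        rw [div_le_iff₀ hr0]
        have : 8 * Real.pi * L * A ^ 4 / γ ≤ Real.sqrt β := by linarith
        rw [div_le_iff₀ hγ] at this
        linarith
      linarith
  · refine (spc_b P hβ0 ht).trans (add_le_add ?_ ?_)
    · gcongr; norm_num
    · rw [div_le_iff₀ (by positivity)]
      have : 1 / (c * z * γ) ≤ Real.sqrt β := by linarith
      rw [div_le_iff₀ (by positivity)] at this
      linarith

end Crest.Agent.R75.A

namespace Crest.Agent.R75

theorem spc : SPcStmt := by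
  intro Ψ τ τ' c L H z P γ hγ
  obtain ⟨β₀, h0, h⟩ := A.spc_pos P hγ
  refine ⟨β₀, fun β hβ t => ?_⟩
  rcases le_or_gt 0 β with hs | hs
  · rw [abs_of_nonneg hs] at hβ ⊢
    exact h β hβ t
  · rw [abs_of_neg hs] at hβ ⊢
    obtain ⟨h1, h2⟩ := h (-β) hβ t
    have e : ((Real.sqrt (-β) : ℝ) : ℂ) * ∫ x in (0 : ℝ)..1, ee (β * (Ψ x - t * x)) =
        (starRingEnd ℂ) (((Real.sqrt (-β) : ℝ) : ℂ) *
          ∫ x in (0 : ℝ)..1, ee (-β * (Ψ x - t * x))) := by
      rw [map_mul, Complex.conj_ofReal, ← A.integral_ee_neg]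
      simp
    rw [e]
    refine ⟨fun x₀ hx₀ ht => ?_, fun ht => ?_⟩
    · have e2 : (((Real.sqrt (τ' x₀))⁻¹ : ℝ) : ℂ) * ee (Real.sign β / 8 + β * (Ψ x₀ - t * x₀)) =
          (starRingEnd ℂ) ((((Real.sqrt (τ' x₀))⁻¹ : ℝ) : ℂ) *
            ee (Real.sign (-β) / 8 + -β * (Ψ x₀ - t * x₀))) := by
        rw [map_mul, Complex.conj_ofReal, ← Fin1.ee_neg, Real.sign_neg]
        congr 2; ring
      rw [e2, ← map_sub, Complex.norm_conj]
      exact h1 x₀ hx₀ ht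
    · rw [Complex.norm_conj]
      exact h2 ht

end Crest.Agent.R75
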