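import Crest.Agent.R75.Osc3

/-! # Row 75, part A: Kusmin-Landau, sum versus integral, stationary phase for sums -/

set_option autoImplicit false

open Finset MeasureTheory Filter Topology

namespace Crest.Agent.R75.A

open Crest.Agent.R75 Crest.Agent.R75.Fin1

/-- `cot (π D)`. -/
noncomputable def ct (D : ℝ) : ℝ := Real.cos (Real.pi * D) / Real.sin (Real.pi * D)

lemma sin_ge {θ D : ℝ} (hθ : 0 < θ) (h1 : θ ≤ D) (h2 : D ≤ 1 - θ) :
    2 * θ ≤ Real.sin (Real.pi * D) := by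
  have hpi := Real.pi_pos
  have key : ∀ y : ℝ, 0 ≤ y → y ≤ 1 / 2 → 2 * y ≤ Real.sin (Real.pi * y) := by
    intro y hy0 hy1
    have := Real.mul_le_sin (x := Real.pi * y) (by positivity) (by nlinarith)
    have e : 2 / Real.pi * (Real.pi * y) = 2 * y := by field_simp
    rwa [e] at this
  rcases le_total D (1 / 2) with h | h
  · linarith [key D (by linarith) h]
  · have := key (1 - D) (by linarith) (by linarith)
    rw [show Real.pi * (1 - D) = Real.pi - Real.pi * D by ring, Real.sin_pi_sub] at this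
    linarith

lemma abs_ct_le {θ D : ℝ} (hθ : 0 < θ) (h1 : θ ≤ D) (h2 : D ≤ 1 - θ) : |ct D| ≤ 1 / (2 * θ) := by
  have h := sin_ge hθ h1 h2
  have h0 : 0 < Real.sin (Real.pi * D) := by linarith
  unfold ct
  rw [abs_div, abs_of_pos h0]
  gcongr
  exact Real.abs_cos_le_one _

lemma ct_anti {D D' : ℝ} (h0 : 0 < D) (h : D ≤ D') (h1 : D' < 1) : ct D' ≤ ct D := by
  have hpi := Real.pi_pos
  have s1 : 0 < Real.sin (Real.pi * D) :=
    Real.sin_pos_of_pos_of_lt_pi (by positivity) (by nlinarith)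
  have s2 : 0 < Real.sin (Real.pi * D') :=
    Real.sin_pos_of_pos_of_lt_pi (by nlinarith) (by nlinarith)
  unfold ct
  rw [div_le_div_iff₀ s2 s1]
  have s3 : 0 ≤ Real.sin (Real.pi * D' - Real.pi * D) :=
    Real.sin_nonneg_of_nonneg_of_le_pi (by nlinarith) (by nlinarith)
  rw [Real.sin_sub] at s3
  linarith

/-- `1 / (e(D) - 1)`. -/
noncomputable def ww (D : ℝ) : ℂ := -1 / 2 - Complex.I / 2 * (ct D : ℝ)

lemma ee_sub_one_mul_ww {D : ℝ} (h : Real.sin (Real.pi * D) ≠ 0) : (ee D - 1) * ww D = 1 := by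
  have e : ee D = ((Real.cos (Real.pi * D) : ℝ) + (Real.sin (Real.pi * D) : ℝ) * Complex.I) ^ 2 := by
    unfold ee
    rw [Complex.ofReal_cos, Complex.ofReal_sin, ← Complex.exp_mul_I, ← Complex.exp_nat_mul]
    congr 1; push_cast; ring
  have hsc := Real.sin_sq_add_cos_sq (Real.pi * D)
  rw [e]
  unfold ww ct
  generalize Real.sin (Real.pi * D) = s at *
  generalize Real.cos (Real.pi * D) = c at *
  have hs : (s : ℂ) ≠ 0 := by exact_mod_cast h
  have hsc' : (s : ℂ) ^ 2 + (c : ℂ) ^ 2 = 1 := by exact_mod_cast hsc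
  push_cast
  field_simp
  have hI := Complex.I_sq
  linear_combination (-(s : ℂ) ^ 3 - 2 * c ^ 2 * s - c * s ^ 2 * Complex.I) * hI +
    ((s : ℂ) - c * Complex.I) * hsc'

lemma norm_ww_le {θ D : ℝ} (hθ : 0 < θ) (h1 : θ ≤ D) (h2 : D ≤ 1 - θ) :
    ‖ww D‖ ≤ 1 / 2 + 1 / (4 * θ) := by
  unfold ww
  refine (norm_sub_le _ _).trans ?_
  have := abs_ct_le hθ h1 h2
  have e : 1 / (4 * θ) = 1 / (2 * θ) / 2 := by field_simp; ring
  rw [norm_mul, Complex.norm_real, Real.norm_eq_abs, e]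
  simp only [norm_div, norm_neg, norm_one, Complex.norm_ofNat, Complex.norm_I]
  linarith

/-- The Kusmin-Landau inequality. -/
lemma kusmin_landau (u : ℕ → ℝ) (n : ℕ) {θ : ℝ} (hθ : 0 < θ)
    (hb : ∀ j < n, θ ≤ u (j + 1) - u j ∧ u (j + 1) - u j ≤ 1 - θ)
    (hm : ∀ j, j + 1 < n → u (j + 1) - u j ≤ u (j + 2) - u (j + 1)) :
    ‖∑ j ∈ range n, ee (u j)‖ ≤ 1 + 1 / θ := by
  set D : ℕ → ℝ := fun j => u (j + 1) - u j with hD
  have hid : ∀ j < n, ee (u j) = (ee (u (j + 1)) - ee (u j)) * ww (D j) := by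
    intro j hj
    have h1 := sin_ge hθ (hb j hj).1 (hb j hj).2
    have h2 := ee_sub_one_mul_ww (D := D j) (by simp only [hD]; linarith)
    have h3 : ee (u (j + 1)) = ee (u j) * ee (D j) := by rw [← ee_add]; congr 1; simp [hD]
    rw [h3]
    linear_combination (-ee (u j)) * h2
  have key : ∀ m, m < n → ‖∑ j ∈ range (m + 1), ee (u j) - ee (u (m + 1)) * ww (D m) +
      ee (u 0) * ww (D 0)‖ ≤ (ct (D 0) - ct (D m)) / 2 := by
    intro m
    induction m with
    | zero =>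
      intro h
      have := hid 0 h
      rw [sum_range_one]
      have e : ee (u 0) - ee (u (0 + 1)) * ww (D 0) + ee (u 0) * ww (D 0) = 0 := by
        linear_combination this
      rw [e]; simp
    | succ m ih =>
      intro h
      have ih := ih (by omega)
      have h1 := hid (m + 1) h
      have e : ∑ j ∈ range (m + 1 + 1), ee (u j) - ee (u (m + 1 + 1)) * ww (D (m + 1)) +
          ee (u 0) * ww (D 0) = (∑ j ∈ range (m + 1), ee (u j) - ee (u (m + 1)) * ww (D m) +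
          ee (u 0) * ww (D 0)) + ee (u (m + 1)) * (ww (D m) - ww (D (m + 1))) := by
        rw [sum_range_succ _ (m + 1)]
        linear_combination h1
      rw [e]
      refine (norm_add_le _ _).trans ?_
      have h2 : ct (D (m + 1)) ≤ ct (D m) :=
        ct_anti (hθ.trans_le (hb m (by omega)).1) (hm m h) (by linarith [(hb (m + 1) h).2])
      have h3 : ‖ee (u (m + 1)) * (ww (D m) - ww (D (m + 1)))‖ = (ct (D m) - ct (D (m + 1))) / 2 := by
        have : ww (D m) - ww (D (m + 1)) =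
            -Complex.I * (((ct (D m) - ct (D (m + 1))) / 2 : ℝ) : ℂ) := by
          unfold ww; push_cast; ring
        rw [norm_mul, norm_ee, one_mul, this, norm_mul, norm_neg, Complex.norm_I, one_mul,
          Complex.norm_real, Real.norm_eq_abs, abs_of_nonneg (by linarith)]
      linarith
  rcases n with _ | m
  · simp; positivity
  have h1 := key m (by omega)
  have h2 := norm_ww_le hθ (hb m (by omega)).1 (hb m (by omega)).2
  have h3 := norm_ww_le hθ (hb 0 (by omega)).1 (hb 0 (by omega)).2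
  have h4 := abs_le.1 (abs_ct_le hθ (hb m (by omega)).1 (hb m (by omega)).2)
  have h5 := abs_le.1 (abs_ct_le hθ (hb 0 (by omega)).1 (hb 0 (by omega)).2)
  have e : ∑ j ∈ range (m + 1), ee (u j) = (∑ j ∈ range (m + 1), ee (u j) -
      ee (u (m + 1)) * ww (D m) + ee (u 0) * ww (D 0)) + ee (u (m + 1)) * ww (D m) +
      -(ee (u 0) * ww (D 0)) := by ring
  rw [e]
  refine norm_add₃_le.trans ?_
  rw [norm_neg, norm_mul, norm_mul, norm_ee, norm_ee, one_mul, one_mul]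
  have e1 : 1 / (4 * θ) = 1 / θ / 4 := by field_simp
  have e2 : 1 / (2 * θ) = 1 / θ / 2 := by field_simp
  simp only [hD] at h1 ⊢
  rw [e1] at h2 h3
  rw [e2] at h4 h5
  linarith [h4.1, h5.2]

lemma mvt_one {F G : ℝ → ℝ} (hF : ∀ x, HasDerivAt F (G x) x) (a : ℝ) :
    ∃ ξ ∈ Set.Icc a (a + 1), F (a + 1) - F a = G ξ := by
  obtain ⟨ξ, hξ, h⟩ := exists_hasDerivAt_eq_slope F G (show a < a + 1 by linarith)
    (continuous_iff_continuousAt.2 fun x => (hF x).continuousAt).continuousOn (fun x _ => hF x)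
  exact ⟨ξ, ⟨hξ.1.le, hξ.2.le⟩, by rw [h]; simp⟩

/-- Exponential sum away from the stationary window. -/
lemma outer_sum {F G : ℝ → ℝ} (hF : ∀ x, HasDerivAt F (G x) x) {p q : ℕ} (hpq : p ≤ q) {s : ℝ}
    (hs : 0 < s) (hm : ∀ x ∈ Set.Icc (p : ℝ) q, ∀ y ∈ Set.Icc (p : ℝ) q, x ≤ y → G x ≤ G y)
    (hG : ∀ x ∈ Set.Icc (p : ℝ) q, |G x| ≤ 1 - s)
    (h : (∀ x ∈ Set.Icc (p : ℝ) q, s ≤ G x) ∨ (∀ x ∈ Set.Icc (p : ℝ) q, G x ≤ -s)) :
    ‖∑ j ∈ Ico p q, ee (F j)‖ ≤ 1 + 1 / s := by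
  rw [sum_Ico_eq_sum_range]
  choose ξ hξ hξ' using mvt_one hF
  have hmem : ∀ j < q - p, ξ ((p + j : ℕ) : ℝ) ∈ Set.Icc (p : ℝ) q := by
    intro j hj
    have h1 := hξ ((p + j : ℕ) : ℝ)
    have h2 : ((p + j + 1 : ℕ) : ℝ) ≤ q := by exact_mod_cast (by omega : p + j + 1 ≤ q)
    push_cast at h1 h2 ⊢
    exact ⟨by linarith [h1.1, (Nat.cast_nonneg j : (0 : ℝ) ≤ j)], by linarith [h1.2]⟩
  have hD : ∀ j : ℕ, F ((p + (j + 1) : ℕ) : ℝ) - F ((p + j : ℕ) : ℝ) = G (ξ ((p + j : ℕ) : ℝ)) := by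
    intro j
    rw [← hξ']; congr 2; push_cast; ring
  have hmono : ∀ j, j + 1 < q - p → G (ξ ((p + j : ℕ) : ℝ)) ≤ G (ξ ((p + (j + 1) : ℕ) : ℝ)) := by
    intro j hj
    refine hm _ (hmem j (by omega)) _ (hmem (j + 1) hj) ?_
    have h1 := (hξ ((p + j : ℕ) : ℝ)).2
    have h2 := (hξ ((p + (j + 1) : ℕ) : ℝ)).1
    push_cast at h1 h2 ⊢
    linarith
  rcases h with h | h
  · refine kusmin_landau (fun j => F ((p + j : ℕ) : ℝ)) _ hs (fun j hj => ?_) (fun j hj => ?_)
    · rw [hD]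
      exact ⟨h _ (hmem j hj), (le_abs_self _).trans (hG _ (hmem j hj))⟩
    · rw [hD j, hD (j + 1)]; exact hmono j hj
  · have e : ∑ j ∈ range (q - p), ee (F ((p + j : ℕ) : ℝ)) =
        ∑ j ∈ range (q - p), ee (F ((p + j : ℕ) : ℝ) + j) :=
      sum_congr rfl fun j _ => (ee_congr (j : ℤ) (by simp)).symm
    rw [e]
    have hD' : ∀ j : ℕ, F ((p + (j + 1) : ℕ) : ℝ) + ((j + 1 : ℕ) : ℝ) - (F ((p + j : ℕ) : ℝ) + j) =
        G (ξ ((p + j : ℕ) : ℝ)) + 1 := by
      intro j; rw [← hD j]; push_cast; ring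
    refine kusmin_landau (fun j => F ((p + j : ℕ) : ℝ) + j) _ hs (fun j hj => ?_) (fun j hj => ?_)
    · rw [hD']
      have h1 := h _ (hmem j hj)
      have h2 := (abs_le.1 (hG _ (hmem j hj))).1
      constructor <;> linarith
    · rw [hD' j, hD' (j + 1)]; linarith [hmono j hj]

lemma term_le {F G : ℝ → ℝ} (hF : ∀ x, HasDerivAt F (G x) x) {a s : ℝ}
    (hG : ∀ x ∈ Set.Icc a (a + 1), |G x| ≤ s) :
    ‖ee (F a) - ∫ x in a..(a + 1), ee (F x)‖ ≤ 2 * Real.pi * s := by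
  have hFc : Continuous F := continuous_iff_continuousAt.2 fun x => (hF x).continuousAt
  have hs : 0 ≤ s := (abs_nonneg _).trans (hG a ⟨le_rfl, by linarith⟩)
  have e : ee (F a) = ∫ _ in a..(a + 1), ee (F a) := by simp
  have hI : IntervalIntegrable (fun x => ee (F x)) volume a (a + 1) :=
    (continuous_ee.comp hFc).intervalIntegrable _ _
  rw [e, ← intervalIntegral.integral_sub (by simp) hI]
  have := intervalIntegral.norm_integral_le_of_norm_le_const (a := a) (b := a + 1)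
    (C := 2 * Real.pi * s) (f := fun x => ee (F a) - ee (F x)) (fun x hx => by
      rw [Set.uIoc_of_le (by linarith)] at hx
      refine (ee_lip _ _).trans (mul_le_mul_of_nonneg_left ?_ (by positivity))
      have := abs_sub_le_of_deriv hF hG (x := x) (y := a) ⟨hx.1.le, hx.2⟩ ⟨le_rfl, by linarith⟩
      refine this.trans (mul_le_of_le_one_right hs (abs_le.2 ⟨?_, ?_⟩)) <;> linarith [hx.1, hx.2])
  simpa using this

lemma term_le_two (F : ℝ → ℝ) (a : ℝ) : ‖ee (F a) - ∫ x in a..(a + 1), ee (F x)‖ ≤ 2 := by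
  refine (norm_sub_le _ _).trans ?_
  have := norm_integral_ee_le F (show a ≤ a + 1 by linarith)
  rw [norm_ee]; linarith

/-- A van der Corput type comparison of a sum with an integral. -/
lemma vdc {F G G' : ℝ → ℝ} (hF : ∀ x, HasDerivAt F (G x) x) (hG : ∀ x, HasDerivAt G (G' x) x)
    (hc : Continuous G') (N : ℕ) {μ s : ℝ} (hμ : 0 < μ) (hs : 0 < s)
    (hlow : ∀ x ∈ Set.Icc (0 : ℝ) N, μ ≤ G' x) (hb : ∀ x ∈ Set.Icc (0 : ℝ) N, |G x| ≤ 1 - s) :
    ‖∑ j ∈ range N, ee (F j) - ∫ x in (0 : ℝ)..N, ee (F x)‖ ≤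
      3 / s + 6 + 2 * Real.pi * s * (2 * s / μ + 2) := by
  have hFc : Continuous F := continuous_iff_continuousAt.2 fun x => (hF x).continuousAt
  have hI : ∀ u v : ℝ, IntervalIntegrable (fun x => ee (F x)) volume u v := fun u v =>
    (continuous_ee.comp hFc).intervalIntegrable u v
  have hN : (0 : ℝ) ≤ N := Nat.cast_nonneg N
  obtain ⟨c₁, c₂, hc1, hc12, hc2, hl, hr, hw, hin⟩ := exists_window hN hμ hs hG hlow
  have hm : ∀ x ∈ Set.Icc (0 : ℝ) N, ∀ y ∈ Set.Icc (0 : ℝ) N, x ≤ y → G x ≤ G y :=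
    fun x hx y hy hxy => by
      have := grow hG hlow hx hy hxy
      have : 0 ≤ μ * (y - x) := mul_nonneg hμ.le (by linarith)
      linarith
  set p := ⌊c₁⌋₊ with hp
  set q := ⌈c₂⌉₊ with hq
  have hp1 : (p : ℝ) ≤ c₁ := Nat.floor_le hc1
  have hp2 : c₁ < p + 1 := Nat.lt_floor_add_one c₁
  have hq1 : c₂ ≤ q := Nat.le_ceil c₂
  have hq2 : (q : ℝ) < c₂ + 1 := Nat.ceil_lt_add_one (hc1.trans hc12)
  have hpq : p ≤ q := by exact_mod_cast hp1.trans (hc12.trans hq1)
  have hqN : q ≤ N := Nat.ceil_le.2 hc2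
  have hpqR : (p : ℝ) ≤ q := by exact_mod_cast hpq
  have hqNR : (q : ℝ) ≤ N := by exact_mod_cast hqN
  have hp0 : (0 : ℝ) ≤ p := Nat.cast_nonneg p
  -- outer pieces
  have outer : ∀ a b : ℕ, a ≤ b → b ≤ N →
      (a = b ∨ (∀ x ∈ Set.Icc (a : ℝ) b, s ≤ G x) ∨ (∀ x ∈ Set.Icc (a : ℝ) b, G x ≤ -s)) →
      ‖∑ j ∈ Ico a b, ee (F j) - ∫ x in (a : ℝ)..b, ee (F x)‖ ≤ 1 + 3 / (2 * s) := by
    intro a b hab hbN h
    rcases h with h | h
    · subst h; simp; positivity
    have habR : (a : ℝ) ≤ b := by exact_mod_cast hab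
    have hsub : ∀ x ∈ Set.Icc (a : ℝ) b, x ∈ Set.Icc (0 : ℝ) N := fun x hx =>
      ⟨(Nat.cast_nonneg a).trans hx.1, hx.2.trans (by exact_mod_cast hbN)⟩
    have h1 := outer_sum hF hab hs (fun x hx y hy => hm x (hsub x hx) y (hsub y hy))
      (fun x hx => hb x (hsub x hx)) h
    have h2 := fdt habR hs hF hG hc (Or.inl fun x hx => hμ.le.trans (hlow x (hsub x hx))) h
    have e : 3 / (2 * s) = 1 / s + 1 / (2 * s) := by field_simp; ring
    linarith [norm_sub_le (∑ j ∈ Ico a b, ee (F j)) (∫ x in (a : ℝ)..b, ee (F x))]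
  have o1 := outer 0 p (Nat.zero_le _) (hpq.trans hqN) (by
    rcases hl with hl | hl
    · left; rw [hp, hl]; simp
    · right; right; intro x hx
      exact hl x ⟨by simpa using hx.1, hx.2.trans hp1⟩)
  have o2 := outer q N hqN le_rfl (by
    rcases hr with hr | hr
    · left; rw [hq, hr]; simp
    · right; left; intro x hx
      exact hr x ⟨hq1.trans hx.1, hx.2⟩)
  -- middle piece
  have mid : ‖∑ j ∈ Ico p q, ee (F j) - ∫ x in (p : ℝ)..q, ee (F x)‖ ≤
      4 + 2 * Real.pi * s * (2 * s / μ + 2) := by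
    have h1 := intervalIntegral.sum_integral_adjacent_intervals_Ico (μ := volume)
      (f := fun x => ee (F x)) (a := fun k : ℕ => (k : ℝ)) hpq (fun k _ => hI _ _)
    rw [← h1, ← sum_sub_distrib]
    refine (norm_sum_le _ _).trans ?_
    have h2 : ∀ j ∈ Ico p q, ‖ee (F j) - ∫ x in (j : ℝ)..((j + 1 : ℕ) : ℝ), ee (F x)‖ ≤
        2 * Real.pi * s + ((if j = p then 2 else 0) + (if j = q - 1 then 2 else 0)) := by
      intro j hj
      rw [mem_Ico] at hj
      push_cast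
      have h3 := term_le_two F j
      have h4 : 0 ≤ 2 * Real.pi * s := by positivity
      by_cases hjp : j = p
      · rw [if_pos hjp]; split_ifs <;> linarith
      by_cases hjq : j = q - 1
      · rw [if_pos hjq, if_neg hjp]; linarith
      rw [if_neg hjp, if_neg hjq]
      have h5 : (p : ℝ) + 1 ≤ j := by exact_mod_cast (by omega : p + 1 ≤ j)
      have h6 : (j : ℝ) + 1 + 1 ≤ q := by exact_mod_cast (by omega : j + 1 + 1 ≤ q)
      have := term_le hF (a := j) (s := s) (fun x hx =>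
        hin (by linarith) x ⟨by linarith [hx.1], by linarith [hx.2]⟩)
      linarith
    refine (sum_le_sum h2).trans ?_
    rw [sum_add_distrib, sum_add_distrib, sum_const, Nat.card_Ico, nsmul_eq_mul, sum_ite_eq',
      sum_ite_eq', Nat.cast_sub hpq]
    have h7 : (q : ℝ) - p ≤ 2 * s / μ + 2 := by linarith
    have h8 : ((q : ℝ) - p) * (2 * Real.pi * s) ≤ (2 * s / μ + 2) * (2 * Real.pi * s) :=
      mul_le_mul_of_nonneg_right h7 (by positivity)
    split_ifs <;> linarith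
  have hsplit : ∑ j ∈ range N, ee (F j) - ∫ x in (0 : ℝ)..N, ee (F x) =
      (∑ j ∈ Ico 0 p, ee (F j) - ∫ x in ((0 : ℕ) : ℝ)..p, ee (F x)) +
      (∑ j ∈ Ico p q, ee (F j) - ∫ x in (p : ℝ)..q, ee (F x)) +
      (∑ j ∈ Ico q N, ee (F j) - ∫ x in (q : ℝ)..N, ee (F x)) := by
    rw [range_eq_Ico, ← sum_Ico_consecutive _ (Nat.zero_le q) hqN,
      ← sum_Ico_consecutive _ (Nat.zero_le p) hpq,
      ← intervalIntegral.integral_add_adjacent_intervals (b := (q : ℝ)) (hI _ _) (hI _ _),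
      ← intervalIntegral.integral_add_adjacent_intervals (a := 0) (b := (p : ℝ)) (c := q)
        (hI _ _) (hI _ _)]
    push_cast; ring
  rw [hsplit]
  refine norm_add₃_le.trans ?_
  have e : 3 / s = 3 / (2 * s) + 3 / (2 * s) := by field_simp; ring
  linarith

end Crest.Agent.R75.A
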