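import Crest.Agent.R75.Osc4

/-! # Row 75, part A: stationary phase for sums -/

set_option autoImplicit false

open Finset MeasureTheory Filter Topology

namespace Crest.Agent.R75.A

open Crest.Agent.R75 Crest.Agent.R75.Fin1

variable {Ψ τ τ' : ℝ → ℝ} {c L H z : ℝ}

lemma sum_vs_int (P : Prof Ψ τ τ' c L H z) {δ : ℝ}
    (hδ : ∀ x ∈ Set.Icc (0 : ℝ) 1, δ ≤ τ x ∧ τ x ≤ 1 - δ) (N : ℕ) {σ t s : ℝ} (hσ0 : 0 ≤ σ)
    (hσ1 : σ < 1) (ht0 : 0 ≤ t) (ht1 : t ≤ 1) (hs : 0 < s) (hsδ : s ≤ δ) {β : ℝ}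
    (hβ : β = N + 1) :
    ‖∑ j ∈ range (N + 1), ee (β * (Ψ ((j + σ) / β) - t * ((j + σ) / β))) -
      β * ∫ x in (0 : ℝ)..1, ee (β * (Ψ x - t * x))‖ ≤
      3 / s + 8 + 2 * Real.pi * s * (2 * s / (c / β) + 2) := by
  have hN : (0 : ℝ) ≤ N := Nat.cast_nonneg N
  have hβ0 : 0 < β := by linarith
  set F : ℝ → ℝ := fun y => β * (Ψ ((y + σ) / β) - t * ((y + σ) / β)) with hFdef
  have hlin : ∀ y : ℝ, HasDerivAt (fun y => (y + σ) / β) (1 / β) y := fun y =>
    ((hasDerivAt_id y).add_const σ).div_const β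
  have hF : ∀ y, HasDerivAt F (τ ((y + σ) / β) - t) y := fun y => by
    have h := HasDerivAt.comp (h₂ := fun x => β * (Ψ x - t * x)) y
      (phase_d1 P β t ((y + σ) / β)) (hlin y)
    exact h.congr_deriv (by field_simp)
  have hG : ∀ y, HasDerivAt (fun y => τ ((y + σ) / β) - t) (τ' ((y + σ) / β) / β) y := fun y =>
    (((P.hτ ((y + σ) / β)).comp y (hlin y)).sub_const t).congr_deriv (by field_simp)
  have hmem : ∀ y ∈ Set.Icc (0 : ℝ) N, (y + σ) / β ∈ Set.Icc (0 : ℝ) 1 := fun y hy =>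
    ⟨div_nonneg (by linarith [hy.1]) hβ0.le, (div_le_one hβ0).2 (by linarith [hy.2])⟩
  have hcont := P.cont
  have key := vdc hF hG (by fun_prop) N (div_pos P.cpos hβ0) hs
    (fun y hy => div_le_div_of_nonneg_right (P.lower _ (hmem y hy)) hβ0.le)
    (fun y hy => by
      have := hδ _ (hmem y hy)
      exact abs_le.2 ⟨by linarith [this.1], by linarith [this.2]⟩)
  have hFc : Continuous F := continuous_iff_continuousAt.2 fun x => (hF x).continuousAt
  have hI : ∀ u v : ℝ, IntervalIntegrable (fun x => ee (F x)) volume u v := fun u v =>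
    (continuous_ee.comp hFc).intervalIntegrable u v
  have hsub : (β : ℂ) * ∫ x in (0 : ℝ)..1, ee (β * (Ψ x - t * x)) =
      ∫ y in (-σ)..(β - σ), ee (F y) := by
    have h1 := intervalIntegral.integral_comp_add_right (a := -σ) (b := β - σ)
      (fun y : ℝ => ee (β * (Ψ (y / β) - t * (y / β)))) σ
    have h2 := intervalIntegral.integral_comp_div (a := 0) (b := β)
      (fun x : ℝ => ee (β * (Ψ x - t * x))) hβ0.ne'
    rw [zero_div, div_self hβ0.ne', Complex.real_smul] at h2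
    rw [neg_add_cancel, sub_add_cancel] at h1
    rw [← h2, ← h1]
  have hsplit : (∫ y in (-σ)..(β - σ), ee (F y)) =
      (∫ y in (-σ)..0, ee (F y)) + (∫ y in (0 : ℝ)..N, ee (F y)) + ∫ y in (N : ℝ)..(β - σ), ee (F y) := by
    rw [intervalIntegral.integral_add_adjacent_intervals (hI _ _) (hI _ _),
      intervalIntegral.integral_add_adjacent_intervals (hI _ _) (hI _ _)]
  have e1 := norm_integral_ee_le F (show -σ ≤ 0 by linarith)
  have e2 := norm_integral_ee_le F (show (N : ℝ) ≤ β - σ by linarith)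
  have e3 := norm_ee (F N)
  change ‖∑ j ∈ range (N + 1), ee (F j) - _‖ ≤ _
  rw [hsub, hsplit, sum_range_succ]
  generalize (∫ y in (-σ)..0, ee (F y)) = I₁ at *
  generalize (∫ y in (0 : ℝ)..N, ee (F y)) = I₂ at *
  generalize (∫ y in (N : ℝ)..(β - σ), ee (F y)) = I₃ at *
  have e : ∑ j ∈ range N, ee (F j) + ee (F N) - (I₁ + I₂ + I₃) =
      (∑ j ∈ range N, ee (F j) - I₂) + ee (F N) + -(I₁ + I₃) := by ring
  rw [e]
  refine norm_add₃_le.trans ?_
  rw [norm_neg]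
  linarith [norm_add_le I₁ I₃]

end Crest.Agent.R75.A

namespace Crest.Agent.R75

theorem spd : SPdStmt := by
  intro Ψ τ τ' c L H z δ P hδ0 hδ γ hγ
  obtain ⟨β₀, h0, h⟩ := A.spc_pos P (half_pos hγ)
  have hc := P.cpos
  have hδ1 : δ ≤ 1 := by
    have := hδ 0 ⟨le_rfl, zero_le_one⟩
    linarith [this.1, this.2]
  set A := 12 / γ with hA
  have hA0 : 0 < A := by positivity
  set Q := 8 + 2 * Real.pi * (2 * A ^ 2 / c + 2) with hQ
  have hQ0 : 0 < Q := by positivity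
  set R := A / δ + 4 * Q / γ with hR
  have t1 : 0 < A / δ := by positivity
  have t2 : 0 < 4 * Q / γ := by positivity
  have hR0 : 0 < R := by positivity
  refine ⟨⌈β₀ + R ^ 2⌉₊, fun β hβ σ hσ0 hσ1 t ht0 ht1 => ?_⟩
  have hβ' : β₀ + R ^ 2 ≤ β := Nat.ceil_le.1 hβ
  have hR2 : 0 < R ^ 2 := by positivity
  have hβ0 : (0 : ℝ) < β := by linarith
  obtain ⟨N, rfl⟩ : ∃ N, β = N + 1 := Nat.exists_eq_succ_of_ne_zero (by
    rintro rfl; simp at hβ0)
  set b : ℝ := ((N + 1 : ℕ) : ℝ) with hb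
  set r := Real.sqrt b with hr
  have hrR : R ≤ r := Real.le_sqrt_of_sq_le (by linarith)
  have hr0 : 0 < r := hR0.trans_le hrR
  have hrr : r * r = b := Real.mul_self_sqrt hβ0.le
  have hsδ : A / r ≤ δ := by
    rw [div_le_iff₀ hr0]
    have : A / δ ≤ r := by linarith
    rw [div_le_iff₀ hδ0] at this
    linarith
  have key := R75.A.sum_vs_int P hδ N hσ0 hσ1 ht0 ht1 (div_pos hA0 hr0) hsδ (β := b)
    (by rw [hb]; push_cast; ring)
  obtain ⟨h1, h2⟩ := h b (by linarith) t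
  rw [← hr] at h1 h2
  generalize (∑ j ∈ range (N + 1), ee (b * (Ψ ((j + σ) / b) - t * ((j + σ) / b)))) = S at *
  generalize (∫ x in (0 : ℝ)..1, ee (b * (Ψ x - t * x))) = J at *
  have hd : ‖((r⁻¹ : ℝ) : ℂ) * S - (r : ℂ) * J‖ ≤ γ / 2 := by
    have hrC : (r : ℂ) ≠ 0 := by exact_mod_cast hr0.ne'
    have e : ((r⁻¹ : ℝ) : ℂ) * S - (r : ℂ) * J = ((r⁻¹ : ℝ) : ℂ) * (S - (b : ℂ) * J) := by
      rw [← hrr]; push_cast; field_simp
    rw [e, norm_mul, Complex.norm_real, Real.norm_eq_abs, abs_of_pos (inv_pos.2 hr0)]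
    refine (mul_le_mul_of_nonneg_left key (inv_pos.2 hr0).le).trans ?_
    have e1 : r⁻¹ * (3 / (A / r) + 8 + 2 * Real.pi * (A / r) * (2 * (A / r) / (c / b) + 2)) =
        3 / A + (8 + 2 * Real.pi * (2 * A ^ 2 / c + 2 * (A / r))) / r := by
      rw [← hrr]; field_simp; ring
    have e2 : 3 / A = γ / 4 := by rw [hA]; field_simp; ring
    have e3 : (8 + 2 * Real.pi * (2 * A ^ 2 / c + 2 * (A / r))) / r ≤ Q / r := by
      rw [hQ]; gcongr; linarith
    have e4 : Q / r ≤ γ / 4 := by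
      rw [div_le_iff₀ hr0]
      have : 4 * Q / γ ≤ r := by linarith
      rw [div_le_iff₀ hγ] at this
      linarith
    rw [e1]; linarith
  refine ⟨fun x₀ hx₀ ht => ?_, fun ht => ?_⟩
  · have := h1 x₀ hx₀ ht
    linarith [norm_sub_le_norm_sub_add_norm_sub (((r⁻¹ : ℝ) : ℂ) * S) ((r : ℂ) * J)
      ((((Real.sqrt (τ' x₀))⁻¹ : ℝ) : ℂ) * ee (Real.sign b / 8 + b * (Ψ x₀ - t * x₀)))]
  · have := h2 ht
    linarith [norm_le_norm_add_norm_sub' (((r⁻¹ : ℝ) : ℂ) * S) ((r : ℂ) * J)]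

end Crest.Agent.R75
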