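import Crest.Agent.R75.PackD

set_option autoImplicit false

open Finset

namespace Crest.Agent.R75

open G

lemma G.arith {L : ℕ} {M Z Z' : ℤ} {a a' : ℕ} (ha : a < L) (ha' : a' < L) :
    ((L : ℤ) * M ∣ (L * Z + a) - (L * Z' + a') → a = a' ∧ M ∣ Z - Z') ∧
    ((L : ℤ) * M ∣ (L * Z + a) + (L * Z' + a') + 1 → M ∣ Z + Z' + 1) := by
  have hL : (L : ℤ) ≠ 0 := by omega
  constructor
  · rintro ⟨q, hq⟩
    have h1 : (L : ℤ) ∣ (a : ℤ) - a' := ⟨M * q - Z + Z', by linear_combination hq⟩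
    have h2 : (a : ℤ) - a' = 0 := Int.eq_zero_of_abs_lt_dvd h1 (by rw [abs_lt]; omega)
    refine ⟨by omega, q, mul_left_cancel₀ hL ?_⟩
    linear_combination hq - h2
  · rintro ⟨q, hq⟩
    have h1 : (L : ℤ) ∣ (a : ℤ) + a' + 1 - L := ⟨M * q - Z - Z' - 1, by linear_combination hq⟩
    have h2 : (a : ℤ) + a' + 1 - L = 0 := Int.eq_zero_of_abs_lt_dvd h1 (by rw [abs_lt]; omega)
    refine ⟨q, mul_left_cancel₀ hL ?_⟩
    linear_combination hq - h2

theorem pack_of (hN : NibbleStmt) : PackStmt := by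
  classical
  intro ε K d Λ _ _ n hε hd hn
  have hn0 : ∀ l, 0 < n l := fun l => (hn l).1
  obtain ⟨l₀⟩ := ‹Nonempty Λ›
  have hK : 1 ≤ K := (hn l₀).1.trans (hn l₀).2
  have hKr : (1:ℝ) ≤ K := by exact_mod_cast hK
  set L := 2 * K.factorial with hLdef
  have hL0 : 0 < L := by have := K.factorial_pos; omega
  have : NeZero L := ⟨hL0.ne'⟩
  have hL : ∀ l, n l ∣ L := fun l => (Nat.dvd_factorial (hn0 l) (hn l).2).mul_left 2
  have : Nonempty (Lab n) := ⟨(true, ⟨l₀, ⟨0, hn0 l₀⟩⟩)⟩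
  set s := Fintype.card Λ with hs
  have hs1 : 1 ≤ s := Fintype.card_pos
  have hsr : (0:ℝ) < s := by exact_mod_cast hs1
  have hLr : (0:ℝ) < L := by exact_mod_cast hL0
  set S := ∑ l, (n l : ℝ) with hS
  have hS0 : 0 < S := sum_pos (fun l _ => by exact_mod_cast hn0 l) univ_nonempty
  set P := ∏ l, pr n (n l) with hP
  have hP0 : 0 < P := prod_pos fun l _ => pr_pos hn0 l
  obtain ⟨δ, hδ, hNib⟩ := hN s (1 / (2 * P)) (ε / (4 * K)) hs1 (by positivity)
  set c₀ := 2 * S * P with hc₀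
  have hc : 0 < c₀ := by positivity
  set C : ℝ := 8 * (4 * L ^ 3 * s ^ 5 * S / (δ * c₀) + 3 * s ^ 3 * L) + s ^ 2 * L + 1 with hC
  refine ⟨⌈C / (δ * c₀) + 2 / ε⌉₊ + K + 3, fun M hM hMp b hind => ?_⟩
  have : Fact M.Prime := ⟨hMp⟩
  have hMr : C / (δ * c₀) + 2 / ε ≤ M :=
    (Nat.le_ceil _).trans (by exact_mod_cast (by omega))
  have hM0 : (0:ℝ) < M := by exact_mod_cast hMp.pos
  have hC0 : 0 < C := by positivity
  have hM1 : C ≤ δ * c₀ * M := by
    have : C / (δ * c₀) ≤ M := by have : 0 < 2 / ε := by positivity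
                                  linarith
    rwa [div_le_iff₀' (by positivity)] at this
  have hM2 : 2 ≤ ε * M := by
    have : 2 / ε ≤ M := by have : 0 < C / (δ * c₀) := by positivity
                           linarith
    rwa [div_le_iff₀' hε] at this
  have hodd : Odd M := hMp.odd_of_ne_two (by omega)
  have hcast : ∀ k : ℕ, 0 < k → k < M → (k : ZMod M) ≠ 0 := fun k h1 h2 h3 =>
    absurd (Nat.le_of_dvd h1 ((ZMod.natCast_eq_zero_iff k M).1 h3)) (by omega)
  have hG : Good M n b := ⟨by exact_mod_cast hcast 2 (by omega) (by omega),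
    fun l => hcast _ (hn0 l) (by have := (hn l).2; omega), fun l l' hl => by
      obtain ⟨i, hi⟩ := hind l l' hl
      refine ⟨i, fun h0 => hi ?_⟩
      rw [← ZMod.intCast_zmod_eq_zero_iff_dvd]; push_cast; exact h0⟩
  set Q := (M : ℝ) ^ d with hQ
  have hQM : (M : ℝ) ≤ Q := le_self_pow₀ (by exact_mod_cast hMp.pos) (by omega)
  have hQ0 : 0 < Q := by positivity
  set D := 2 * S * Q * P with hD
  have hD' : D = c₀ * Q := by rw [hD, hc₀]; ring
  have hD0 : 0 < D := by positivity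
  obtain ⟨t, ht⟩ := template (L := L) hG hn0 hL (lam := δ * D / (4 * L * s)) (by positivity)
  have hw := weight t hn0 hL
  obtain ⟨k, hk⟩ := hodd
  have hk' : (M - 1) / 2 = k := by omega
  have hkr : (M : ℝ) = 2 * k + 1 := by exact_mod_cast hk
  rw [hk'] at hw
  have hV : (k : ℝ) ≤ Fintype.card {v // v ∈ Vt L t} := by
    have h1 : ∑ v ∈ Vt L t, ty t v.1 ≤ (Vt L t).card * L :=
      (sum_le_card_nsmul _ _ L fun v _ => Nat.le_of_dvd hL0 (hL _)).trans (by simp)
    have := Nat.le_of_mul_le_mul_right (hw.trans h1) hL0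
    rw [Fintype.card_coe]; exact_mod_cast this
  have hk1 : (1:ℝ) ≤ k := by exact_mod_cast (by omega : 1 ≤ k)
  have hx1 : (0:ℝ) ≤ 4 * L ^ 3 * s ^ 5 * S / (δ * c₀) + 3 * s ^ 3 * L := by positivity
  have hx2 : (0:ℝ) ≤ s ^ 2 * L := by positivity
  obtain ⟨T, hT1, hT2⟩ := hNib {v // v ∈ Vt L t} {ω : Cand M d L // Valid b t ω} (edge b t hL) D
    (by rw [hD']; nlinarith [mul_le_mul_of_nonneg_left hQM (by positivity : 0 ≤ δ * c₀)])
    (fun e => by rw [edge, card_image_of_injective _ (vert_inj b t hL e), card_univ])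
    (fun v => (deg_le t hG hn0 hL v).trans (le_of_eq (by rw [hD, ← hS, ← hQ]; field_simp)))
    (by
      refine ((sum_dev t hL D).trans ht).trans ?_
      have e1 : (M : ℝ) * L * s * (S * Q * (2 * s ^ 3 * (L * Q / M)) / (2 * (δ * D / (4 * L * s))) +
          δ * D / (4 * L * s) / 2) + 3 * s ^ 3 * (L * Q) =
          (4 * L ^ 3 * s ^ 5 * S / (δ * c₀) + 3 * s ^ 3 * L) * Q + δ * D * M / 8 := by
        rw [hD']; field_simp; ring
      rw [e1]
      have e2 : (4 * L ^ 3 * s ^ 5 * S / (δ * c₀) + 3 * s ^ 3 * L) * Q ≤ δ * c₀ * M / 8 * Q :=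
        mul_le_mul_of_nonneg_right (by linarith) hQ0.le
      have e3 : δ * D * (M / 4) ≤ δ * D * Fintype.card {v // v ∈ Vt L t} :=
        mul_le_mul_of_nonneg_left (by linarith) (by positivity)
      have e4 : δ * c₀ * M / 8 * Q = δ * D * M / 8 := by rw [hD']; ring
      linarith)
    (fun v w hvw => (codeg_le t hG hL v w hvw).trans (by
      rw [hD', ← mul_div_assoc, div_le_iff₀ hM0]
      nlinarith [mul_le_mul_of_nonneg_right (show (s:ℝ) ^ 2 * L ≤ δ * c₀ * M by linarith) hQ0.le]))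
  refine ⟨T, inferInstance, fun e => (e.1.1.1 none).val, fun e i => (e.1.1.1 (some i)).val,
    fun e => e.1.1.2, ?_, ?_⟩
  · have hst : ∀ (e : T) (l : Λ) (i : ℕ), ∃ Z : ℤ, (Z : ZMod M) = blk n b l e.1.1 ∧
        start K (n l) (b l) (e.1.1.1 none).val (fun i => (e.1.1.1 (some i)).val) e.1.1.2 + i =
          L * Z + ((slot n l e.1.1 + i : ℕ) : ℤ) := by
      intro e l i
      refine ⟨(n l : ℤ) * (e.1.1.1 none).val + ∑ i, b l i * (e.1.1.1 (some i)).val +
        ((n l * e.1.1.2 / L : ℕ) : ℤ), ?_, ?_⟩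
      · simp only [blk, Fintype.sum_option, vec, Option.elim]
        push_cast
        simp only [ZMod.natCast_val, ZMod.cast_id', id_eq, ZMod.intCast_cast]
        norm_cast
      · have := Nat.div_add_mod (n l * e.1.1.2) L
        have h2 : (n l : ℤ) * (e.1.1.2 : ℕ) = L * ((n l * e.1.1.2 / L : ℕ) : ℤ) +
            ((n l * e.1.1.2 % L : ℕ) : ℤ) := by exact_mod_cast this.symm
        rw [start, h2, slot, ← hLdef, Nat.cast_add]; ring
    have hlt : ∀ (e : T) (l : Λ) (i : ℕ), i < n l → slot n l e.1.1 + i < L := by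
      intro e l i hi
      have h1 : n l ∣ slot n l e.1.1 := by rw [slot, Nat.dvd_mod_iff (hL l)]; exact dvd_mul_right _ _
      have h2 : slot n l e.1.1 < L := Nat.mod_lt _ hL0
      have := Nat.le_of_dvd (by omega) (Nat.dvd_sub (hL l) h1)
      omega
    intro e e' l l' i i' hi hi'
    obtain ⟨Z, hZ, h1⟩ := hst e l i
    obtain ⟨Z', hZ', h2⟩ := hst e' l' i'
    rw [h1, h2, Nat.cast_mul L M]
    have har := G.arith (M := M) (Z := Z) (Z' := Z') (hlt e l i hi) (hlt e' l' i' hi')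
    constructor
    · intro h
      obtain ⟨h3, h4⟩ := har.1 h
      rw [← ZMod.intCast_zmod_eq_zero_iff_dvd] at h4
      push_cast at h4
      rw [hZ, hZ', sub_eq_zero] at h4
      have h5 : n l = n l' := by rw [← (e.1.2.2 l).2, ← (e'.1.2.2 l').2, h4]
      have d1 : n l ∣ slot n l e.1.1 := by rw [slot, Nat.dvd_mod_iff (hL l)]; exact dvd_mul_right _ _
      have d2 : n l ∣ slot n l' e'.1.1 := by
        rw [h5, slot, Nat.dvd_mod_iff (hL l')]; exact dvd_mul_right _ _
      have h6 : i = i' := by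
        have : (slot n l e.1.1 + i) % n l = (slot n l' e'.1.1 + i') % n l := by rw [h3]
        rwa [Nat.add_mod, Nat.mod_eq_zero_of_dvd d1, Nat.add_mod (slot n l' _),
          Nat.mod_eq_zero_of_dvd d2, zero_add, zero_add, Nat.mod_mod, Nat.mod_mod,
          Nat.mod_eq_of_lt hi, Nat.mod_eq_of_lt (h5 ▸ hi')] at this
      have h7 : vert b t hL e.1 l = vert b t hL e'.1 l' :=
        Subtype.ext (Prod.ext h4 (Fin.ext (by simp only [vert]; omega)))
      have h8 : e = e' := by
        by_contra hne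
        refine disjoint_left.1 (hT1 e.1 e.2 e'.1 e'.2 fun h => hne (Subtype.ext h))
          (mem_image_of_mem _ (mem_univ l)) ?_
        rw [h7]; exact mem_image_of_mem _ (mem_univ l')
      subst h8
      exact ⟨rfl, vert_inj b t hL _ h7, h6⟩
    · intro h
      have h4 := har.2 h
      rw [← ZMod.intCast_zmod_eq_zero_iff_dvd] at h4
      push_cast at h4
      rw [hZ, hZ'] at h4
      refine not_act_mirror t ⟨k, hk⟩ (x := blk n b l e.1.1) ⟨e.1.2.1.1 l, (e.1.2.2 l).1⟩ ?_
      rw [show -1 - blk n b l e.1.1 = blk n b l' e'.1.1 by linear_combination -h4]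
      exact ⟨e'.1.2.1.1 l', (e'.1.2.2 l').1⟩
  · set cov := T.biUnion (edge b t hL) with hcov
    have hc1 : cov.card = T.card * s := by
      rw [hcov, card_biUnion (fun e he e' he' h => hT1 e he e' he' h), sum_congr rfl fun e _ => by
        rw [edge, card_image_of_injective _ (vert_inj b t hL e), card_univ]]
      simp [hs]
    have hc2 : ∑ v ∈ cov, (ty t v.1.1 : ℝ) = T.card * S := by
      rw [hcov, sum_biUnion (fun e he e' he' h => hT1 e he e' he' h), sum_congr rfl fun e _ => by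
        rw [edge, sum_image (fun l _ l' _ h => vert_inj b t hL e h),
          sum_congr rfl fun l _ => by rw [show ty t (vert b t hL e l).1.1 = n l from (e.2.2 l).2]]]
      simp [hS]
    have hc3 : ∑ v ∈ univ \ cov, (ty t v.1.1 : ℝ) ≤
        (Fintype.card {v // v ∈ Vt L t} - T.card * s) * K := by
      refine (sum_le_card_nsmul _ _ (K : ℝ) fun v _ => by exact_mod_cast (hn _).2).trans ?_
      rw [card_univ_diff, nsmul_eq_mul, Nat.cast_sub (card_le_univ _), hc1]; push_cast; rfl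
    have hc4 := sum_sdiff (f := fun v : {v // v ∈ Vt L t} => (ty t v.1.1 : ℝ)) (subset_univ cov)
    have hc5 : (k : ℝ) * L ≤ ∑ v : {v // v ∈ Vt L t}, (ty t v.1.1 : ℝ) := by
      rw [sum_coe_sort (Vt L t) (fun v => (ty t v.1 : ℝ))]; exact_mod_cast hw
    have hc6 : (Fintype.card {v // v ∈ Vt L t} : ℝ) ≤ M * L := by
      rw [Fintype.card_coe]
      have := card_le_univ (Vt L t)
      rw [Fintype.card_prod, ZMod.card, Fintype.card_fin] at this
      exact_mod_cast this
    rw [Fintype.card_coe]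
    push_cast
    have hc7 : (Fintype.card {v // v ∈ Vt L t} - T.card * s : ℝ) * K ≤ ε / 4 * (M * L) := by
      calc _ ≤ (ε / (4 * K) * Fintype.card {v // v ∈ Vt L t}) * K :=
            mul_le_mul_of_nonneg_right (by linarith) (by positivity)
        _ = ε / 4 * Fintype.card {v // v ∈ Vt L t} := by field_simp
        _ ≤ _ := mul_le_mul_of_nonneg_left hc6 (by positivity)
    have hc8 := mul_le_mul_of_nonneg_right hM2 hLr.le
    have hc9 : (k : ℝ) * L * 2 = M * L - L := by rw [hkr]; ring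
    nlinarith

end Crest.Agent.R75
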