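import Crest.Agent.R75.Defs

set_option autoImplicit false

open Finset

namespace Crest.Agent.R75.G

lemma fiber_card {A B : Type*} [AddGroup A] [AddGroup B] [Fintype A] [Fintype B] [DecidableEq B]
    (φ : A →+ B) (hφ : Function.Surjective φ) (y : B) :
    (univ.filter fun a => φ a = y).card * Fintype.card B = Fintype.card A := by
  have h := card_eq_sum_card_fiberwise (f := φ) (s := univ) (t := univ) (fun _ _ => mem_univ _)
  rw [card_univ] at h
  rw [h, sum_congr rfl (g := fun _ => (univ.filter fun a => φ a = y).card) fun x _ =>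
    AddMonoidHom.card_fiber_eq_of_mem_range φ (hφ x) (hφ y)]
  simp [mul_comm]

variable {F : Type*} [Field F] [Fintype F] [DecidableEq F] {ι : Type*} [Fintype ι] [DecidableEq ι]

lemma count1 (v : ι → F) (hv : v ≠ 0) (a : F) :
    (univ.filter fun z : ι → F => ∑ i, v i * z i = a).card * Fintype.card F =
      Fintype.card F ^ Fintype.card ι := by
  let φ : (ι → F) →+ F := AddMonoidHom.mk' (fun z => ∑ i, v i * z i) fun x y => by
    simp [mul_add, sum_add_distrib]
  have := fiber_card φ (fun y => by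
    obtain ⟨i, hi⟩ := Function.ne_iff.1 hv
    refine ⟨Pi.single i (y / v i), ?_⟩
    simp only [φ, AddMonoidHom.mk'_apply, Pi.single_apply, mul_ite, mul_zero, sum_ite_eq',
      mem_univ, if_true]
    have hi' : v i ≠ 0 := hi
    field_simp) a
  simpa [φ] using this

lemma count2 (v w : ι → F) (i j : ι) (h : v i * w j - w i * v j ≠ 0) (a a' : F) :
    (univ.filter fun z : ι → F => ∑ i, v i * z i = a ∧ ∑ i, w i * z i = a').card *
      Fintype.card F ^ 2 = Fintype.card F ^ Fintype.card ι := by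
  let φ : (ι → F) →+ F × F := AddMonoidHom.mk' (fun z => (∑ i, v i * z i, ∑ i, w i * z i))
    fun x y => by simp [mul_add, sum_add_distrib]
  have := fiber_card φ (fun y => by
    refine ⟨Pi.single i ((y.1 * w j - y.2 * v j) / (v i * w j - w i * v j)) +
      Pi.single j ((v i * y.2 - w i * y.1) / (v i * w j - w i * v j)), ?_⟩
    simp only [φ, AddMonoidHom.mk'_apply, Pi.add_apply, mul_add, sum_add_distrib, Pi.single_apply,
      mul_ite, mul_zero, sum_ite_eq', mem_univ, if_true]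
    ext <;> (simp only; rw [← mul_div_assoc, ← mul_div_assoc, ← add_div, div_eq_iff h]; ring)) (a, a')
  simpa [φ, sq] using this

/-- Uniform average. -/
noncomputable def Ex {Ω : Type*} [Fintype Ω] (f : Ω → ℝ) : ℝ := (∑ t, f t) / Fintype.card Ω

section
variable {Ω : Type*} [Fintype Ω]

lemma Ex_mono {f g : Ω → ℝ} (h : ∀ t, f t ≤ g t) : Ex f ≤ Ex g :=
  div_le_div_of_nonneg_right (sum_le_sum fun t _ => h t) (Nat.cast_nonneg _)

lemma Ex_sum {γ : Type*} (G : Finset γ) (f : γ → Ω → ℝ) :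
    Ex (fun t => ∑ g ∈ G, f g t) = ∑ g ∈ G, Ex (f g) := by
  unfold Ex; rw [sum_comm, sum_div]

lemma Ex_const [Nonempty Ω] (c : ℝ) : Ex (fun _ : Ω => c) = c := by
  unfold Ex
  have : (Fintype.card Ω : ℝ) ≠ 0 := by simp
  simp

lemma Ex_lin (f g : Ω → ℝ) (a b : ℝ) : Ex (fun t => a * f t + b * g t) = a * Ex f + b * Ex g := by
  unfold Ex; rw [sum_add_distrib, ← mul_sum, ← mul_sum]; ring

lemma exists_le_Ex [Nonempty Ω] (f : Ω → ℝ) : ∃ t, f t ≤ Ex f := by
  by_contra h
  push Not at h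
  have := sum_lt_sum_of_nonempty (s := (univ : Finset Ω)) univ_nonempty fun t _ => h t
  have h0 : (0:ℝ) < Fintype.card Ω := by simp [Fintype.card_pos]
  simp only [sum_const, card_univ, nsmul_eq_mul, Ex] at this
  rw [mul_div_cancel₀ _ h0.ne'] at this
  exact lt_irrefl _ this

lemma secmom [Nonempty Ω] {γ : Type*} (G : Finset γ) (X : γ → Ω → ℝ) (q B lam : ℝ)
    (h0 : ∀ g t, 0 ≤ X g t) (h1 : ∀ g t, X g t ≤ 1) (hE : ∀ g ∈ G, Ex (X g) = q)
    (ov : γ → γ → Prop) [DecidableRel ov]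
    (hI : ∀ g ∈ G, ∀ g' ∈ G, ¬ ov g g' → Ex (fun t => X g t * X g' t) = q ^ 2)
    (hB : ∀ g ∈ G, ((G.filter (ov g)).card : ℝ) ≤ B) (hl : 0 < lam) :
    Ex (fun t => |∑ g ∈ G, X g t - G.card * q|) ≤ G.card * B / (2 * lam) + lam / 2 := by
  have hY : Ex (fun t => ∑ g ∈ G, X g t) = G.card * q := by
    rw [Ex_sum, sum_congr rfl hE]; simp
  have hY2 : Ex (fun t => (∑ g ∈ G, X g t) ^ 2) ≤ (G.card * q) ^ 2 + G.card * B := by
    simp_rw [sq, sum_mul_sum]
    rw [Ex_sum]
    have : ∀ g ∈ G, Ex (fun t => ∑ g' ∈ G, X g t * X g' t) ≤ G.card * q ^ 2 + B := by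
      intro g hg
      rw [Ex_sum]
      calc _ ≤ ∑ g' ∈ G, (q ^ 2 + if ov g g' then 1 else 0) := sum_le_sum fun g' hg' => by
            split_ifs with h
            · refine (Ex_mono (g := fun _ => 1) fun t => mul_le_one₀ (h1 _ _) (h0 _ _) (h1 _ _)).trans ?_
              rw [Ex_const]; nlinarith [sq_nonneg q]
            · rw [hI g hg g' hg' h]; simp
        _ ≤ _ := by
            rw [sum_add_distrib, sum_boole]
            have := hB g hg
            simp only [sum_const, nsmul_eq_mul]; linarith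
    refine (sum_le_sum this).trans ?_
    simp only [sum_const, nsmul_eq_mul]; nlinarith
  set m := (G.card : ℝ) * q
  calc _ ≤ Ex (fun t => (1 / (2 * lam)) * (∑ g ∈ G, X g t) ^ 2 +
        1 * ((-m / lam) * (∑ g ∈ G, X g t) + (m ^ 2 / (2 * lam) + lam / 2) * 1)) := by
        refine Ex_mono fun t => ?_
        set y := ∑ g ∈ G, X g t
        have e : 1 / (2 * lam) * y ^ 2 + 1 * (-m / lam * y + (m ^ 2 / (2 * lam) + lam / 2) * 1) =
            (|y - m| ^ 2 + lam ^ 2) / (2 * lam) := by rw [sq_abs]; field_simp; ring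
        rw [e, le_div_iff₀ (by positivity)]
        nlinarith [sq_nonneg (|y - m| - lam)]
    _ ≤ _ := by
        rw [Ex_lin, Ex_lin, hY, Ex_const]
        have := mul_le_mul_of_nonneg_left hY2 (by positivity : 0 ≤ 1 / (2 * lam))
        have e : 1 / (2 * lam) * (m ^ 2 + G.card * B) + 1 * (-m / lam * m +
          (m ^ 2 / (2 * lam) + lam / 2) * 1) = G.card * B / (2 * lam) + lam / 2 := by
          field_simp; ring
        linarith
end

lemma Ex_prod {Y T κ : Type*} [Fintype Y] [DecidableEq Y] [Fintype T] [Nonempty T]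
    (I : Finset κ) (ρ : κ → Y) (hρ : Set.InjOn ρ I) (g : κ → T → ℝ) :
    Ex (fun t : Y → T => ∏ k ∈ I, g k (t (ρ k))) = ∏ k ∈ I, Ex (g k) := by
  have hT : (Fintype.card T : ℝ) ≠ 0 := by simp
  have h1 : ∀ t : Y → T, ∏ k ∈ I, g k (t (ρ k)) =
      ∏ y, ∏ k ∈ I.filter (fun k => ρ k = y), g k (t y) := by
    intro t
    rw [← prod_fiberwise I ρ]
    exact prod_congr rfl fun y _ => prod_congr rfl fun k hk => by rw [(mem_filter.1 hk).2]
  unfold Ex
  simp_rw [h1]
  have h2 := prod_univ_sum (fun _ : Y => (univ : Finset T))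
    (fun y τ => ∏ k ∈ I.filter (fun k => ρ k = y), g k τ)
  rw [Fintype.piFinset_univ] at h2
  rw [← h2, ← prod_fiberwise I ρ, Fintype.card_pi, prod_const, Nat.cast_pow, ← prod_const,
    ← prod_div_distrib]
  refine prod_congr rfl fun y _ => ?_
  have hc : (I.filter (fun k => ρ k = y)).card ≤ 1 := card_le_one.2 fun a ha b hb =>
    hρ (mem_filter.1 ha).1 (mem_filter.1 hb).1 ((mem_filter.1 ha).2.trans (mem_filter.1 hb).2.symm)
  rcases (I.filter (fun k => ρ k = y)).eq_empty_or_nonempty with h | ⟨k, hk⟩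
  · rw [h]; simp
  · have : I.filter (fun k => ρ k = y) = {k} :=
      eq_singleton_iff_unique_mem.2 ⟨hk, fun x hx => card_le_one.1 hc x hx k hk⟩
    rw [this]; simp

lemma count_slot (L ν σ : ℕ) (hν : 0 < ν) (h1 : ν ∣ L) (h2 : ν ∣ σ) (hσ : σ < L) :
    (univ.filter fun c : Fin L => (ν * c) % L = σ).card = ν := by
  obtain ⟨A, rfl⟩ := h1
  obtain ⟨a, rfl⟩ := h2
  have ha : a < A := lt_of_mul_lt_mul_left hσ (Nat.zero_le _)
  have hA : 0 < A := by omega
  symm
  rw [← card_range ν]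
  conv_rhs => rw [card_range ν]
  refine card_bij (fun q hq => ⟨a + A * q, by
    have := mem_range.1 hq
    nlinarith⟩) ?_ ?_ ?_
  · intro q hq
    simp only [mem_filter, mem_univ, true_and]
    rw [Nat.mul_mod_mul_left, Nat.add_mul_mod_self_left, Nat.mod_eq_of_lt ha]
  · intro q _ q' _ h
    simp only [Fin.mk.injEq, add_right_inj] at h
    exact Nat.eq_of_mul_eq_mul_left hA h
  · intro c hc
    simp only [mem_filter, mem_univ, true_and] at hc
    rw [Nat.mul_mod_mul_left] at hc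
    have h3 := Nat.eq_of_mul_eq_mul_left hν hc
    refine ⟨c / A, mem_range.2 ((Nat.div_lt_iff_lt_mul hA).2 c.2), ?_⟩
    ext; simp only; rw [← h3]; exact Nat.mod_add_div _ _

end Crest.Agent.R75.G
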