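import Crest.Agent.R75.PackA

set_option autoImplicit false
set_option linter.unusedSectionVars false

open Finset

namespace Crest.Agent.R75.G

lemma card_filter_prod {A B : Type*} [Fintype A] [Fintype B] (P : A × B → Prop) [DecidablePred P] :
    (univ.filter P).card = ∑ b, (univ.filter fun a => P (a, b)).card := by
  simp only [card_filter]
  rw [Fintype.sum_prod_type_right]

abbrev Cand (M d L : ℕ) := (Option (Fin d) → ZMod M) × Fin L

variable {M : ℕ} [Fact M.Prime] {Λ : Type} [Fintype Λ] [DecidableEq Λ] {d L : ℕ}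
  (n : Λ → ℕ) (b : Λ → Fin d → ℤ)

def vec (l : Λ) : Option (Fin d) → ZMod M := fun o => o.elim (n l : ZMod M) fun i => (b l i : ZMod M)

def blk (l : Λ) (ω : Cand M d L) : ZMod M :=
  ∑ o, vec n b l o * ω.1 o + ((n l * ω.2 / L : ℕ) : ZMod M)

def slot (l : Λ) (ω : Cand M d L) : ℕ := (n l * ω.2) % L

def rep (x : ZMod M) : ZMod M := if x.val < (M - 1) / 2 then x else -1 - x

def Simple (ω : Cand M d L) : Prop :=
  (∀ l, blk n b l ω ≠ -1 - blk n b l ω) ∧ ∀ l l', l ≠ l' → rep (blk n b l ω) ≠ rep (blk n b l' ω)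

instance (ω : Cand M d L) : Decidable (Simple n b ω) := by unfold Simple; infer_instance

lemma rep_eq {x y : ZMod M} (h : rep x = rep y) : x = y ∨ x = -1 - y := by
  unfold rep at h
  split_ifs at h
  · exact Or.inl h
  · exact Or.inr h
  · right; linear_combination -h
  · left; linear_combination -h

structure Good (M : ℕ) (n : Λ → ℕ) (b : Λ → Fin d → ℤ) : Prop where
  two : (2 : ZMod M) ≠ 0
  n0 : ∀ l, (n l : ZMod M) ≠ 0
  ind : ∀ l l', l ≠ l' → ∃ i, (n l : ZMod M) * (b l' i : ZMod M) - (n l' : ZMod M) * b l i ≠ 0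

variable {n b}

lemma c1 (v : Option (Fin d) → ZMod M) (hv : v ≠ 0) (a : ZMod M) :
    (univ.filter fun z : Option (Fin d) → ZMod M => ∑ i, v i * z i = a).card = M ^ d := by
  have := count1 v hv a
  rw [ZMod.card, Fintype.card_option, Fintype.card_fin, pow_succ] at this
  exact Nat.eq_of_mul_eq_mul_right (Fact.out : M.Prime).pos this

lemma blk1 (h : Good M n b) (l : Λ) (x : ZMod M) (c : Fin L) :
    (univ.filter fun z => blk n b l (z, c) = x).card = M ^ d := by
  rw [← c1 (vec n b l) (fun h0 => h.n0 l (congrFun h0 none)) (x - ((n l * c / L : ℕ) : ZMod M))]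
  congr 1; ext z; simp [blk, eq_sub_iff_add_eq]

lemma blk2 (h : Good M n b) {l l' : Λ} (hl : l ≠ l') (x y : ZMod M) :
    ((univ.filter fun ω : Cand M d L => blk n b l ω = x ∧ blk n b l' ω = y).card : ℝ) * M =
      L * (M : ℝ) ^ d := by
  obtain ⟨i, hi⟩ := h.ind l l' hl
  rw [card_filter_prod]
  have : ∀ c : Fin L, (univ.filter fun z => blk n b l (z, c) = x ∧ blk n b l' (z, c) = y).card * M
      = M ^ d := by
    intro c
    have := count2 (vec n b l) (vec n b l') none (some i) hi (x - ((n l * c / L : ℕ) : ZMod M))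
      (y - ((n l' * c / L : ℕ) : ZMod M))
    rw [ZMod.card, Fintype.card_option, Fintype.card_fin, pow_succ M d, sq, ← mul_assoc] at this
    rw [← Nat.eq_of_mul_eq_mul_right (Fact.out : M.Prime).pos this]
    congr 2; ext z; simp [blk, eq_sub_iff_add_eq]
  have h2 : (∑ c : Fin L, (univ.filter fun z => blk n b l (z, c) = x ∧ blk n b l' (z, c) = y).card) * M
      = L * M ^ d := by
    rw [sum_mul, sum_congr rfl fun c _ => this c]; simp
  exact_mod_cast h2

lemma blk3 (l l' : Λ) (e a : ZMod M) (hv : vec (M := M) n b l - e • vec (M := M) n b l' ≠ 0) :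
    (univ.filter fun ω : Cand M d L => blk n b l ω = a + e * blk n b l' ω).card = L * M ^ d := by
  rw [card_filter_prod]
  have : ∀ c : Fin L, (univ.filter fun z => blk n b l (z, c) = a + e * blk n b l' (z, c)).card
      = M ^ d := by
    intro c
    rw [← c1 _ hv (a + e * ((n l' * c / L : ℕ) : ZMod M) - ((n l * c / L : ℕ) : ZMod M))]
    congr 1; ext z
    simp only [blk, mem_filter, mem_univ, true_and, Pi.sub_apply, Pi.smul_apply, smul_eq_mul,
      sub_mul, sum_sub_distrib, mul_assoc, ← mul_sum]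
    constructor <;> intro h <;> linear_combination h
  rw [sum_congr rfl fun c _ => this c]; simp

lemma nonsimple (h : Good M n b) :
    (univ.filter fun ω : Cand M d L => ¬ Simple n b ω).card ≤
      3 * Fintype.card Λ ^ 2 * (L * M ^ d) := by
  have hsub : (univ.filter fun ω : Cand M d L => ¬ Simple n b ω) ⊆
      (univ : Finset (Λ × Λ)).biUnion fun p =>
        (univ.filter fun ω => blk n b p.1 ω = -1 + (-1) * blk n b p.1 ω) ∪
        ((univ.filter fun ω => p.1 ≠ p.2 ∧ blk n b p.1 ω = 0 + 1 * blk n b p.2 ω) ∪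
        (univ.filter fun ω => p.1 ≠ p.2 ∧ blk n b p.1 ω = -1 + (-1) * blk n b p.2 ω)) := by
    intro ω hω
    simp only [mem_filter, mem_univ, true_and, Simple, not_and_or, not_forall, not_not] at hω
    simp only [mem_biUnion, mem_univ, true_and, mem_union, mem_filter]
    rcases hω with ⟨l, hl⟩ | ⟨l, l', hl, hr⟩
    · exact ⟨(l, l), Or.inl (by linear_combination hl)⟩
    · rcases rep_eq hr with h1 | h1
      · exact ⟨(l, l'), Or.inr (Or.inl ⟨hl, by linear_combination h1⟩)⟩
      · exact ⟨(l, l'), Or.inr (Or.inr ⟨hl, by linear_combination h1⟩)⟩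
  refine (card_le_card hsub).trans (card_biUnion_le.trans ?_)
  have key : ∀ (l l' : Λ) (e a : ZMod M), (univ.filter fun ω : Cand M d L =>
      l ≠ l' ∧ blk n b l ω = a + e * blk n b l' ω).card ≤ L * M ^ d := by
    intro l l' e a
    by_cases hl : l = l'
    · simp [hl]
    · simp only [ne_eq, hl, not_false_eq_true, true_and]
      refine (blk3 l l' e a fun h0 => ?_).le
      obtain ⟨i, hi⟩ := h.ind l l' hl
      have h1 := congrFun h0 none
      have h2 := congrFun h0 (some i)
      simp only [vec, Pi.sub_apply, Pi.smul_apply, smul_eq_mul, Option.elim, Pi.zero_apply] at h1 h2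
      exact hi (by linear_combination (b l' i : ZMod M) * h1 - (n l' : ZMod M) * h2)
  refine (sum_le_sum (g := fun _ => 3 * (L * M ^ d)) fun p _ => ?_).trans ?_
  · refine (card_union_le _ _).trans ?_
    have h1 := blk3 (L := L) (n := n) (b := b) p.1 p.1 (-1 : ZMod M) (-1) (fun h0 => by
      have h1 := congrFun h0 none
      simp only [vec, Pi.sub_apply, Pi.smul_apply, smul_eq_mul, Option.elim, Pi.zero_apply] at h1
      exact mul_ne_zero h.two (h.n0 p.1) (by linear_combination h1))
    have h2 := (card_union_le _ _).trans (add_le_add (key p.1 p.2 1 0) (key p.1 p.2 (-1) (-1)))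
    omega
  · simp [sq]; nlinarith

variable (n b)

def AA (x : ZMod M) (σ ν : ℕ) : Finset (Λ × Cand M d L) :=
  univ.filter fun p => n p.1 = ν ∧ blk n b p.1 p.2 = x ∧ slot n p.1 p.2 = σ

def GG (x : ZMod M) (σ ν : ℕ) : Finset (Λ × Cand M d L) :=
  (AA n b x σ ν).filter fun p => Simple n b p.2

def ov (p p' : Λ × Cand M d L) : Prop :=
  ∃ l, ∃ l', l' ≠ p'.1 ∧ rep (blk n b l p.2) = rep (blk n b l' p'.2)

instance : DecidableRel (ov (M := M) (L := L) n b) := by unfold ov; infer_instance

variable {n b}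

lemma card_AA (h : Good M n b) (x : ZMod M) {σ ν : ℕ} (hν : 0 < ν) (h1 : ν ∣ L) (h2 : ν ∣ σ)
    (hσ : σ < L) :
    (AA (L := L) n b x σ ν).card = (univ.filter fun l => n l = ν).card * ν * M ^ d := by
  unfold AA
  rw [card_filter, Fintype.sum_prod_type, card_filter, sum_mul, sum_mul]
  refine sum_congr rfl fun l _ => ?_
  by_cases hl : n l = ν
  · simp only [hl, true_and, if_true, one_mul]
    rw [← card_filter, card_filter_prod]
    conv_rhs => rw [← count_slot L ν σ hν h1 h2 hσ, card_filter, sum_mul]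
    refine sum_congr rfl fun c _ => ?_
    simp only [slot, hl]
    split_ifs with hc
    · simp only [hc, and_true, one_mul]; exact blk1 h l x c
    · simp [hc]
  · simp [hl]

lemma card_ov (h : Good M n b) (x : ZMod M) (σ ν : ℕ) (p : Λ × Cand M d L) :
    (((GG n b x σ ν).filter (ov n b p)).card : ℝ) ≤
      2 * Fintype.card Λ ^ 3 * (L * (M : ℝ) ^ d / M) := by
  have hM : (0:ℝ) < M := by exact_mod_cast (Fact.out : M.Prime).pos
  have hsub : (GG n b x σ ν).filter (ov n b p) ⊆
      (univ : Finset (Λ × Λ × Λ × Bool)).biUnion fun r =>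
        (univ.filter fun ω : Cand M d L => r.2.1 ≠ r.2.2.1 ∧ blk n b r.2.1 ω = x ∧
          blk n b r.2.2.1 ω = if r.2.2.2 then blk n b r.1 p.2 else -1 - blk n b r.1 p.2).image
          fun ω => (r.2.1, ω) := by
    intro p' hp'
    simp only [GG, AA, mem_filter, mem_univ, true_and] at hp'
    obtain ⟨⟨⟨-, hx, -⟩, -⟩, l, l', hl', hr⟩ := hp'
    simp only [mem_biUnion, mem_univ, true_and, mem_image, mem_filter]
    rcases rep_eq hr.symm with h1 | h1
    · exact ⟨(l, p'.1, l', true), p'.2, ⟨hl'.symm, hx, by simpa using h1⟩, rfl⟩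
    · exact ⟨(l, p'.1, l', false), p'.2, ⟨hl'.symm, hx, by simpa using h1⟩, rfl⟩
  have := (card_le_card hsub).trans card_biUnion_le
  refine (Nat.cast_le.2 this).trans ?_
  push_cast
  refine (sum_le_sum (g := fun _ => L * (M : ℝ) ^ d / M) fun r _ => ?_).trans ?_
  · refine (Nat.cast_le.2 card_image_le).trans ?_
    by_cases hl : r.2.1 = r.2.2.1
    · simp [hl]; positivity
    · simp only [ne_eq, hl, not_false_eq_true, true_and]
      rw [le_div_iff₀ hM, blk2 h hl]
  · simp only [sum_const, card_univ, Fintype.card_prod, Fintype.card_bool, nsmul_eq_mul]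
    push_cast; apply le_of_eq; ring

end Crest.Agent.R75.G
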