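import Crest.Agent.R75.PackB

set_option autoImplicit false
set_option linter.unusedSectionVars false

open Finset

namespace Crest.Agent.R75.G

variable {M : ℕ} [Fact M.Prime] {Λ : Type} [Fintype Λ] [DecidableEq Λ] {d L : ℕ}
  (n : Λ → ℕ) (b : Λ → Fin d → ℤ)

abbrev Lab := Bool × (Σ l : Λ, Fin (n l))

def side (x : ZMod M) : Bool := decide (x.val < (M - 1) / 2)

noncomputable def ind (bb : Bool) (ν : ℕ) (τ : Lab n) : ℝ := if τ.1 = bb ∧ n τ.2.1 = ν then 1 else 0

noncomputable def pr (ν : ℕ) : ℝ :=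
  ((univ.filter fun l => n l = ν).card * ν : ℝ) / (2 * ∑ l, (n l : ℝ))

lemma Ex_ind (bb : Bool) (ν : ℕ) : Ex (ind n bb ν) = pr n ν := by
  unfold Ex pr ind
  congr 1
  · rw [Fintype.sum_prod_type, sum_eq_single bb (fun c _ hc => by simp [hc]) (by simp),
      Fintype.sum_sigma]
    simp only [true_and, sum_const, card_univ, Fintype.card_fin, nsmul_eq_mul]
    rw [card_filter]; push_cast; rw [sum_mul]
    refine sum_congr rfl fun l _ => ?_
    split_ifs with h <;> simp [h]
  · simp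

noncomputable def X (p : Λ × Cand M d L) (t : ZMod M → Lab n) : ℝ :=
  ∏ l ∈ univ.erase p.1, ind n (side (blk n b l p.2)) (n l) (t (rep (blk n b l p.2)))

lemma ind_nonneg (bb : Bool) (ν : ℕ) (τ : Lab n) : 0 ≤ ind n bb ν τ := by
  unfold ind; split_ifs <;> simp

lemma ind_le (bb : Bool) (ν : ℕ) (τ : Lab n) : ind n bb ν τ ≤ 1 := by
  unfold ind; split_ifs <;> simp

lemma X_nonneg (p : Λ × Cand M d L) (t : ZMod M → Lab n) : 0 ≤ X n b p t :=
  prod_nonneg fun _ _ => ind_nonneg _ _ _ _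

lemma X_le (p : Λ × Cand M d L) (t : ZMod M → Lab n) : X n b p t ≤ 1 :=
  prod_le_one (fun _ _ => ind_nonneg _ _ _ _) fun _ _ => ind_le _ _ _ _

variable [Nonempty (Lab n)] {n b}

lemma Ex_X {p : Λ × Cand M d L} (h : Simple n b p.2) :
    Ex (X n b p) = ∏ l ∈ univ.erase p.1, pr n (n l) := by
  unfold X
  rw [Ex_prod _ (fun l => rep (blk n b l p.2)) (fun l _ l' _ e => by
    by_contra hl; exact h.2 l l' hl e) (fun l => ind n (side (blk n b l p.2)) (n l))]
  simp only [Ex_ind]

lemma Ex_XX {p p' : Λ × Cand M d L} (h : Simple n b p.2) (h' : Simple n b p'.2)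
    (ho : ¬ ov n b p p') :
    Ex (fun t => X n b p t * X n b p' t) =
      (∏ l ∈ univ.erase p.1, pr n (n l)) * ∏ l ∈ univ.erase p'.1, pr n (n l) := by
  have := Ex_prod ((univ.erase p.1).disjSum (univ.erase p'.1))
    (Sum.elim (fun l => rep (blk n b l p.2)) (fun l => rep (blk n b l p'.2))) (by
      rintro (l | l) hl (l' | l') hl' e <;> simp only [Sum.elim_inl, Sum.elim_inr] at e
      · by_contra hne; exact h.2 l l' (fun e => hne (by rw [e])) e
      · exact absurd ⟨l, l', by simpa using hl', e⟩ ho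
      · exact absurd ⟨l', l, by simpa using hl, e.symm⟩ ho
      · by_contra hne; exact h'.2 l l' (fun e => hne (by rw [e])) e)
    (Sum.elim (fun l => ind n (side (blk n b l p.2)) (n l))
      (fun l => ind n (side (blk n b l p'.2)) (n l)))
  simp only [prod_disjSum, Sum.elim_inl, Sum.elim_inr, Ex_ind] at this
  exact this

variable (n) in
def Idx (M L : ℕ) [Fact M.Prime] : Finset (ZMod M × Fin L × ℕ) :=
  (univ ×ˢ univ ×ˢ univ.image n).filter fun τ => τ.2.2 ∣ τ.2.1

lemma pr_pos (hn : ∀ l, 0 < n l) (l : Λ) : 0 < pr n (n l) := by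
  unfold pr
  have h1 : 0 < (univ.filter fun l' => n l' = n l).card := card_pos.2 ⟨l, by simp⟩
  have h2 : (0:ℝ) < ∑ l, (n l : ℝ) := sum_pos (fun l _ => by exact_mod_cast hn l) ⟨l, mem_univ _⟩
  have := hn l
  positivity

lemma sn_le (ν : ℕ) : ((univ.filter fun l => n l = ν).card * ν : ℝ) ≤ ∑ l, (n l : ℝ) := by
  rw [card_filter]; push_cast; rw [sum_mul]
  refine sum_le_sum fun l _ => ?_
  split_ifs with h <;> simp [h]

lemma pr_le (hn : ∀ l, 0 < n l) (l : Λ) : pr n (n l) ≤ 1 := by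
  unfold pr
  have h2 : (0:ℝ) < ∑ l, (n l : ℝ) := sum_pos (fun l _ => by exact_mod_cast hn l) ⟨l, mem_univ _⟩
  rw [div_le_one (by positivity)]
  linarith [sn_le (n := n) (n l)]

lemma template [NeZero L] (h : Good M n b) (hn : ∀ l, 0 < n l) (hL : ∀ l, n l ∣ L) {lam : ℝ}
    (hl : 0 < lam) :
    ∃ t : ZMod M → Lab n, ∑ τ ∈ Idx n M L, |∑ p ∈ GG (L := L) n b τ.1 τ.2.1 τ.2.2, X n b p t -
        2 * (∑ l, (n l : ℝ)) * (M : ℝ) ^ d * ∏ l, pr n (n l)| ≤
      M * L * Fintype.card Λ * ((∑ l, (n l : ℝ)) * (M : ℝ) ^ d *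
        (2 * Fintype.card Λ ^ 3 * (L * (M : ℝ) ^ d / M)) / (2 * lam) + lam / 2) +
      3 * Fintype.card Λ ^ 3 * (L * (M : ℝ) ^ d) := by
  set S := ∑ l, (n l : ℝ) with hS
  set P := ∏ l, pr n (n l) with hP
  set B := 2 * (Fintype.card Λ : ℝ) ^ 3 * (L * (M : ℝ) ^ d / M) with hB
  obtain ⟨t, ht⟩ := exists_le_Ex fun t : ZMod M → Lab n =>
    ∑ τ ∈ Idx n M L, |∑ p ∈ GG (L := L) n b τ.1 τ.2.1 τ.2.2, X n b p t - 2 * S * (M : ℝ) ^ d * P|
  refine ⟨t, ht.trans ?_⟩
  rw [Ex_sum]
  have key : ∀ τ ∈ Idx n M L, Ex (fun t : ZMod M → Lab n =>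
      |∑ p ∈ GG (L := L) n b τ.1 τ.2.1 τ.2.2, X n b p t - 2 * S * (M : ℝ) ^ d * P|) ≤
      (S * (M : ℝ) ^ d * B / (2 * lam) + lam / 2) +
        (((AA (L := L) n b τ.1 τ.2.1 τ.2.2).filter fun p => ¬ Simple n b p.2).card : ℝ) := by
    rintro ⟨x, σ, ν⟩ hτ
    simp only [Idx, mem_filter, mem_product, mem_univ, true_and, mem_image] at hτ
    obtain ⟨⟨l₀, rfl⟩, hd⟩ := hτ
    simp only
    set q := P / pr n (n l₀) with hq
    have hp0 := pr_pos hn l₀
    have hq' : ∀ l, n l = n l₀ → ∏ l ∈ univ.erase l, pr n (n l) = q := by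
      intro l hl
      rw [hq, hP, ← mul_prod_erase univ _ (mem_univ l), hl]; field_simp
    have hq0 : 0 ≤ q := by
      rw [← hq' l₀ rfl]; exact prod_nonneg fun l _ => (pr_pos hn l).le
    have hq1 : q ≤ 1 := by
      rw [← hq' l₀ rfl]; exact prod_le_one (fun l _ => (pr_pos hn l).le) fun l _ => pr_le hn l
    have hmem : ∀ p ∈ GG (L := L) n b x σ (n l₀), n p.1 = n l₀ ∧ Simple n b p.2 := by
      intro p hp
      simp only [GG, AA, mem_filter, mem_univ, true_and] at hp
      exact ⟨hp.1.1, hp.2⟩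
    have h2 := secmom (GG (L := L) n b x σ (n l₀)) (X n b) q B lam (X_nonneg n b) (X_le n b)
      (fun p hp => by rw [Ex_X (hmem p hp).2, hq' _ (hmem p hp).1]) (ov n b)
      (fun p hp p' hp' ho => by
        rw [Ex_XX (hmem p hp).2 (hmem p' hp').2 ho, hq' _ (hmem p hp).1, hq' _ (hmem p' hp').1, sq])
      (fun p _ => card_ov h x σ _ p) hl
    have hA := card_AA (L := L) h x (hn l₀) (hL l₀) hd σ.2
    have hA' : ((AA (L := L) n b x σ (n l₀)).card : ℝ) =
      (univ.filter fun l => n l = n l₀).card * n l₀ * (M : ℝ) ^ d := by exact_mod_cast hA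
    have hsplit : ((GG (L := L) n b x σ (n l₀)).card : ℝ) +
        ((AA (L := L) n b x σ (n l₀)).filter fun p => ¬ Simple n b p.2).card =
        (AA (L := L) n b x σ (n l₀)).card := by
      exact_mod_cast card_filter_add_card_filter_not (s := AA (L := L) n b x σ (n l₀))
        (fun p => Simple n b p.2)
    have hS0 : 0 < S := sum_pos (fun l _ => by exact_mod_cast hn l) ⟨l₀, mem_univ _⟩
    have hD : 2 * S * (M : ℝ) ^ d * P = (AA (L := L) n b x σ (n l₀)).card * q := by
      have h1 : 0 < (univ.filter fun l' => n l' = n l₀).card := card_pos.2 ⟨l₀, by simp⟩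
      have h1' : (0:ℝ) < (univ.filter fun l' => n l' = n l₀).card := by exact_mod_cast h1
      have h3 : (0:ℝ) < n l₀ := by exact_mod_cast hn l₀
      rw [hA', hq, pr, ← hS]; field_simp
    set r : ℝ := (((AA (L := L) n b x σ (n l₀)).filter fun p => ¬ Simple n b p.2).card : ℝ)
    have hr0 : 0 ≤ r := Nat.cast_nonneg _
    set g : ℝ := ((GG (L := L) n b x σ (n l₀)).card : ℝ)
    have hg : g ≤ S * (M : ℝ) ^ d := by
      have := mul_le_mul_of_nonneg_right (sn_le (n := n) (n l₀)) (by positivity : 0 ≤ (M : ℝ) ^ d)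
      linarith
    calc _ ≤ Ex (fun t : ZMod M → Lab n =>
          1 * |∑ p ∈ GG (L := L) n b x σ (n l₀), X n b p t - g * q| + r * 1) := by
          refine Ex_mono fun t => ?_
          rw [hD, ← hsplit, one_mul, mul_one]
          have : r * q ≤ r := mul_le_of_le_one_right hr0 hq1
          have h5 := mul_nonneg hr0 hq0
          rw [abs_le]
          constructor
          · have := neg_abs_le (∑ p ∈ GG (L := L) n b x σ (n l₀), X n b p t - g * q)
            linarith
          · have := le_abs_self (∑ p ∈ GG (L := L) n b x σ (n l₀), X n b p t - g * q)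
            linarith
      _ ≤ _ := by
          rw [Ex_lin, Ex_const, one_mul, mul_one]
          have : g * B / (2 * lam) ≤ S * (M : ℝ) ^ d * B / (2 * lam) := by gcongr
          linarith
  refine (sum_le_sum key).trans ?_
  rw [sum_add_distrib]
  refine add_le_add ?_ ?_
  · rw [sum_const, nsmul_eq_mul]
    refine mul_le_mul_of_nonneg_right ?_ (by positivity)
    have : (Idx n M L).card ≤ M * L * Fintype.card Λ := by
      refine (card_filter_le _ _).trans ?_
      simp only [card_product, card_univ, ZMod.card, Fintype.card_fin, mul_assoc]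
      gcongr; exact card_image_le
    exact_mod_cast this
  · have h1 : ∑ τ ∈ Idx n M L,
        ((AA (L := L) n b τ.1 τ.2.1 τ.2.2).filter fun p => ¬ Simple n b p.2).card ≤
        (univ ×ˢ (univ.filter fun ω : Cand M d L => ¬ Simple n b ω) : Finset (Λ × _)).card := by
      rw [← card_biUnion]
      · refine card_le_card fun p hp => ?_
        simp only [mem_biUnion, mem_filter] at hp
        obtain ⟨_, _, _, hp⟩ := hp
        simp [hp]
      · rintro ⟨x, σ, ν⟩ _ ⟨x', σ', ν'⟩ _ hne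
        rw [Function.onFun, disjoint_left]
        intro p h1 h2
        simp only [AA, mem_filter, mem_univ, true_and] at h1 h2
        apply hne
        obtain ⟨⟨a1, a2, a3⟩, -⟩ := h1
        obtain ⟨⟨b1, b2, b3⟩, -⟩ := h2
        simp only [Prod.mk.injEq]
        exact ⟨a2.symm.trans b2, Fin.ext (a3.symm.trans b3), a1.symm.trans b1⟩
    rw [card_product, card_univ] at h1
    have h2 := h1.trans (Nat.mul_le_mul_left _ (nonsimple h))
    have h3 : ((∑ τ ∈ Idx n M L,
        ((AA (L := L) n b τ.1 τ.2.1 τ.2.2).filter fun p => ¬ Simple n b p.2).card : ℕ) : ℝ) ≤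
        (Fintype.card Λ * (3 * Fintype.card Λ ^ 2 * (L * M ^ d)) : ℕ) := by exact_mod_cast h2
    push_cast at h3
    linarith

end Crest.Agent.R75.G
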