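import Crest.Agent.R75.PackC

set_option autoImplicit false
set_option linter.unusedSectionVars false

open Finset

namespace Crest.Agent.R75.G

variable {M : ℕ} [Fact M.Prime] {Λ : Type} [Fintype Λ] [DecidableEq Λ] {d L : ℕ} [NeZero L]
  {n : Λ → ℕ} (b : Λ → Fin d → ℤ) (t : ZMod M → Lab n)

lemma val_mirror (y : ZMod M) : (-1 - y).val = M - 1 - y.val := by
  have hM := (Fact.out : M.Prime).pos
  have hy := ZMod.val_lt y
  have : -1 - y = ((M - 1 - y.val : ℕ) : ZMod M) := by
    rw [Nat.cast_sub (by omega), Nat.cast_sub (by omega)]; simp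
  rw [this, ZMod.val_cast_of_lt (by omega)]

def act (x : ZMod M) : Prop := x ≠ -1 - x ∧ (t (rep x)).1 = side x

instance (x : ZMod M) : Decidable (act t x) := by unfold act; infer_instance

def ty (x : ZMod M) : ℕ := n (t (rep x)).2.1

lemma not_act_mirror (hodd : Odd M) {x : ZMod M} (h1 : act t x) (h2 : act t (-1 - x)) : False := by
  have hv := val_mirror x
  have hx := ZMod.val_lt x
  obtain ⟨k, hk⟩ := hodd
  have hne : x.val ≠ (-1 - x).val := fun e => h1.1 (ZMod.val_injective M e)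
  have e1 := h1.2
  have e2 := h2.2
  unfold rep side at e1 e2
  by_cases hx1 : x.val < (M - 1) / 2
  · have hx2 : ¬ (-1 - x).val < (M - 1) / 2 := by omega
    rw [if_pos hx1] at e1; rw [if_neg hx2, sub_sub_cancel] at e2
    rw [e1] at e2; simp [hx1, hx2] at e2
  · have hx2 : (-1 - x).val < (M - 1) / 2 := by omega
    rw [if_neg hx1] at e1; rw [if_pos hx2] at e2
    rw [e1] at e2; simp [hx1, hx2] at e2

lemma card_act : (M - 1) / 2 ≤ (univ.filter (act t)).card := by
  have hM := (Fact.out : M.Prime).pos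
  rw [← card_range ((M - 1) / 2)]
  refine card_le_card_of_injOn (fun y => if (t y).1 then (y : ZMod M) else -1 - y) ?_ ?_
  · intro y hy
    have hy' : y < (M - 1) / 2 := by simpa using hy
    have hv : (y : ZMod M).val = y := ZMod.val_cast_of_lt (by omega)
    have hv2 := val_mirror (y : ZMod M)
    have hne : (y : ZMod M) ≠ -1 - y := fun e => by
      have := congrArg ZMod.val e; omega
    simp only [coe_filter, mem_univ, true_and, Set.mem_ofPred_eq]
    split_ifs with h
    · refine ⟨hne, ?_⟩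
      unfold rep side; rw [if_pos (by omega), h, decide_eq_true (by omega)]
    · refine ⟨by rw [sub_sub_cancel]; exact hne.symm, ?_⟩
      unfold rep side; rw [if_neg (by omega), sub_sub_cancel]
      simp only [Bool.not_eq_true] at h; rw [h, decide_eq_false (by omega)]
  · intro y hy y' hy' e
    have h1 : y < (M - 1) / 2 := by simpa using hy
    have h2 : y' < (M - 1) / 2 := by simpa using hy'
    have hv : (y : ZMod M).val = y := ZMod.val_cast_of_lt (by omega)
    have hv' : (y' : ZMod M).val = y' := ZMod.val_cast_of_lt (by omega)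
    have hw := val_mirror (y : ZMod M)
    have hw' := val_mirror (y' : ZMod M)
    have := congrArg ZMod.val e
    simp only at this
    split_ifs at this <;> omega

variable (L) in
def Vt : Finset (ZMod M × Fin L) := univ.filter fun v => act t v.1 ∧ ty t v.1 ∣ v.2

lemma weight (hn : ∀ l, 0 < n l) (hL : ∀ l, n l ∣ L) :
    (M - 1) / 2 * L ≤ ∑ v ∈ Vt L t, ty t v.1 := by
  unfold Vt
  rw [sum_filter, Fintype.sum_prod_type]
  refine (Nat.mul_le_mul_right L (card_act t)).trans ?_
  rw [card_filter, sum_mul]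
  refine sum_le_sum fun x _ => ?_
  split_ifs with h
  · simp only [h, true_and, one_mul]
    rw [← sum_filter, sum_const, smul_eq_mul]
    obtain ⟨A, hA⟩ : ty t x ∣ L := hL _
    have h0 : 0 < ty t x := hn _
    have : A ≤ (univ.filter fun σ : Fin L => ty t x ∣ σ).card := by
      conv_lhs => rw [← Fintype.card_fin A, ← card_univ]
      refine card_le_card_of_injOn (fun a => ⟨ty t x * a, by
        rw [hA]; exact Nat.mul_lt_mul_of_pos_left a.2 h0⟩) (fun a _ => by simp) ?_
      intro a _ a' _ e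
      exact Fin.ext (Nat.eq_of_mul_eq_mul_left h0 (by simpa using e))
    calc L = A * ty t x := by rw [hA, mul_comm]
      _ ≤ _ := Nat.mul_le_mul_right _ this
  · simp

def Valid (ω : Cand M d L) : Prop :=
  Simple n b ω ∧ ∀ l, (t (rep (blk n b l ω))).1 = side (blk n b l ω) ∧ ty t (blk n b l ω) = n l

instance (ω : Cand M d L) : Decidable (Valid b t ω) := by unfold Valid; infer_instance

def vert (hL : ∀ l, n l ∣ L) (e : {ω : Cand M d L // Valid b t ω}) (l : Λ) : {v // v ∈ Vt L t} :=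
  ⟨(blk n b l e.1, ⟨slot n l e.1, Nat.mod_lt _ (NeZero.pos L)⟩), by
    simp only [Vt, mem_filter, mem_univ, true_and]
    refine ⟨⟨e.2.1.1 l, (e.2.2 l).1⟩, ?_⟩
    rw [(e.2.2 l).2, slot, Nat.dvd_mod_iff (hL l)]; exact dvd_mul_right _ _⟩

lemma vert_inj (hL : ∀ l, n l ∣ L) (e : {ω : Cand M d L // Valid b t ω}) :
    Function.Injective (vert b t hL e) := by
  intro l l' h
  by_contra hl
  have : blk n b l e.1 = blk n b l' e.1 := congrArg (fun v => v.1.1) h
  exact e.2.1.2 l l' hl (by rw [this])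

def edge (hL : ∀ l, n l ∣ L) (e : {ω : Cand M d L // Valid b t ω}) : Finset {v // v ∈ Vt L t} :=
  univ.image (vert b t hL e)

lemma deg_eq (hL : ∀ l, n l ∣ L) (v : {v // v ∈ Vt L t}) :
    ((univ.filter fun e => v ∈ edge b t hL e).card : ℝ) =
      ∑ p ∈ GG (L := L) n b v.1.1 v.1.2 (ty t v.1.1), X n b p t := by
  have hv := v.2
  simp only [Vt, mem_filter, mem_univ, true_and] at hv
  have hX : ∀ p : Λ × Cand M d L, X n b p t = if ∀ l ∈ univ.erase p.1,
      ((t (rep (blk n b l p.2))).1 = side (blk n b l p.2) ∧ ty t (blk n b l p.2) = n l)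
      then 1 else 0 := by
    intro p; unfold X ind; rw [prod_boole]; unfold ty; congr 1
  simp only [hX]
  rw [sum_boole]
  congr 1
  symm
  refine card_bij (fun p hp => ⟨p.2, ?_⟩) ?_ ?_ ?_
  · simp only [GG, AA, mem_filter, mem_univ, true_and, mem_erase, and_true] at hp
    obtain ⟨⟨⟨h1, h2, h3⟩, h4⟩, h5⟩ := hp
    refine ⟨h4, fun l => ?_⟩
    by_cases hl : l = p.1
    · subst hl; rw [h2]; exact ⟨hv.1.2, h1.symm⟩
    · exact h5 l hl
  · intro p hp
    simp only [GG, AA, mem_filter, mem_univ, true_and, mem_erase, and_true] at hp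
    obtain ⟨⟨⟨h1, h2, h3⟩, h4⟩, h5⟩ := hp
    simp only [mem_filter, mem_univ, true_and, edge, mem_image]
    exact ⟨p.1, Subtype.ext (Prod.ext h2 (Fin.ext h3))⟩
  · intro p hp p' hp' e
    simp only [GG, AA, mem_filter, mem_univ, true_and, mem_erase, and_true] at hp hp'
    have e2 : p.2 = p'.2 := congrArg Subtype.val e
    refine Prod.ext ?_ e2
    by_contra hl
    refine hp.1.2.2 _ _ hl ?_
    rw [hp.1.1.2.1, e2, hp'.1.1.2.1]
  · intro e he
    simp only [mem_filter, mem_univ, true_and, edge, mem_image] at he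
    obtain ⟨l, rfl⟩ := he
    refine ⟨(l, e.1), ?_, rfl⟩
    simp only [GG, AA, mem_filter, mem_univ, true_and, mem_erase, and_true]
    exact ⟨⟨⟨(e.2.2 l).2.symm, rfl, rfl⟩, e.2.1⟩, fun l _ => e.2.2 l⟩

variable {b}

lemma deg_le (h : Good M n b) (hn : ∀ l, 0 < n l) (hL : ∀ l, n l ∣ L) (v : {v // v ∈ Vt L t}) :
    ((univ.filter fun e => v ∈ edge b t hL e).card : ℝ) ≤ (∑ l, (n l : ℝ)) * (M : ℝ) ^ d := by
  have hv := v.2
  simp only [Vt, mem_filter, mem_univ, true_and] at hv
  have : Nonempty (Lab n) := ⟨t 0⟩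
  rw [deg_eq]
  refine (sum_le_sum fun p _ => X_le n b p t).trans ?_
  rw [sum_const, nsmul_eq_mul, mul_one]
  have h1 : (GG (L := L) n b v.1.1 v.1.2 (ty t v.1.1)).card ≤ _ := card_filter_le _ _
  rw [card_AA (ν := ty t v.1.1) h _ (hn _) (hL _) hv.2 v.1.2.2] at h1
  refine (Nat.cast_le.2 h1).trans ?_
  push_cast
  exact mul_le_mul_of_nonneg_right (sn_le _) (by positivity)

lemma codeg_le (h : Good M n b) (hL : ∀ l, n l ∣ L) (v w : {v // v ∈ Vt L t}) (hvw : v ≠ w) :
    ((univ.filter fun e => v ∈ edge b t hL e ∧ w ∈ edge b t hL e).card : ℝ) ≤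
      Fintype.card Λ ^ 2 * (L * (M : ℝ) ^ d / M) := by
  have hM : (0:ℝ) < M := by exact_mod_cast (Fact.out : M.Prime).pos
  have h1 : (univ.filter fun e => v ∈ edge b t hL e ∧ w ∈ edge b t hL e).card ≤
      ((univ : Finset (Λ × Λ)).biUnion fun r => univ.filter fun ω : Cand M d L =>
        r.1 ≠ r.2 ∧ blk n b r.1 ω = v.1.1 ∧ blk n b r.2 ω = w.1.1).card := by
    refine card_le_card_of_injOn Subtype.val ?_ Subtype.val_injective.injOn
    intro e he
    simp only [coe_filter, mem_univ, true_and, Set.mem_ofPred_eq, edge, mem_image] at he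
    obtain ⟨⟨l, rfl⟩, ⟨l', rfl⟩⟩ := he
    simp only [coe_biUnion, coe_univ, Set.mem_univ, Set.iUnion_true, Set.mem_iUnion, coe_filter,
      mem_univ, true_and, Set.mem_ofPred_eq]
    exact ⟨(l, l'), fun e => hvw (by rw [show l = l' from e]), rfl, rfl⟩
  refine (Nat.cast_le.2 (h1.trans card_biUnion_le)).trans ?_
  push_cast
  refine (sum_le_sum (g := fun _ => L * (M : ℝ) ^ d / M) fun r _ => ?_).trans ?_
  · by_cases hl : r.1 = r.2
    · simp [hl]; positivity
    · simp only [ne_eq, hl, not_false_eq_true, true_and]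
      rw [le_div_iff₀ hM, blk2 h hl]
  · simp [sq]

lemma sum_dev (hL : ∀ l, n l ∣ L) (D : ℝ) :
    ∑ v : {v // v ∈ Vt L t}, |((univ.filter fun e => v ∈ edge b t hL e).card : ℝ) - D| ≤
      ∑ τ ∈ Idx n M L, |∑ p ∈ GG (L := L) n b τ.1 τ.2.1 τ.2.2, X n b p t - D| := by
  simp only [deg_eq]
  rw [← sum_image (s := univ) (g := fun v : {v // v ∈ Vt L t} => (v.1.1, v.1.2, ty t v.1.1))
    (f := fun τ : ZMod M × Fin L × ℕ => |∑ p ∈ GG (L := L) n b τ.1 τ.2.1 τ.2.2, X n b p t - D|)
    (fun v _ w _ e => by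
      simp only [Prod.mk.injEq] at e
      exact Subtype.ext (Prod.ext e.1 e.2.1))]
  refine sum_le_sum_of_subset_of_nonneg (fun τ hτ => ?_) fun _ _ _ => abs_nonneg _
  simp only [mem_image, mem_univ, true_and] at hτ
  obtain ⟨v, rfl⟩ := hτ
  have hv := v.2
  simp only [Vt, mem_filter, mem_univ, true_and] at hv
  simp only [Idx, mem_filter, mem_product, mem_univ, true_and, mem_image]
  exact ⟨⟨_, rfl⟩, hv.2⟩

end Crest.Agent.R75.G
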