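import Crest.Agent.R75.Spencer
import Crest.Agent.R75.Fin1

/-! Rounding of a nearly `±1` vector: binary rounding with the Spencer bound, and grid interpolation. -/

set_option autoImplicit false

open Finset

namespace Crest.Agent.R75.H

open Crest.Agent.R75.Fin1

lemma bin_round {ι μ : Type} [Fintype ι] [Fintype μ] [DecidableEq ι] (v : μ → ι → ℝ)
    (hv : ∀ j i, |v j i| ≤ 1) (hc : Fintype.card ι ≤ Fintype.card μ) (s q : ℝ) (hq : 0 ≤ q)
    (hsq : Fintype.card μ * s ≤ q ^ 4) (J : ℕ) :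
    ∀ a : ι → ℕ, (∀ i, a i ≤ 2 ^ J) → ∑ i, (a i : ℝ) ≤ 2 ^ J * s →
      ∃ u : ι → ℕ, (∀ i, u i ≤ 1) ∧
        ∀ j, |∑ i, ((u i : ℝ) - a i / 2 ^ J) * v j i| ≤ 2400 * q * (1 - (3 / 5) ^ J) := by
  induction J with
  | zero => intro a ha _; exact ⟨a, by simpa using ha, fun j => by simp⟩
  | succ J ih =>
    intro a ha hs
    set O := univ.filter fun i => a i % 2 = 1 with hO
    have hm : (0 : ℝ) ≤ Fintype.card μ := Nat.cast_nonneg _
    have hO1 : (#O : ℝ) ≤ 2 ^ (J + 1) * s := by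
      refine le_trans ?_ hs
      rw [hO, card_filter]; push_cast
      refine sum_le_sum fun i _ => ?_
      split_ifs with h
      · have : 1 ≤ a i := by omega
        exact_mod_cast this
      · positivity
    have key : ∃ χ : ι → ℝ, (∀ i, χ i = 1 ∨ χ i = -1) ∧
        (∀ j, |∑ i ∈ O, χ i * v j i| ≤ 1600 * (q * (6 / 5) ^ (J + 1))) ∧ ∑ i ∈ O, χ i ≤ 0 := by
      obtain ⟨χ, h1, h2⟩ := spencer_fin v hv _ O (q * (6 / 5) ^ (J + 1)) rfl (by positivity)
        ((card_le_univ _).trans hc) (by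
          have h3 : (2 : ℝ) ^ (J + 1) ≤ ((6 / 5) ^ (J + 1)) ^ 4 := by
            rw [← pow_mul, mul_comm, pow_mul]
            exact pow_le_pow_left₀ (by norm_num) (by norm_num) _
          calc _ ≤ Fintype.card μ * (2 ^ (J + 1) * s) := mul_le_mul_of_nonneg_left hO1 hm
            _ = 2 ^ (J + 1) * (Fintype.card μ * s) := by ring
            _ ≤ ((6 / 5) ^ (J + 1)) ^ 4 * q ^ 4 := 
              (mul_le_mul_of_nonneg_left hsq (by positivity)).trans
                (mul_le_mul_of_nonneg_right h3 (by positivity))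
            _ = _ := by ring)
      rcases le_total (∑ i ∈ O, χ i) 0 with h | h
      · exact ⟨χ, h1, h2, h⟩
      · refine ⟨fun i => -χ i, fun i => ?_, fun j => ?_, ?_⟩
        · rcases h1 i with h | h <;> simp [h]
        · simp only [neg_mul, sum_neg_distrib, abs_neg]; exact h2 j
        · simp only [sum_neg_distrib]; linarith
    obtain ⟨χ, h1, h2, h3⟩ := key
    set a' : ι → ℕ := fun i => if a i % 2 = 1 ∧ χ i = 1 then a i / 2 + 1 else a i / 2 with ha'
    have hid : ∀ i, (2 * a' i : ℝ) = a i + if a i % 2 = 1 then χ i else 0 := by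
      intro i
      have e : (a i : ℝ) = 2 * ((a i / 2 : ℕ) : ℝ) + ((a i % 2 : ℕ) : ℝ) := by
        exact_mod_cast (Nat.div_add_mod (a i) 2).symm
      simp only [ha']
      rcases Nat.mod_two_eq_zero_or_one (a i) with h | h
      · rw [h] at e ⊢; simp only [zero_ne_one, false_and, if_false]; rw [e]; simp
      · rw [h] at e ⊢
        rcases h1 i with h' | h'
        · simp only [h', and_self, if_true]; push_cast at e ⊢; linarith
        · have : χ i ≠ 1 := by rw [h']; norm_num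
          simp only [this, and_false, if_false, if_true]; push_cast at e ⊢; linarith
    obtain ⟨u, hu1, hu2⟩ := ih a' (fun i => by
      have := ha i
      simp only [ha']
      rw [pow_succ] at this
      split_ifs with h
      · have := h.1; omega
      · omega) (by
      have : ∑ i, (2 * a' i : ℝ) = ∑ i, (a i : ℝ) + ∑ i ∈ O, χ i := by
        rw [hO, sum_filter, ← sum_add_distrib]; exact sum_congr rfl fun i _ => hid i
      rw [← mul_sum] at this
      rw [pow_succ] at hs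
      linarith)
    refine ⟨u, hu1, fun j => ?_⟩
    have e : ∑ i, ((u i : ℝ) - a i / 2 ^ (J + 1)) * v j i =
        ∑ i, ((u i : ℝ) - a' i / 2 ^ J) * v j i + (∑ i ∈ O, χ i * v j i) / 2 ^ (J + 1) := by
      rw [hO, sum_filter, sum_div, ← sum_add_distrib]
      refine sum_congr rfl fun i _ => ?_
      have := hid i
      have e1 : (a i : ℝ) = 2 * a' i - if a i % 2 = 1 then χ i else 0 := by linarith
      rw [e1]
      split_ifs <;> field_simp <;> ring
    rw [e]
    refine (abs_add_le _ _).trans ?_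
    have h4 : |(∑ i ∈ O, χ i * v j i) / 2 ^ (J + 1)| ≤ 1600 * q * (3 / 5) ^ (J + 1) := by
      rw [abs_div, abs_of_pos (by positivity : (0 : ℝ) < 2 ^ (J + 1)), div_le_iff₀ (by positivity)]
      refine (h2 j).trans (le_of_eq ?_)
      rw [mul_assoc (1600 * q), ← mul_pow]; norm_num; ring
    have h5 := hu2 j
    rw [pow_succ (3 / 5 : ℝ)] at h4 ⊢
    linarith

lemma real_round {ι μ : Type} [Fintype ι] [Fintype μ] [DecidableEq ι] (v : μ → ι → ℝ)
    (hv : ∀ j i, |v j i| ≤ 1) (hc : Fintype.card ι ≤ Fintype.card μ) (s q : ℝ) (hq : 0 < q)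
    (hsq : Fintype.card μ * s ≤ q ^ 4) (u : ι → ℝ) (hu0 : ∀ i, 0 ≤ u i) (hu1 : ∀ i, u i ≤ 1)
    (hs : ∑ i, u i ≤ s) :
    ∃ u' : ι → ℕ, (∀ i, u' i ≤ 1) ∧ ∀ j, |∑ i, ((u' i : ℝ) - u i) * v j i| ≤ 2401 * q := by
  obtain ⟨J, hJ⟩ := pow_unbounded_of_one_lt (Fintype.card ι / q : ℝ) (by norm_num : (1 : ℝ) < 2)
  have h2 : (0 : ℝ) < 2 ^ J := by positivity
  have hfl : ∀ i, (⌊2 ^ J * u i⌋₊ : ℝ) ≤ 2 ^ J * u i := fun i =>
    Nat.floor_le (mul_nonneg h2.le (hu0 i))
  obtain ⟨u', h1, h3⟩ := bin_round v hv hc s q hq.le hsq J (fun i => ⌊2 ^ J * u i⌋₊)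
    (fun i => by
      have : (⌊2 ^ J * u i⌋₊ : ℝ) ≤ 2 ^ J := (hfl i).trans (by nlinarith [hu1 i])
      exact_mod_cast this)
    (by
      refine (sum_le_sum fun i _ => hfl i).trans ?_
      rw [← mul_sum]; exact mul_le_mul_of_nonneg_left hs h2.le)
  refine ⟨u', h1, fun j => ?_⟩
  have e : ∑ i, ((u' i : ℝ) - u i) * v j i =
      ∑ i, ((u' i : ℝ) - (⌊2 ^ J * u i⌋₊ : ℝ) / 2 ^ J) * v j i +
        ∑ i, ((⌊2 ^ J * u i⌋₊ : ℝ) / 2 ^ J - u i) * v j i := by
    rw [← sum_add_distrib]; exact sum_congr rfl fun i _ => by ring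
  rw [e]
  refine (abs_add_le _ _).trans ?_
  have h4 : |∑ i, ((⌊2 ^ J * u i⌋₊ : ℝ) / 2 ^ J - u i) * v j i| ≤ q := by
    refine (abs_sum_le_sum_abs _ _).trans ?_
    calc _ ≤ ∑ _i : ι, (1 / 2 ^ J : ℝ) := by
          refine sum_le_sum fun i _ => ?_
          rw [abs_mul]
          have h5 : |(⌊2 ^ J * u i⌋₊ : ℝ) / 2 ^ J - u i| ≤ 1 / 2 ^ J := by
            have e1 : (⌊2 ^ J * u i⌋₊ : ℝ) / 2 ^ J - u i = (⌊2 ^ J * u i⌋₊ - 2 ^ J * u i) / 2 ^ J := by
              field_simp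
            rw [e1, abs_div, abs_of_pos h2]
            refine div_le_div_of_nonneg_right ?_ h2.le
            have := Nat.lt_floor_add_one (2 ^ J * u i)
            rw [abs_le]; constructor <;> linarith [hfl i]
          calc _ ≤ 1 / 2 ^ J * 1 := mul_le_mul h5 (hv j i) (abs_nonneg _) (by positivity)
            _ = _ := mul_one _
      _ ≤ q := by
          rw [sum_const, card_univ, nsmul_eq_mul, mul_one_div, div_le_iff₀ h2]
          rw [div_lt_iff₀ hq] at hJ; linarith
  have h5 := h3 j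
  have h6 : (0 : ℝ) ≤ (3 / 5) ^ J := by positivity
  nlinarith

lemma grid (M : ℕ) (j : ℤ) (hj : |j| < M) :
    ∑ t ∈ range M, ee (j * (t / M)) = if j = 0 then (M : ℂ) else 0 := by
  have hM : (0 : ℝ) < M := by
    have : (0 : ℤ) < M := (abs_nonneg j).trans_lt hj
    exact_mod_cast this
  split_ifs with h
  · subst h; simp [ee]
  · have hp : ∀ t : ℕ, ee (j * (t / M)) = ee (j / M) ^ t := by
      intro t; unfold ee; rw [← Complex.exp_nat_mul]; congr 1; push_cast; ring
    simp_rw [hp]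
    have h1 : ee (j / M) ^ M = 1 := by
      rw [← hp, div_self hM.ne', mul_one, ee_int]
    have h2 : ee (j / M) ≠ 1 := by
      unfold ee
      rw [Ne, Complex.exp_eq_one_iff]
      rintro ⟨k, hk⟩
      have hpi : (2 * Real.pi * Complex.I : ℂ) ≠ 0 := by simp [Real.pi_ne_zero]
      have h3 : (((j : ℝ) / M : ℝ) : ℂ) = k := by
        apply mul_left_cancel₀ hpi; rw [hk]; ring
      have h4 : (j : ℝ) / M = k := by exact_mod_cast h3
      rw [div_eq_iff hM.ne'] at h4
      have h5 : j = k * M := by exact_mod_cast h4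
      have h6 : k ≠ 0 := by rintro rfl; simp at h5; exact h h5
      have h7 : 1 ≤ |k| := Int.one_le_abs h6
      rw [h5, abs_mul, Nat.abs_cast] at hj
      have : (0 : ℤ) ≤ M := Nat.cast_nonneg _
      nlinarith
    rw [geom_sum_eq h2, h1]; simp

/-- Dirichlet kernel -/
noncomputable def DD (L : ℕ) (z : ℝ) : ℂ := ∑ a ∈ range L, ee (a * z)

lemma grid_parseval (M L : ℕ) (hL : L ≤ M) (x : ℝ) :
    ∑ t ∈ range M, ‖DD L (x - t / M)‖ ^ 2 = M * L := by
  apply Complex.ofReal_injective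
  have key : ∀ t : ℕ, ((‖DD L (x - t / M)‖ ^ 2 : ℝ) : ℂ) =
      ∑ a ∈ range L, ∑ b ∈ range L, ee ((a - b) * x) * ee ((((b : ℤ) - (a : ℤ) : ℤ)) * (t / M)) := by
    intro t
    rw [← Complex.normSq_eq_norm_sq, ← Complex.mul_conj, DD, map_sum, Finset.sum_mul_sum]
    refine sum_congr rfl fun a _ => sum_congr rfl fun b _ => ?_
    rw [← ee_neg, ← ee_add, ← ee_add]; congr 1; push_cast; ring
  rw [Complex.ofReal_sum]
  simp_rw [key]
  rw [sum_comm]
  have : ∀ a ∈ range L, ∑ t ∈ range M, ∑ b ∈ range L,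
      ee ((a - b) * x) * ee ((((b : ℤ) - (a : ℤ) : ℤ)) * (t / M)) = M := by
    intro a ha
    rw [sum_comm, sum_eq_single a]
    · rw [← mul_sum, grid M _ (by simp at ha ⊢; omega)]; simp [ee]
    · intro b hb hba
      rw [← mul_sum, grid M _ (by rw [mem_range] at ha hb; rw [abs_lt]; omega), if_neg (by omega),
        mul_zero]
    · intro h; exact absurd ha h
  rw [sum_congr rfl this]; simp [mul_comm]

lemma interp (N : ℕ) (d : Fin N → ℂ) (x : ℝ) :
    ∑ t ∈ range (2 * N), (∑ k : Fin N, d k * ee ((k : ℕ) * (t / (2 * N : ℕ)))) *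
      ((starRingEnd ℂ) (DD N (x - t / (2 * N : ℕ))) * DD (2 * N) (x - t / (2 * N : ℕ))) =
      (2 * N : ℕ) * N * ∑ k : Fin N, d k * ee ((k : ℕ) * x) := by
  set M := 2 * N with hM
  have key : ∀ t : ℕ, (∑ k : Fin N, d k * ee ((k : ℕ) * (t / M))) *
      ((starRingEnd ℂ) (DD N (x - t / M)) * DD M (x - t / M)) =
      ∑ k : Fin N, ∑ a ∈ range N, ∑ b ∈ range M,
        d k * ee ((b - a) * x) * ee (((((k : ℕ) : ℤ) + (a : ℤ) - (b : ℤ) : ℤ)) * (t / M)) := by
    intro t
    rw [DD, DD, map_sum, sum_mul_sum, sum_mul]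
    refine sum_congr rfl fun k _ => ?_
    rw [mul_sum]
    refine sum_congr rfl fun a _ => ?_
    rw [mul_sum]
    refine sum_congr rfl fun b _ => ?_
    rw [← ee_neg, ← ee_add, mul_assoc, mul_assoc, ← ee_add, ← ee_add]; congr 2; push_cast; ring
  simp_rw [key]
  rw [sum_comm, mul_sum]
  refine sum_congr rfl fun k _ => ?_
  rw [sum_comm]
  have : ∀ a ∈ range N, ∑ t ∈ range M, ∑ b ∈ range M,
      d k * ee ((b - a) * x) * ee (((((k : ℕ) : ℤ) + (a : ℤ) - (b : ℤ) : ℤ)) * (t / M)) =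
      M * (d k * ee ((k : ℕ) * x)) := by
    intro a ha
    have hk := k.2
    rw [mem_range] at ha
    rw [sum_comm, sum_eq_single ((k : ℕ) + a)]
    · rw [← mul_sum, grid M _ (by simp; omega), if_pos (by push_cast; ring), mul_comm]
      congr 3; push_cast; ring
    · intro b hb hba
      rw [← mul_sum, grid M _ (by rw [mem_range] at hb; rw [abs_lt]; omega), if_neg (by omega),
        mul_zero]
    · intro h; exact absurd (mem_range.2 (by omega)) h
  rw [sum_congr rfl this, sum_const, card_range, nsmul_eq_mul]; ring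

lemma sup_le_grid (N : ℕ) (hN : 0 < N) (d : Fin N → ℂ) (G : ℝ)
    (hG : ∀ t ∈ range (2 * N), ‖∑ k : Fin N, d k * ee ((k : ℕ) * (t / (2 * N : ℕ)))‖ ≤ G) (x : ℝ) :
    ‖∑ k : Fin N, d k * ee ((k : ℕ) * x)‖ ≤ 3 / 2 * G := by
  have hG0 : 0 ≤ G := (norm_nonneg _).trans (hG 0 (mem_range.2 (by omega)))
  have h1 := congrArg norm (interp N d x)
  rw [norm_mul, norm_mul, Complex.norm_natCast, Complex.norm_natCast] at h1
  have h2 := grid_parseval (2 * N) N (by omega) x
  have h3 := grid_parseval (2 * N) (2 * N) le_rfl x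
  have h4 : ((2 * N : ℕ) : ℝ) * N * ‖∑ k : Fin N, d k * ee ((k : ℕ) * x)‖ ≤
      G * ((∑ t ∈ range (2 * N), ‖DD N (x - t / (2 * N : ℕ))‖ ^ 2 +
        ∑ t ∈ range (2 * N), ‖DD (2 * N) (x - t / (2 * N : ℕ))‖ ^ 2) / 2) := by
    rw [← h1, ← sum_add_distrib, sum_div, mul_sum]
    refine (norm_sum_le _ _).trans (sum_le_sum fun t ht => ?_)
    rw [norm_mul, norm_mul, Complex.norm_conj]
    refine mul_le_mul (hG t ht) ?_ (by positivity) hG0
    nlinarith [sq_nonneg (‖DD N (x - t / (2 * N : ℕ))‖ - ‖DD (2 * N) (x - t / (2 * N : ℕ))‖)]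
  rw [h2, h3] at h4
  have hN' : (0 : ℝ) < N := by exact_mod_cast hN
  push_cast at h4
  have h5 : 2 * (N : ℝ) * N * ‖∑ k : Fin N, d k * ee ((k : ℕ) * x)‖ ≤ 2 * N * N * (3 / 2 * G) := by
    linarith
  exact le_of_mul_le_mul_left h5 (by positivity)

end Crest.Agent.R75.H

namespace Crest.Agent.R75

open Crest.Agent.R75.Fin1

theorem round_of (_h : SpencerStmt) : RoundStmt := by
  intro ε hε
  set η := ε / 15000 with hη
  have hη0 : 0 < η := by positivity
  refine ⟨η ^ 4 / 2, by positivity, fun N y hy hs => ?_⟩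
  rcases Nat.eq_zero_or_pos N with rfl | hN
  · exact ⟨fun _ => 1, fun _ => Or.inl rfl, fun x => by simp⟩
  have hN' : (0 : ℝ) < N := by exact_mod_cast hN
  have hr0 : 0 < Real.sqrt N := Real.sqrt_pos.2 hN'
  have hr2 : Real.sqrt N ^ 2 = N := Real.sq_sqrt hN'.le
  set σ : Fin N → ℝ := fun k => if 0 ≤ y k then 1 else -1 with hσ
  have hσ1 : ∀ k, σ k = 1 ∨ σ k = -1 := fun k => by simp only [hσ]; split_ifs <;> simp
  have hσa : ∀ k, |σ k| = 1 := fun k => by rcases hσ1 k with h | h <;> simp [h]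
  have hσy : ∀ k, y k = σ k * |y k| := fun k => by
    simp only [hσ]; split_ifs with h
    · rw [abs_of_nonneg h, one_mul]
    · rw [abs_of_neg (not_le.1 h)]; ring
  set v : Fin (2 * N) × Bool → Fin N → ℝ := fun j k =>
    σ k * (if j.2 then (ee ((k : ℕ) * ((j.1 : ℕ) / (2 * N : ℕ)))).re
      else (ee ((k : ℕ) * ((j.1 : ℕ) / (2 * N : ℕ)))).im) with hv
  obtain ⟨u, hu1, hu2⟩ := H.real_round v (fun j k => by
      simp only [hv]
      rw [abs_mul, hσa, one_mul]
      split_ifs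
      · exact (Complex.abs_re_le_norm _).trans (norm_ee _).le
      · exact (Complex.abs_im_le_norm _).trans (norm_ee _).le)
    (by simp; omega) (η ^ 4 / 2 * N / 2) (η * Real.sqrt N) (by positivity)
    (by
      have : (η * Real.sqrt N) ^ 4 = η ^ 4 * (Real.sqrt N ^ 2) ^ 2 := by ring
      rw [this, hr2]
      simp only [Fintype.card_prod, Fintype.card_fin, Fintype.card_bool]
      push_cast; apply le_of_eq; ring)
    (fun k => (1 - |y k|) / 2) (fun k => by linarith [hy k]) (fun k => by linarith [abs_nonneg (y k)])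
    (by rw [← sum_div]; linarith)
  refine ⟨fun k => σ k * (1 - 2 * u k), fun k => ?_, fun x => ?_⟩
  · have := hu1 k
    have h0 : u k = 0 ∨ u k = 1 := by omega
    rcases h0 with h0 | h0 <;> rcases hσ1 k with h | h <;> simp [h0, h] <;> norm_num
  · refine (H.sup_le_grid N hN _ (4 * (2401 * (η * Real.sqrt N))) (fun t ht => ?_) x).trans ?_
    · have ht' := mem_range.1 ht
      have h1 := hu2 (⟨t, ht'⟩, true)
      have h2 := hu2 (⟨t, ht'⟩, false)
      simp only [hv, if_true, Bool.false_eq_true, if_false] at h1 h2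
      refine (Complex.norm_le_abs_re_add_abs_im _).trans ?_
      rw [Complex.re_sum, Complex.im_sum]
      have e : ∀ k, σ k * (1 - 2 * u k) - y k = -2 * (((u k : ℝ) - (1 - |y k|) / 2) * σ k) := by
        intro k; linarith [hσy k]
      simp only [e, Complex.re_ofReal_mul, Complex.im_ofReal_mul, mul_assoc, ← mul_sum, abs_mul]
      norm_num at h1 h2 ⊢
      linarith
    · rw [hη]; nlinarith [mul_pos hε hr0]

end Crest.Agent.R75
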