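import Crest.Agent.R75.Defs

/-! Partial colouring (entropy method in weighted pigeonhole form) and the crude Spencer bound. -/

set_option autoImplicit false

open Finset

namespace Crest.Agent.R75.H

/-- sign of a boolean -/
def sg (b : Bool) : ℝ := if b then 1 else -1

lemma mgf {ι : Type} [Fintype ι] [DecidableEq ι] (w : ι → ℝ) (hw : ∀ i, |w i| ≤ 1) (l : ℝ) :
    ∑ s : ι → Bool, Real.exp (l * ∑ i, sg (s i) * w i) ≤
      2 ^ Fintype.card ι * Real.exp (l ^ 2 * Fintype.card ι / 2) := by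
  have h1 : ∀ s : ι → Bool, Real.exp (l * ∑ i, sg (s i) * w i) =
      ∏ i, Real.exp (l * (sg (s i) * w i)) := by
    intro s; rw [mul_sum, Real.exp_sum]
  simp_rw [h1]
  have h2 := Finset.prod_univ_sum (fun _ : ι => (univ : Finset Bool))
    (fun i b => Real.exp (l * (sg b * w i)))
  rw [Fintype.piFinset_univ] at h2
  rw [← h2]
  have h3 : ∀ i, ∑ b : Bool, Real.exp (l * (sg b * w i)) ≤ 2 * Real.exp (l ^ 2 / 2) := by
    intro i
    have hc := Real.cosh_le_exp_half_sq (l * w i)
    rw [Real.cosh_eq] at hc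
    have h4 : (l * w i) ^ 2 / 2 ≤ l ^ 2 / 2 := by
      have : (w i) ^ 2 ≤ 1 := by
        rw [← sq_abs]; exact pow_le_one₀ (abs_nonneg _) (hw i)
      rw [mul_pow]; nlinarith [sq_nonneg l]
    have h5 := Real.exp_le_exp.2 h4
    simp only [Fintype.sum_bool, sg, if_true, Bool.false_eq_true, if_false]
    have e1 : l * (1 * w i) = l * w i := by ring
    have e2 : l * (-1 * w i) = -(l * w i) := by ring
    rw [e1, e2]; linarith
  calc ∏ i, ∑ b : Bool, Real.exp (l * (sg b * w i)) ≤ ∏ _i : ι, 2 * Real.exp (l ^ 2 / 2) :=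
        prod_le_prod (fun i _ => sum_nonneg fun b _ => (Real.exp_pos _).le) (fun i _ => h3 i)
    _ = _ := by
        rw [prod_const, card_univ, mul_pow, ← Real.exp_nat_mul]; congr 2; ring

lemma round_le (t a : ℝ) (ha : 1 ≤ a) :
    (|round t| : ℝ) ≤ Real.exp (-a / 2) * (Real.exp (a * t) + Real.exp (-(a * t))) := by
  by_cases h : |t| < 1 / 2
  · have : round t = 0 := by
      rw [round_eq_zero_iff]; rw [abs_lt] at h; constructor <;> linarith [h.1, h.2]
    rw [this]; simp only [Int.cast_zero, abs_zero]; positivity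
  · push Not at h
    have h1 : (|round t| : ℝ) ≤ |t| + 1 / 2 := by
      have := abs_sub_round t
      have h2 : (round t : ℝ) = t - (t - round t) := by ring
      rw [h2]; exact (abs_sub _ _).trans (by linarith)
    have h2 : |t| + 1 / 2 ≤ Real.exp (a * (|t| - 1 / 2)) := by
      have := Real.add_one_le_exp (a * (|t| - 1 / 2))
      nlinarith
    have h3 : Real.exp (a * (|t| - 1 / 2)) = Real.exp (-a / 2) * Real.exp (a * |t|) := by
      rw [← Real.exp_add]; congr 1; ring
    have h4 : Real.exp (a * |t|) ≤ Real.exp (a * t) + Real.exp (-(a * t)) := by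
      rcases abs_cases t with h | h
      · rw [h.1]; linarith [Real.exp_pos (-(a * t))]
      · rw [h.1, mul_neg]; linarith [Real.exp_pos (a * t)]
    calc _ ≤ _ := h1.trans h2
      _ = _ := h3
      _ ≤ _ := mul_le_mul_of_nonneg_left h4 (Real.exp_pos _).le

lemma geom_int (x : ℝ) (h0 : 0 ≤ x) (h1 : x ≤ 1 / 3) (T : Finset ℤ) :
    ∑ k ∈ T, x ^ k.natAbs ≤ 1 + 3 * x := by
  have hx : x < 1 := by linarith
  have ha := hasSum_geometric_of_lt_one h0 hx
  have hb := ha.mul_left x
  have hs : HasSum (fun k : ℤ => x ^ k.natAbs) ((1 - x)⁻¹ + x * (1 - x)⁻¹) := by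
    apply HasSum.of_nat_of_neg_add_one
    · simpa using ha
    · have : (fun n : ℕ => x ^ (-((n : ℤ) + 1)).natAbs) = fun n => x * x ^ n := by
        funext n
        have : (-((n : ℤ) + 1)).natAbs = n + 1 := by omega
        rw [this, pow_succ']
      rw [this]; exact hb
  have := sum_le_hasSum T (fun k _ => pow_nonneg h0 _) hs
  refine this.trans ?_
  have h2 : 0 < 1 - x := by linarith
  rw [← one_add_mul, ← div_eq_mul_inv, div_le_iff₀ h2]
  nlinarith

lemma ball_le {ι : Type} [Fintype ι] [DecidableEq ι] (s₀ : ι → Bool) (A : Finset (ι → Bool))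
    (hA : ∀ s ∈ A, 10 * #{i | s i ≠ s₀ i} ≤ Fintype.card ι) :
    (#A : ℝ) ≤ (5 / 4) ^ Fintype.card ι * Real.exp (0.15 * Fintype.card ι) := by
  have h2 := Finset.prod_univ_sum (fun _ : ι => (univ : Finset Bool))
    (fun i b => (if b ≠ s₀ i then (1 / 4 : ℝ) else 1))
  rw [Fintype.piFinset_univ] at h2
  have h3 : ∀ i, ∑ b : Bool, (if b ≠ s₀ i then (1 / 4 : ℝ) else 1) = 5 / 4 := by
    intro i; cases s₀ i <;> simp <;> norm_num
  simp_rw [h3] at h2
  rw [prod_const, card_univ] at h2
  rw [h2, sum_mul]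
  have h4 : (4 : ℝ) ≤ Real.exp 1.5 := by
    have h5 := Real.exp_one_gt_d9
    have h6 := Real.add_one_le_exp (0.5 : ℝ)
    have : Real.exp 1.5 = Real.exp 1 * Real.exp 0.5 := by rw [← Real.exp_add]; norm_num
    rw [this]; nlinarith
  calc (#A : ℝ) = ∑ _s ∈ A, (1 : ℝ) := by simp
    _ ≤ ∑ s ∈ A, (∏ i, (if s i ≠ s₀ i then (1 / 4 : ℝ) else 1)) *
          Real.exp (0.15 * Fintype.card ι) := by
        refine sum_le_sum fun s hs => ?_
        rw [prod_ite, prod_const_one, mul_one, prod_const]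
        have h5 : (4 : ℝ) ^ #{i | s i ≠ s₀ i} ≤ Real.exp (0.15 * Fintype.card ι) := by
          calc (4 : ℝ) ^ #{i | s i ≠ s₀ i} ≤ (Real.exp 1.5) ^ #{i | s i ≠ s₀ i} :=
                pow_le_pow_left₀ (by norm_num) h4 _
            _ = Real.exp (#{i | s i ≠ s₀ i} * 1.5) := by rw [Real.exp_nat_mul]
            _ ≤ _ := by
                apply Real.exp_le_exp.2
                have : ((10 * #{i | s i ≠ s₀ i} : ℕ) : ℝ) ≤ Fintype.card ι := by
                  exact_mod_cast hA s hs
                push_cast at this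
                linarith
        have h6 : (1 / 4 : ℝ) ^ #{i | s i ≠ s₀ i} * 4 ^ #{i | s i ≠ s₀ i} = 1 := by
          rw [← mul_pow]; norm_num
        calc (1 : ℝ) = _ := h6.symm
          _ ≤ _ := mul_le_mul_of_nonneg_left h5 (by positivity)
    _ ≤ _ := by
        refine sum_le_sum_of_subset_of_nonneg (subset_univ _) fun s _ _ => ?_
        refine mul_nonneg (prod_nonneg fun i _ => ?_) (Real.exp_pos _).le
        split_ifs <;> norm_num

/-- weighted pigeonhole: the weight of all points is at most the largest fibre times the total weight -/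
lemma weight_le {S μ : Type} [Fintype S] [Fintype μ] [DecidableEq μ] (b : S → μ → ℤ) (x F : ℝ)
    (h0 : 0 ≤ x) (h1 : x ≤ 1 / 3) (hF0 : 0 ≤ F)
    (hF : ∀ β, (#{s | b s = β} : ℝ) ≤ F) :
    ∑ s, ∏ j, x ^ (b s j).natAbs ≤ F * Real.exp (3 * x * Fintype.card μ) := by
  classical
  set T : μ → Finset ℤ := fun j => univ.image fun s => b s j
  have hmem : ∀ s ∈ (univ : Finset S), b s ∈ Fintype.piFinset T := by
    intro s _
    rw [Fintype.mem_piFinset]; intro j; exact mem_image_of_mem _ (mem_univ s)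
  rw [← sum_fiberwise_of_maps_to hmem]
  have h2 := Finset.prod_univ_sum T (fun _ k => x ^ k.natAbs)
  calc ∑ β ∈ Fintype.piFinset T, ∑ s with b s = β, ∏ j, x ^ (b s j).natAbs
      ≤ ∑ β ∈ Fintype.piFinset T, F * ∏ j, x ^ (β j).natAbs := by
        refine sum_le_sum fun β _ => ?_
        rw [sum_congr rfl (g := fun _ => ∏ j, x ^ (β j).natAbs)
          (fun s hs => by rw [(mem_filter.1 hs).2]), sum_const, nsmul_eq_mul]
        exact mul_le_mul_of_nonneg_right (hF β) (by positivity)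
    _ = F * ∏ j, ∑ k ∈ T j, x ^ k.natAbs := by rw [← mul_sum, h2]
    _ ≤ F * ∏ _j : μ, Real.exp (3 * x) := by
        refine mul_le_mul_of_nonneg_left (prod_le_prod (fun j _ => by positivity) fun j _ => ?_) hF0
        have := Real.add_one_le_exp (3 * x)
        linarith [geom_int x h0 h1 (T j)]
    _ = _ := by rw [prod_const, card_univ, ← Real.exp_nat_mul]; congr 2; ring

lemma partial_col {ι μ : Type} [Fintype ι] [Fintype μ] [DecidableEq ι] (v : μ → ι → ℝ) (q : ℝ)
    (hq : 0 ≤ q) (hn : 1 ≤ Fintype.card ι) (hnm : Fintype.card ι ≤ Fintype.card μ)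
    (hmq : (Fintype.card μ : ℝ) * Fintype.card ι ≤ q ^ 4) (hv : ∀ j i, |v j i| ≤ 1) :
    ∃ s s' : ι → Bool, Fintype.card ι ≤ 10 * #{i | s i ≠ s' i} ∧
      ∀ j, |∑ i, sg (s i) * v j i - ∑ i, sg (s' i) * v j i| ≤ 80 * q := by
  classical
  by_contra hcon
  push Not at hcon
  set n := Fintype.card ι with hndef
  set m := Fintype.card μ with hmdef
  have hn1 : (1 : ℝ) ≤ n := by exact_mod_cast hn
  have hnm1 : (n : ℝ) ≤ m := by exact_mod_cast hnm
  set r := Real.sqrt n with hr
  have hr2 : r ^ 2 = n := Real.sq_sqrt (by linarith)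
  have hr0 : 0 < r := Real.sqrt_pos.2 (by linarith)
  set ρ := q / r with hρ
  have hqρ : q = ρ * r := by rw [hρ]; field_simp
  have hρ0 : 0 ≤ ρ := by positivity
  have hρ4 : (m : ℝ) ≤ ρ ^ 4 * n := by
    have : q ^ 4 = ρ ^ 4 * n * n := by rw [hqρ, ← hr2]; ring
    rw [this] at hmq
    exact le_of_mul_le_mul_right hmq (by linarith)
  have hρ41 : 1 ≤ ρ ^ 4 := by
    have : 1 * (n : ℝ) ≤ ρ ^ 4 * n := by linarith
    exact le_of_mul_le_mul_right this (by linarith)
  have hρ1 : 1 ≤ ρ := by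
    by_contra h
    push Not at h
    have := pow_lt_one₀ hρ0 h (n := 4) (by norm_num)
    linarith
  have hq0 : 0 < q := by rw [hqρ]; positivity
  set L : (ι → Bool) → μ → ℝ := fun s j => ∑ i, sg (s i) * v j i with hL
  set b : (ι → Bool) → μ → ℤ := fun s j => round (L s j / (80 * q)) with hb
  set x : ℝ := 1 / (400 * ρ ^ 4) with hx
  have hx0 : 0 < x := by positivity
  have hx1 : x ≤ 1 / 3 := by
    rw [hx]; apply one_div_le_one_div_of_le <;> linarith
  have hxm : x * m ≤ n / 400 := by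
    rw [hx, div_mul_eq_mul_div, div_le_div_iff₀ (by positivity) (by norm_num)]; nlinarith
  -- fibres are small
  have hF : ∀ β, (#{s | b s = β} : ℝ) ≤ (5 / 4) ^ n * Real.exp (0.15 * n) := by
    intro β
    rcases (univ.filter fun s => b s = β).eq_empty_or_nonempty with h | ⟨s₀, hs₀⟩
    · rw [h]; simp only [card_empty, Nat.cast_zero]; positivity
    · refine ball_le s₀ _ fun s hs => ?_
      by_contra hlt
      push Not at hlt
      obtain ⟨j, hj⟩ := hcon s s₀ hlt.le
      have e : b s j = b s₀ j := by rw [(mem_filter.1 hs).2, (mem_filter.1 hs₀).2]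
      have e1 := abs_sub_round (L s j / (80 * q))
      have e2 := abs_sub_round (L s₀ j / (80 * q))
      simp only [hb] at e
      rw [e] at e1
      have e3 : |L s j / (80 * q) - L s₀ j / (80 * q)| ≤ 1 := by
        rw [abs_le] at *; constructor <;> linarith [e1.1, e1.2, e2.1, e2.2]
      rw [← sub_div, abs_div, abs_of_pos (by positivity : 0 < 80 * q),
        div_le_one (by positivity)] at e3
      exact absurd e3 (not_le.2 hj)
  have hW := weight_le b x _ hx0.le hx1 (by positivity) hF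
  -- mean bucket size
  have hE : ∀ j, ∑ s, ((b s j).natAbs : ℝ) ≤ 2 ^ n * (4 * Real.exp (-(40 * ρ))) := by
    intro j
    have h1 := mgf (v j) (hv j) (1 / r)
    have h2 := mgf (v j) (hv j) (-(1 / r))
    have e1 : (1 / r) ^ 2 * n / 2 = 1 / 2 := by rw [← hr2]; field_simp
    rw [neg_sq] at h2
    rw [← hndef, e1] at h1 h2
    have h3 : Real.exp (1 / 2) ≤ 2 := by
      have := Real.add_one_le_exp (-(1 / 2) : ℝ)
      have h4 : Real.exp (1 / 2) * Real.exp (-(1 / 2)) = 1 := by rw [← Real.exp_add]; simp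
      nlinarith [Real.exp_pos (1 / 2 : ℝ)]
    calc ∑ s, ((b s j).natAbs : ℝ) ≤ ∑ s, Real.exp (-(40 * ρ)) *
          (Real.exp (1 / r * L s j) + Real.exp (-(1 / r) * L s j)) := by
          refine sum_le_sum fun s _ => ?_
          have := round_le (L s j / (80 * q)) (80 * ρ) (by linarith)
          have e2 : 80 * ρ * (L s j / (80 * q)) = 1 / r * L s j := by
            rw [hqρ]; field_simp
          have e3 : -(80 * ρ) / 2 = -(40 * ρ) := by ring
          rw [e2, e3] at this
          rw [Nat.cast_natAbs, neg_mul]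
          push_cast
          exact this
      _ = Real.exp (-(40 * ρ)) * (∑ s, Real.exp (1 / r * L s j) +
            ∑ s, Real.exp (-(1 / r) * L s j)) := by rw [← mul_sum, sum_add_distrib]
      _ ≤ Real.exp (-(40 * ρ)) * (2 ^ n * 2 + 2 ^ n * 2) := by
          refine mul_le_mul_of_nonneg_left (add_le_add ?_ ?_) (Real.exp_pos _).le
          · exact h1.trans (mul_le_mul_of_nonneg_left h3 (by positivity))
          · exact h2.trans (mul_le_mul_of_nonneg_left h3 (by positivity))
      _ = _ := by ring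
  set y : (ι → Bool) → ℝ := fun s => 400 * ρ ^ 4 * ∑ j, ((b s j).natAbs : ℝ) with hy
  have hY : ∑ s, y s ≤ 2 ^ n * (n / 100) := by
    simp only [hy]
    rw [← mul_sum, sum_comm]
    have h1 : ∑ j, ∑ s, ((b s j).natAbs : ℝ) ≤ m * (2 ^ n * (4 * Real.exp (-(40 * ρ)))) := by
      refine (sum_le_sum fun j _ => hE j).trans ?_
      rw [sum_const, card_univ, nsmul_eq_mul]
    have h2 : 160000 * ρ ^ 8 * Real.exp (-(40 * ρ)) ≤ 1 := by
      have h3 : 5 * ρ ≤ Real.exp (5 * ρ) := by linarith [Real.add_one_le_exp (5 * ρ)]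
      have h4 := pow_le_pow_left₀ (by positivity) h3 8
      rw [← Real.exp_nat_mul] at h4
      have h5 : Real.exp (((8 : ℕ) : ℝ) * (5 * ρ)) * Real.exp (-(40 * ρ)) = 1 := by
        rw [← Real.exp_add]; push_cast; ring_nf; simp
      have h6 : 160000 * ρ ^ 8 ≤ (5 * ρ) ^ 8 := by
        rw [mul_pow]; nlinarith [pow_nonneg hρ0 8]
      calc _ ≤ Real.exp (((8 : ℕ) : ℝ) * (5 * ρ)) * Real.exp (-(40 * ρ)) :=
            mul_le_mul_of_nonneg_right (h6.trans h4) (Real.exp_pos _).le
        _ = 1 := h5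
    calc _ ≤ 400 * ρ ^ 4 * ((ρ ^ 4 * n) * (2 ^ n * (4 * Real.exp (-(40 * ρ))))) := by
          refine mul_le_mul_of_nonneg_left (h1.trans ?_) (by positivity)
          exact mul_le_mul_of_nonneg_right hρ4 (by positivity)
      _ = 2 ^ n * (n / 100) * (160000 * ρ ^ 8 * Real.exp (-(40 * ρ))) := by ring
      _ ≤ 2 ^ n * (n / 100) * 1 := mul_le_mul_of_nonneg_left h2 (by positivity)
      _ = _ := mul_one _
  have hw : ∀ s, Real.exp (-(n / 100)) * (1 + n / 100 - y s) ≤ ∏ j, x ^ (b s j).natAbs := by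
    intro s
    have h1 : Real.exp (-(400 * ρ ^ 4)) ≤ x := by
      rw [hx, Real.exp_neg, one_div]
      exact inv_anti₀ (by positivity) (by linarith [Real.add_one_le_exp (400 * ρ ^ 4)])
    have h2 : Real.exp (-y s) ≤ ∏ j, x ^ (b s j).natAbs := by
      have : -y s = ∑ j, ((b s j).natAbs : ℝ) * (-(400 * ρ ^ 4)) := by
        simp only [hy]; rw [← sum_mul]; ring
      rw [this, Real.exp_sum]
      refine prod_le_prod (fun j _ => (Real.exp_pos _).le) fun j _ => ?_
      rw [Real.exp_nat_mul]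
      exact pow_le_pow_left₀ (Real.exp_pos _).le h1 _
    refine le_trans ?_ h2
    have h3 : Real.exp (-y s) = Real.exp (-(n / 100)) * Real.exp (n / 100 - y s) := by
      rw [← Real.exp_add]; congr 1; ring
    rw [h3]
    refine mul_le_mul_of_nonneg_left ?_ (Real.exp_pos _).le
    linarith [Real.add_one_le_exp (n / 100 - y s)]
  have hlow : Real.exp (-(n / 100)) * 2 ^ n ≤ ∑ s, ∏ j, x ^ (b s j).natAbs := by
    refine le_trans ?_ (sum_le_sum fun s _ => hw s)
    rw [← mul_sum]
    refine mul_le_mul_of_nonneg_left ?_ (Real.exp_pos _).le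
    rw [sum_sub_distrib, sum_const, card_univ, Fintype.card_fun, Fintype.card_bool, nsmul_eq_mul]
    push_cast
    rw [← hndef]
    linarith
  have h1 : Real.exp (3 * x * m) ≤ Real.exp (0.0075 * n) := Real.exp_le_exp.2 (by linarith)
  have h2 : Real.exp (-(n / 100)) * 2 ^ n ≤
      (5 / 4) ^ n * Real.exp (0.15 * n) * Real.exp (0.0075 * n) :=
    hlow.trans (hW.trans (mul_le_mul_of_nonneg_left h1 (by positivity)))
  have h3 : (2 : ℝ) ^ n ≤ (5 / 4 * Real.exp 0.1675) ^ n := by
    have := mul_le_mul_of_nonneg_left h2 (Real.exp_pos (n / 100)).le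
    rw [← mul_assoc, ← Real.exp_add] at this
    simp only [add_neg_cancel, Real.exp_zero, one_mul] at this
    refine this.trans (le_of_eq ?_)
    rw [mul_pow, ← Real.exp_nat_mul, mul_assoc, ← Real.exp_add, mul_left_comm, ← Real.exp_add]
    congr 2; ring
  have h4 : 5 / 4 * Real.exp 0.1675 < 2 := by
    have := Real.add_one_le_exp (-0.1675 : ℝ)
    have h4 : Real.exp 0.1675 * Real.exp (-0.1675) = 1 := by rw [← Real.exp_add]; simp
    nlinarith [Real.exp_pos (0.1675 : ℝ)]
  have := pow_lt_pow_left₀ h4 (by positivity) (n := n) (by omega)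
  linarith

lemma partial_fin {ι μ : Type} [Fintype μ] [DecidableEq ι] (v : μ → ι → ℝ) (q : ℝ)
    (A : Finset ι) (hq : 0 ≤ q) (hn : 1 ≤ #A) (hnm : #A ≤ Fintype.card μ)
    (hmq : (Fintype.card μ : ℝ) * #A ≤ q ^ 4) (hv : ∀ j i, |v j i| ≤ 1) :
    ∃ s s' : ι → Bool, #A ≤ 10 * #{i ∈ A | s i ≠ s' i} ∧
      ∀ j, |∑ i ∈ A, sg (s i) * v j i - ∑ i ∈ A, sg (s' i) * v j i| ≤ 80 * q := by
  obtain ⟨s, s', h1, h2⟩ := partial_col (ι := A) (fun j i => v j i) q hq
    (by rwa [Fintype.card_coe]) (by rwa [Fintype.card_coe]) (by rwa [Fintype.card_coe])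
    (fun j i => hv j i)
  refine ⟨fun i => if h : i ∈ A then s ⟨i, h⟩ else true,
    fun i => if h : i ∈ A then s' ⟨i, h⟩ else true, ?_, fun j => ?_⟩
  · rw [Fintype.card_coe] at h1
    refine h1.trans (Nat.mul_le_mul_left _ ?_)
    refine card_le_card_of_injOn (fun i => i.1) (fun i hi => ?_) (fun i _ j _ h => Subtype.ext h)
    have := (mem_filter.1 hi).2
    simp only [coe_filter, Set.mem_ofPred_eq, i.2, dite_true, true_and]
    exact this
  · have := h2 j
    rw [← sum_coe_sort A, ← sum_coe_sort A]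
    simpa using this

theorem spencer_fin {ι μ : Type} [Fintype μ] [DecidableEq ι] (v : μ → ι → ℝ)
    (hv : ∀ j i, |v j i| ≤ 1) (n : ℕ) : ∀ (A : Finset ι) (q : ℝ), #A = n → 0 ≤ q →
    #A ≤ Fintype.card μ → (Fintype.card μ : ℝ) * #A ≤ q ^ 4 →
    ∃ χ : ι → ℝ, (∀ i, χ i = 1 ∨ χ i = -1) ∧ ∀ j, |∑ i ∈ A, χ i * v j i| ≤ 1600 * q := by
  induction n using Nat.strong_induction_on with
  | _ n ih =>
  intro A q hA hq hnm hmq
  rcases A.eq_empty_or_nonempty with h | h
  · subst h
    exact ⟨fun _ => 1, fun _ => Or.inl rfl, fun j => by simp only [sum_empty, abs_zero]; positivity⟩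
  obtain ⟨s, s', h1, h2⟩ := partial_fin v q A hq h.card_pos hnm hmq hv
  set B := A.filter fun i => ¬ (s i ≠ s' i) with hB
  have hc : #{i ∈ A | s i ≠ s' i} + #B = #A := card_filter_add_card_filter_not _
  have hpos := h.card_pos
  have hB1 : 10 * #B ≤ 9 * #A := by omega
  have hB2 : (10 : ℝ) * #B ≤ 9 * #A := by exact_mod_cast hB1
  obtain ⟨χ, hχ1, hχ2⟩ := ih #B (by omega) B (0.975 * q) rfl (by positivity) (by omega) (by
    have hm : (0 : ℝ) ≤ Fintype.card μ := Nat.cast_nonneg _
    rw [mul_pow]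
    nlinarith [mul_le_mul_of_nonneg_left hB2 hm, pow_nonneg hq 4])
  refine ⟨fun i => if s i ≠ s' i then sg (s i) else χ i, fun i => ?_, fun j => ?_⟩
  · dsimp only
    split_ifs
    · cases s i <;> simp [sg]
    · exact hχ1 i
  · have e : ∑ i ∈ A, (if s i ≠ s' i then sg (s i) else χ i) * v j i =
        (∑ i ∈ A, sg (s i) * v j i - ∑ i ∈ A, sg (s' i) * v j i) / 2 + ∑ i ∈ B, χ i * v j i := by
      rw [hB, sum_filter, ← sum_sub_distrib, sum_div, ← sum_add_distrib]
      refine sum_congr rfl fun i _ => ?_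
      cases s i <;> cases s' i <;> simp [sg]
      ring
    rw [e]
    have h3 := h2 j
    have h4 := hχ2 j
    rw [abs_le] at *
    constructor <;> linarith [h3.1, h3.2, h4.1, h4.2]

end Crest.Agent.R75.H

namespace Crest.Agent.R75

theorem spencer : SpencerStmt := by
  refine ⟨1600, by norm_num, fun ι μ _ _ v hc hv => ?_⟩
  classical
  refine H.spencer_fin v hv _ univ _ rfl (by positivity) hc (le_of_eq ?_)
  rw [← Real.rpow_natCast, ← Real.rpow_mul (by positivity)]
  simp

end Crest.Agent.R75
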