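import Crest.Agent.R75.Defs

set_option autoImplicit false

open Finset Real

namespace Crest.Agent.R75.W

lemma fejer_eq (N : ℕ) (u : ℝ) :
    (N : ℝ) + 2 * ∑ n ∈ range N, ((N : ℝ) - (n + 1)) * cos ((n + 1) * u) =
      (∑ j ∈ range N, cos (j * u)) ^ 2 + (∑ j ∈ range N, sin (j * u)) ^ 2 := by
  induction N with
  | zero => simp
  | succ N ih =>
    rw [sum_range_succ (fun j : ℕ => cos (j * u)), sum_range_succ (fun j : ℕ => sin (j * u)),
      sum_range_succ]
    have h1 : ∑ n ∈ range N, cos ((n + 1 : ℝ) * u) =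
        (∑ j ∈ range N, cos (j * u)) * cos (N * u) + (∑ j ∈ range N, sin (j * u)) * sin (N * u) := by
      rw [sum_mul, sum_mul, ← sum_add_distrib, ← sum_range_reflect]
      refine sum_congr rfl fun j hj => ?_
      have hj' : j + 1 ≤ N := mem_range.1 hj
      rw [← cos_sub, ← cos_neg]
      congr 1
      rw [show N - 1 - j = N - (j + 1) by omega, Nat.cast_sub hj']; push_cast; ring
    have h2 : ∑ n ∈ range N, (((N + 1 : ℕ) : ℝ) - (n + 1)) * cos ((n + 1) * u) =
        ∑ n ∈ range N, ((N : ℝ) - (n + 1)) * cos ((n + 1) * u) +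
          ∑ n ∈ range N, cos ((n + 1 : ℝ) * u) := by
      rw [← sum_add_distrib]; refine sum_congr rfl fun j _ => by push_cast; ring
    rw [h2, h1]
    have h3 := sin_sq_add_cos_sq (N * u)
    push_cast
    nlinarith

noncomputable def P (N : ℕ) (x : ℝ) : ℝ :=
  N * x + 2 * ∑ n ∈ range N, ((N : ℝ) - (n + 1)) * (sin ((n + 1) * x) / (n + 1))

lemma P_mono (N : ℕ) : Monotone (P N) := by
  have hd : ∀ x, HasDerivAt (P N)
      ((N : ℝ) + 2 * ∑ n ∈ range N, ((N : ℝ) - (n + 1)) * cos ((n + 1) * x)) x := by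
    intro x
    unfold P
    refine HasDerivAt.add (by simpa using (hasDerivAt_id x).const_mul (N : ℝ)) ?_
    refine HasDerivAt.const_mul _ (HasDerivAt.fun_sum fun n _ => HasDerivAt.const_mul _ ?_)
    have h0 : ((n : ℝ) + 1) ≠ 0 := by positivity
    have := (((hasDerivAt_id x).const_mul ((n : ℝ) + 1)).sin).div_const ((n : ℝ) + 1)
    simp only [id] at this
    convert this using 1
    field_simp
  refine monotone_of_deriv_nonneg (fun x => (hd x).differentiableAt) fun x => ?_
  rw [(hd x).deriv, fejer_eq]; positivity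

/-- Odd part of the integrated Fejer kernel. -/
lemma U_bound (N : ℕ) (x : ℝ) :
    |∑ n ∈ (range (N + 1)).filter Odd, ((N : ℝ) - n) * (sin (n * x) / n)| ≤ N * π / 4 := by
  have h1 := P_mono N (show x ≤ x + π by linarith [pi_pos])
  have h2 := P_mono N (show x + π ≤ x + 2 * π by linarith [pi_pos])
  have h3 : P N (x + 2 * π) = P N x + 2 * π * N := by
    unfold P
    have : ∀ n : ℕ, sin ((n + 1 : ℝ) * (x + 2 * π)) = sin ((n + 1) * x) := by
      intro n
      rw [mul_add, show (n + 1 : ℝ) * (2 * π) = ((n + 1 : ℕ) : ℝ) * (2 * π) by push_cast; ring,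
        sin_add_nat_mul_two_pi]
    simp only [this]; ring
  have h4 : P N (x + π) = P N x + N * π -
      4 * ∑ n ∈ (range (N + 1)).filter Odd, ((N : ℝ) - n) * (sin (n * x) / n) := by
    unfold P
    rw [sum_filter, sum_range_succ']
    simp only [Nat.not_odd_zero, if_false, add_zero]
    have : ∑ n ∈ range N, ((N : ℝ) - (n + 1)) * (sin ((n + 1) * (x + π)) / (n + 1)) =
        ∑ n ∈ range N, ((N : ℝ) - (n + 1)) * (sin ((n + 1) * x) / (n + 1)) -
        2 * ∑ n ∈ range N, (if Odd (n + 1) then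
          ((N : ℝ) - ((n + 1 : ℕ) : ℝ)) * (sin (((n + 1 : ℕ) : ℝ) * x) / ((n + 1 : ℕ) : ℝ)) else 0) := by
      rw [mul_sum, ← sum_sub_distrib]
      refine sum_congr rfl fun n _ => ?_
      rw [mul_add, show (n + 1 : ℝ) * π = ((n + 1 : ℕ) : ℝ) * π by push_cast; ring,
        sin_add_nat_mul_pi]
      split_ifs with h
      · rw [h.neg_one_pow]; push_cast; ring
      · rw [(Nat.not_odd_iff_even.1 h).neg_one_pow]; ring
    rw [this]; ring
  rw [abs_le]; constructor <;> nlinarith

lemma U_bound' {K N : ℕ} (hN : N ≤ K + 1) (x : ℝ) :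
    |∑ n ∈ (range (K + 1)).filter Odd, max ((N : ℝ) - n) 0 * (sin (n * x) / n)| ≤ N * π / 4 := by
  convert U_bound N x using 2
  have e1 : ∀ M : ℕ, N ≤ M → ∑ n ∈ (range M).filter Odd, max ((N : ℝ) - n) 0 * (sin (n * x) / n) =
      ∑ n ∈ (range N).filter Odd, ((N : ℝ) - n) * (sin (n * x) / n) := by
    intro M hM
    symm
    refine (sum_congr rfl fun n hn => ?_).trans (sum_subset (filter_subset_filter _
      (range_subset_range.2 hM)) fun n hn hn' => ?_)
    · have : (n : ℝ) ≤ N := by exact_mod_cast (mem_range.1 (mem_filter.1 hn).1).le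
      rw [max_eq_left (by linarith)]
    · have : N ≤ n := by
        by_contra h
        exact hn' (mem_filter.2 ⟨mem_range.2 (by omega), (mem_filter.1 hn).2⟩)
      have : (N : ℝ) ≤ n := by exact_mod_cast this
      rw [max_eq_right (by linarith), zero_mul]
  rw [e1 _ hN, sum_filter, sum_filter, sum_range_succ]; simp

lemma convex_rep (g : ℕ → ℝ) (K n : ℕ) (hn : n ≤ K + 1) :
    g n = ∑ N ∈ range K, max (((N + 1 : ℕ) : ℝ) - n) 0 * (g (N + 2) - 2 * g (N + 1) + g N) +
      g (K + 1) + max (((K + 1 : ℕ) : ℝ) - n) 0 * (g K - g (K + 1)) := by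
  induction K with
  | zero =>
    interval_cases n <;> simp
  | succ K ih =>
    rcases Nat.lt_or_ge n (K + 2) with h | h
    · have h1 : (n : ℝ) ≤ K + 1 := by exact_mod_cast (by omega : n ≤ K + 1)
      rw [sum_range_succ]
      have := ih (by omega)
      rw [max_eq_left (by push_cast; linarith)] at this
      rw [max_eq_left (by push_cast; linarith : (0:ℝ) ≤ ((K + 1 : ℕ) : ℝ) - n),
        max_eq_left (by push_cast; linarith : (0:ℝ) ≤ ((K + 1 + 1 : ℕ) : ℝ) - n)]
      push_cast at this ⊢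
      linear_combination this
    · have : n = K + 2 := by omega
      subst this
      rw [sum_eq_zero fun N hN => by
        have : (N : ℝ) ≤ K := by exact_mod_cast Nat.lt_succ_iff.1 (mem_range.1 hN)
        rw [max_eq_right (by push_cast; linarith), zero_mul]]
      simp only [zero_add, sub_self, max_self, zero_mul, add_zero]

lemma convex_bound (g : ℕ → ℝ) (K : ℕ) (hc : ∀ N, 0 ≤ g (N + 2) - 2 * g (N + 1) + g N)
    (hd : 0 ≤ g K - g (K + 1)) (h0 : 0 ≤ g (K + 1)) (x : ℝ) :
    |∑ n ∈ (range (K + 1)).filter Odd, g n * (sin (n * x) / n)| ≤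
      g 0 * π / 4 + g (K + 1) * ∑ n ∈ range (K + 1), (1 / n : ℝ) := by
  have e : ∑ n ∈ (range (K + 1)).filter Odd, g n * (sin (n * x) / n) =
      ∑ N ∈ range K, (g (N + 2) - 2 * g (N + 1) + g N) *
        ∑ n ∈ (range (K + 1)).filter Odd, max (((N + 1 : ℕ) : ℝ) - n) 0 * (sin (n * x) / n) +
      g (K + 1) * ∑ n ∈ (range (K + 1)).filter Odd, (sin (n * x) / n) +
      (g K - g (K + 1)) *
        ∑ n ∈ (range (K + 1)).filter Odd, max (((K + 1 : ℕ) : ℝ) - n) 0 * (sin (n * x) / n) := by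
    simp only [mul_sum]
    rw [sum_comm, ← sum_add_distrib, ← sum_add_distrib]
    refine sum_congr rfl fun n hn => ?_
    have := convex_rep g K n (mem_range.1 (mem_filter.1 hn).1).le
    rw [this, add_mul, add_mul, sum_mul]
    congr 1
    · congr 1; exact sum_congr rfl fun N _ => by ring
    · ring
  have g0 := convex_rep g K 0 (Nat.zero_le _)
  simp only [Nat.cast_zero, sub_zero] at g0
  have b1 : |∑ N ∈ range K, (g (N + 2) - 2 * g (N + 1) + g N) *
        ∑ n ∈ (range (K + 1)).filter Odd, max (((N + 1 : ℕ) : ℝ) - n) 0 * (sin (n * x) / n)| ≤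
      (∑ N ∈ range K, max (((N + 1 : ℕ) : ℝ)) 0 * (g (N + 2) - 2 * g (N + 1) + g N)) * π / 4 := by
    refine (abs_sum_le_sum_abs _ _).trans ?_
    rw [sum_mul, sum_div]
    refine sum_le_sum fun N hN => ?_
    rw [abs_mul, abs_of_nonneg (hc N), max_eq_left (Nat.cast_nonneg _)]
    have := mul_le_mul_of_nonneg_left
      (U_bound' (K := K) (N := N + 1) (by have := mem_range.1 hN; omega) x) (hc N)
    linarith
  have b2 : |∑ n ∈ (range (K + 1)).filter Odd, (sin (n * x) / n)| ≤
      ∑ n ∈ range (K + 1), (1 / n : ℝ) := by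
    refine (abs_sum_le_sum_abs _ _).trans ((sum_le_sum fun n _ => ?_).trans
      (sum_le_sum_of_subset_of_nonneg (filter_subset _ _) fun _ _ _ => by positivity))
    rw [abs_div, Nat.abs_cast]
    exact div_le_div_of_nonneg_right (abs_sin_le_one _) (Nat.cast_nonneg _)
  have b3 := mul_le_mul_of_nonneg_left (U_bound' (K := K) (N := K + 1) le_rfl x) hd
  have b2' := mul_le_mul_of_nonneg_left b2 h0
  rw [max_eq_left (Nat.cast_nonneg _ : (0:ℝ) ≤ ((K + 1 : ℕ) : ℝ))] at g0
  rw [e]
  refine (abs_add_le _ _).trans ?_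
  refine (add_le_add_left (abs_add_le _ _) _).trans ?_
  rw [abs_mul (g (K + 1)), abs_mul (g K - g (K + 1)), abs_of_nonneg h0, abs_of_nonneg hd]
  have := mul_nonneg h0 pi_pos.le
  rw [g0]
  nlinarith

lemma odd_sq : HasSum (fun n : ℕ => if Odd n then (1 : ℝ) / (n : ℝ) ^ 2 else 0) (π ^ 2 / 8) := by
  have h1 : HasSum (fun n : ℕ => if Odd n then 0 else (1 : ℝ) / (n : ℝ) ^ 2) (π ^ 2 / 24) := by
    have hi : Function.Injective fun n : ℕ => 2 * n := fun a b h => by simpa using h
    rw [← hi.hasSum_iff (fun x hx => by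
      rw [if_pos]
      rw [← Nat.not_even_iff_odd]
      rintro ⟨r, hr⟩; exact hx ⟨r, by simp; omega⟩)]
    convert! hasSum_zeta_two.mul_left (1 / 4) using 1
    · funext n
      simp only [Function.comp]
      rw [if_neg (by simp)]; push_cast
      rcases Nat.eq_zero_or_pos n with h | h
      · simp [h]
      · field_simp; ring
    · ring
  convert! hasSum_zeta_two.sub h1 using 1
  · funext n; split_ifs <;> simp
  · ring

lemma rpow_convex {η : ℝ} (hη : 0 < η) {x : ℝ} (hx : 1 < x) :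
    0 ≤ (x + 1) ^ (-η) - 2 * x ^ (-η) + (x - 1) ^ (-η) := by
  have h1 : 0 < x - 1 := by linarith
  have h2 : 0 < x + 1 := by linarith
  have h3 : 0 < x := by linarith
  have a1 : (x + 1) ^ (-η) = ((x + 1) ^ (-η / 2)) ^ 2 := by
    rw [← rpow_natCast, ← rpow_mul h2.le]; congr 1; push_cast; ring
  have a2 : (x - 1) ^ (-η) = ((x - 1) ^ (-η / 2)) ^ 2 := by
    rw [← rpow_natCast, ← rpow_mul h1.le]; congr 1; push_cast; ring
  have a3 : x ^ (-η) = (x ^ 2) ^ (-η / 2) := by
    rw [← rpow_natCast, ← rpow_mul h3.le]; congr 1; push_cast; ring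
  have a4 : (x ^ 2) ^ (-η / 2) ≤ ((x + 1) * (x - 1)) ^ (-η / 2) :=
    rpow_le_rpow_of_nonpos (by positivity) (by nlinarith) (by linarith)
  rw [mul_rpow h2.le h1.le] at a4
  rw [a1, a2, a3]
  nlinarith [sq_nonneg ((x + 1) ^ (-η / 2) - (x - 1) ^ (-η / 2))]

lemma tail_small {η : ℝ} (hη : 0 < η) {θ : ℝ} (hθ : 0 < θ) (K₀ : ℕ) :
    ∃ K ≥ K₀, ((K + 1 : ℕ) : ℝ) ^ (-η) * ∑ n ∈ range (K + 1), (1 / n : ℝ) ≤ θ := by
  have hs : Summable fun n : ℕ => ((n : ℝ) ^ (1 + η / 2))⁻¹ :=
    summable_nat_rpow_inv.2 (by linarith)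
  set C := ∑' n : ℕ, ((n : ℝ) ^ (1 + η / 2))⁻¹
  have ht : Filter.Tendsto (fun K : ℕ => ((K + 1 : ℕ) : ℝ) ^ (-(η / 2)) * C) Filter.atTop (nhds 0) := by
    have := ((tendsto_rpow_neg_atTop (by linarith : 0 < η / 2)).comp
      (tendsto_natCast_atTop_atTop.comp (Filter.tendsto_add_atTop_nat 1))).mul_const C
    simpa using this
  obtain ⟨K, hK, hK'⟩ := ((ht.eventually (gt_mem_nhds hθ)).and (Filter.eventually_ge_atTop K₀)).exists
  refine ⟨K, hK', le_trans ?_ hK.le⟩
  have hp : (0:ℝ) < ((K + 1 : ℕ) : ℝ) := by positivity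
  rw [show -η = -(η / 2) + -(η / 2) by ring, rpow_add hp, mul_assoc]
  refine mul_le_mul_of_nonneg_left ?_ (by positivity)
  refine le_trans ?_ (hs.sum_le_tsum (range (K + 1)) fun _ _ => by positivity)
  rw [mul_sum]
  refine sum_le_sum fun n hn => ?_
  rcases Nat.eq_zero_or_pos n with h | h
  · subst h; simp; positivity
  · have hn0 : (0:ℝ) < n := by exact_mod_cast h
    have hle : (n : ℝ) ≤ ((K + 1 : ℕ) : ℝ) := by exact_mod_cast (mem_range.1 hn).le
    have := rpow_le_rpow_of_nonpos hn0 hle (by linarith : -(η / 2) ≤ 0)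
    rw [rpow_add hn0, rpow_one, mul_inv, ← rpow_neg hn0.le, one_div, mul_comm]
    exact mul_le_mul_of_nonneg_left this (by positivity)

end Crest.Agent.R75.W

namespace Crest.Agent.R75

open W

theorem wave : WaveStmt := by
  intro ε hε
  set e := min (ε / 6) (1 / 10) with he
  have e0 : 0 < e := by positivity
  have e1 : e ≤ ε / 6 := min_le_left _ _
  have e2 : e ≤ 1 / 10 := min_le_right _ _
  have hpi : 0 < π ^ 2 / 8 := by positivity
  obtain ⟨K₀, hK₀, hK₀'⟩ := ((odd_sq.tendsto_sum_nat.eventually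
    (lt_mem_nhds (show π ^ 2 / 8 * (1 - e) < π ^ 2 / 8 by nlinarith))).and
      (Filter.eventually_ge_atTop 1)).exists
  have hK0r : (0:ℝ) < K₀ := by exact_mod_cast hK₀'
  have hc : Filter.Tendsto (fun η : ℝ => (K₀ : ℝ) ^ (-(2 * η))) (nhdsWithin 0 (Set.Ioi 0)) (nhds 1) := by
    have : Continuous fun η : ℝ => (K₀ : ℝ) ^ (-(2 * η)) :=
      continuous_const.rpow (by fun_prop) fun _ => Or.inl hK0r.ne'
    simpa using (this.tendsto 0).mono_left nhdsWithin_le_nhds
  obtain ⟨η, hη1, hη2, hη3⟩ := ((hc.eventually (lt_mem_nhds (show 1 - e < 1 by linarith))).and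
    (Filter.Eventually.and (Ioo_mem_nhdsGT e0) (self_mem_nhdsWithin))).exists
  have hη : 0 < η := hη2.1
  have hηe : η < e := hη2.2
  obtain ⟨K, hK, hK'⟩ := tail_small hη (show 0 < e * π / 4 by positivity) K₀
  set a := 4 / π / (1 + 2 * e) with ha
  have ha0 : 0 < a := by positivity
  refine ⟨η, a, K, hη, by linarith, ha0, ?_, by omega, fun φ => ?_, ?_⟩
  · rw [ha, div_div, div_le_iff₀ (by positivity)]; nlinarith [pi_gt_three]
  · set g : ℕ → ℝ := fun n => if n = 0 then 2 - 2 ^ (-η) else (n : ℝ) ^ (-η) with hg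
    have hb := convex_bound g K (fun N => by
        rcases Nat.eq_zero_or_pos N with h | h
        · subst h; simp [hg]
        · have := rpow_convex hη (x := (N : ℝ) + 1) (by
            have : (0:ℝ) < N := by exact_mod_cast h
            linarith)
          simp only [hg, if_neg h.ne', Nat.add_eq_zero_iff, OfNat.ofNat_ne_zero, and_false,
            one_ne_zero, if_false]
          push_cast
          convert this using 3 <;> ring_nf)
      (by
        simp only [hg, if_neg (by omega : K ≠ 0), Nat.add_eq_zero_iff, one_ne_zero, and_false,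
          if_false, sub_nonneg]
        exact rpow_le_rpow_of_nonpos (by exact_mod_cast (by omega : 0 < K)) (by simp) (by linarith))
      (by simp only [hg, Nat.add_eq_zero_iff, one_ne_zero, and_false, if_false]; positivity)
      (2 * π * φ)
    have g0 : g 0 ≤ 1 + e := by
      simp only [hg, if_true]
      have : 1 - η ≤ (2:ℝ) ^ (-η) := by
        rw [rpow_def_of_pos two_pos]
        have h1 := add_one_le_exp (log 2 * -η)
        have h2 := log_two_lt_d9
        nlinarith
      linarith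
    have g1 : g (K + 1) = ((K + 1 : ℕ) : ℝ) ^ (-η) := by simp [hg]
    rw [g1] at hb
    have eq : ∑ n ∈ (range (K + 1)).filter Odd, a * (n : ℝ) ^ (-(1 + η)) * sin (2 * π * n * φ) =
        a * ∑ n ∈ (range (K + 1)).filter Odd, g n * (sin (n * (2 * π * φ)) / n) := by
      rw [mul_sum]
      refine sum_congr rfl fun n hn => ?_
      have hn0 : 0 < n := (mem_filter.1 hn).2.pos
      have hn1 : (0:ℝ) < n := by exact_mod_cast hn0
      simp only [hg, if_neg hn0.ne']
      rw [neg_add, rpow_add hn1, rpow_neg_one, show 2 * π * n * φ = n * (2 * π * φ) by ring]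
      field_simp
    rw [eq, abs_mul, abs_of_pos ha0]
    have : g 0 * π / 4 ≤ (1 + e) * π / 4 := by gcongr
    calc _ ≤ a * ((1 + 2 * e) * π / 4) := mul_le_mul_of_nonneg_left (by linarith) ha0.le
      _ = 1 := by rw [ha]; field_simp
  · have h1 : ∑ n ∈ range K₀, (if Odd n then (1 : ℝ) / (n : ℝ) ^ 2 else 0) * (a ^ 2 / 2 * (1 - e)) ≤
        ∑ n ∈ (range (K + 1)).filter Odd, (a * (n : ℝ) ^ (-(1 + η))) ^ 2 / 2 := by
      rw [sum_filter]
      refine le_trans (sum_le_sum fun n hn => ?_) (sum_le_sum_of_subset_of_nonneg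
        (range_subset_range.2 (by omega : K₀ ≤ K + 1)) fun n _ _ => by split_ifs <;> positivity)
      split_ifs with h
      · have hn1 : (0:ℝ) < n := by exact_mod_cast h.pos
        have hle : (n : ℝ) ≤ K₀ := by exact_mod_cast (mem_range.1 hn).le
        have h2 := rpow_le_rpow_of_nonpos hn1 hle (by linarith : -(2 * η) ≤ 0)
        have h3 : ((n : ℝ) ^ (-(1 + η))) ^ 2 = 1 / (n : ℝ) ^ 2 * (n : ℝ) ^ (-(2 * η)) := by
          rw [← rpow_natCast, ← rpow_mul hn1.le, one_div, ← rpow_natCast, ← rpow_neg hn1.le,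
            ← rpow_add hn1]
          congr 1; push_cast; ring
        rw [mul_pow, h3]
        have : 0 ≤ 1 / (n : ℝ) ^ 2 * (a ^ 2 / 2) := by positivity
        nlinarith [mul_le_mul_of_nonneg_left (hη1.le.trans h2) this]
      · simp
    rw [← sum_mul] at h1
    refine le_trans ?_ h1
    have h2 : π ^ 2 / 8 * (a ^ 2 / 2) = 1 / (1 + 2 * e) ^ 2 := by rw [ha]; field_simp; norm_num
    have h3 : 0 ≤ a ^ 2 / 2 * (1 - e) := mul_nonneg (by positivity) (by linarith)
    refine le_trans ?_ (mul_le_mul_of_nonneg_right hK₀.le h3)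
    have : π ^ 2 / 8 * (1 - e) * (a ^ 2 / 2 * (1 - e)) = (1 - e) ^ 2 / (1 + 2 * e) ^ 2 := by
      rw [show π ^ 2 / 8 * (1 - e) * (a ^ 2 / 2 * (1 - e)) =
        π ^ 2 / 8 * (a ^ 2 / 2) * (1 - e) ^ 2 by ring, h2]; ring
    rw [this, le_div_iff₀ (by positivity)]
    have h5 : (1 - ε) * (1 + 2 * e) ^ 2 ≤ (1 - 6 * e) * (1 + 2 * e) ^ 2 :=
      mul_le_mul_of_nonneg_right (by linarith) (by positivity)
    nlinarith [sq_nonneg e, mul_pos e0 (mul_pos e0 e0)]

end Crest.Agent.R75
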